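import Vale.Agent.P014X.An.Klf

/-! # P014Z, block SU: the double Gauss sum of the twisted Epstein zeta functions -/

set_option autoImplicit false
set_option linter.all false

open UpperHalfPlane hiding I
open Complex Filter Topology
open scoped Real

noncomputable section

namespace Vale.Agent.P014Z.Su

open Vale.Agent.P014T.Sg Vale.Agent.P014X.An

variable {f : ℕ} [NeZero f] (ψ : DirichletCharacter ℂ f)

/-- the Gauss sum -/
def gs : ℂ := gaussSum ψ ZMod.stdAddChar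

/-- the double sum of the twisted zeta functions -/
def ZZ (τ : ℍ) (s : ℝ) : ℂ :=
  ∑ x : ZMod f, ∑ y : ZMod f, ψ (x * y) * Z2 τ (x.val / f) (y.val / f) s

/-- the double sum of the logarithms -/
def LL (τ : ℍ) : ℂ :=
  ∑ x : ZMod f, ∑ y : ZMod f, ψ (x * y) * (lg τ (x.val / f * τ + y.val / f) : ℝ)

namespace Lz

theorem gau (h : ψ.IsPrimitive) (m : ℤ) :
    ∑ y : ZMod f, ψ y * ee (m * (y.val / f)) = ψ⁻¹ m * gs ψ := by
  rw [gs, ← gaussSum_mulShift_of_isPrimitive _ h, gaussSum]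
  refine Finset.sum_congr rfl fun y _ => ?_
  have : (m : ZMod f) * y = (m * y.val : ℤ) := by simp
  rw [AddChar.mulShift_apply, this, ZMod.stdAddChar_coe, ee]
  congr 2
  push_cast
  ring

theorem dbl (h : ψ.IsPrimitive) (v : ℤ × ℤ) :
    ∑ x : ZMod f, ∑ y : ZMod f, ψ (x * y) * ch (x.val / f) (y.val / f) v =
      gs ψ ^ 2 * ψ⁻¹ (-(v.1 * v.2)) := by
  have e : ∀ x y : ZMod f, ψ (x * y) * ch (x.val / f) (y.val / f) v =
      ψ x * ee ((-v.2 : ℤ) * (x.val / f)) * (ψ y * ee (v.1 * (y.val / f))) := fun x y => by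
    rw [ch, map_mul, mul_mul_mul_comm, ← ee_add]
    congr 2
    push_cast
    ring
  simp only [e, ← Finset.mul_sum, ← Finset.sum_mul, gau ψ h]
  rw [mul_mul_mul_comm, ← map_mul, mul_comm, sq]
  congr 2
  push_cast
  ring

theorem gs_ne (h : ψ.IsPrimitive) : gs ψ ≠ 0 := fun z => by
  have a : ZMod.dft (ψ : ZMod f → ℂ) = 0 := funext fun k => by
    rw [h.fourierTransform_eq_inv_mul_gaussSum]
    exact mul_eq_zero_of_right _ z
  have := congrFun ((map_eq_zero_iff _ ZMod.dft.injective).1 a) 1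
  simp at this

end Lz

variable {ψ}

/-- **the double Gauss sum** -/
theorem hs_ZZ (h : ψ.IsPrimitive) (τ : ℍ) {s : ℝ} (hs : 1 < s) : HasSum (fun v : ℤ × ℤ =>
    gs ψ ^ 2 * ψ⁻¹ (-(v.1 * v.2)) * (τ.im ^ s / ‖(v.1 : ℂ) * τ + v.2‖ ^ (2 * s) : ℝ)) (ZZ ψ τ s) := by
  refine (hasSum_sum fun x _ => hasSum_sum fun y _ =>
    (sum_Z2 τ (x.val / f) (y.val / f) hs).mul_left (ψ (x * y))).congr_fun fun v => ?_
  simp only [← Lz.dbl ψ h, Finset.sum_mul, mul_assoc]

theorem nl_unit (hf : 1 < f) (τ : ℍ) {x : ZMod f} (hx : IsUnit x) (b : ℝ) :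
    Nl τ ((x.val / f : ℝ) * τ + b) := nl_iff.2 fun ⟨⟨m, e⟩, _⟩ => by
  have : Fact (1 < f) := ⟨hf⟩
  rw [div_eq_iff (Nat.cast_ne_zero.2 (NeZero.ne f))] at e
  have e' : (x.val : ℤ) = m * f := by exact_mod_cast e
  exact hx.ne_zero (by simpa using congrArg (Int.cast : ℤ → ZMod f) e')

/-- **the limit** -/
theorem lim_ZZ (hf : 1 < f) (ψ : DirichletCharacter ℂ f) (τ : ℍ) :
    Tendsto (ZZ ψ τ) (𝓝[>] 1) (𝓝 (-(2 * π) * LL ψ τ)) := by
  unfold ZZ
  rw [LL, Finset.mul_sum]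
  refine tendsto_finset_sum _ fun x _ => ?_
  rw [Finset.mul_sum]
  refine tendsto_finset_sum _ fun y _ => ?_
  by_cases hx : IsUnit x
  · convert (klf2 (nl_unit hf τ hx (y.val / f))).const_mul (ψ (x * y)) using 2
    push_cast
    ring
  · simp [ψ.map_nonunit hx]

end Vale.Agent.P014Z.Su
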