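import Vale.Agent.P014Z.Su.Defs
import Vale.Agent.P014T.Sg.Ff
import Vale.Agent.P014X.An.Klf0
import Vale.Agent.P004K.Tr
import Vale.Agent.P004R.Qf0

/-! # P014Z, block SU: the unit is a modular function on `X₀(f ^ 2)`; expansion, conjugates -/

set_option autoImplicit false
set_option linter.all false

open PowerSeries Finset UpperHalfPlane CongruenceSubgroup ModularForm
open scoped MatrixGroups

noncomputable section

namespace Vale.Agent.P014Z.Su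

open Vale.Agent.P014T.Sg Vale.Agent.P022 H236 H236.L3 H218.L3 H231.L3 P027M.M
open P014X.An (lg log_ee)

variable {f c m : ℕ} {Γ : Subgroup SL(2, ℤ)} {F G : ℍ → ℂ}

/-! ### holomorphic modular functions -/

/-- a holomorphic modular function for `Γ` -/
def Mm (Γ : Subgroup SL(2, ℤ)) (F : ℍ → ℂ) : Prop := ∃ h : F ∈ Hol, inc F h ∈ MF Γ

theorem Mm.mul (a : Mm Γ F) (b : Mm Γ G) : Mm Γ fun τ => F τ * G τ :=
  ⟨mul_mem a.1 b.1, (inc_mul a.1 b.1).symm ▸ mul_mem a.2 b.2⟩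

theorem Mm.prod {ι : Type} (s : Finset ι) {F : ι → ℍ → ℂ} (h : ∀ i, Mm Γ (F i)) :
    Mm Γ fun τ => ∏ i ∈ s, F i τ := by
  classical
  induction s using Finset.induction_on with
  | empty => exact ⟨one_mem, by simp only [prod_empty, inc_one, (MF Γ).one_mem]⟩
  | insert i s k e => simpa only [prod_insert k] using (h i).mul e

theorem Mm.pow (a : Mm Γ F) (n : ℕ) : Mm Γ fun τ => F τ ^ n := by
  simpa using Mm.prod (range n) fun _ => a

theorem Mm.div (a : Mm Γ F) (b : Mm Γ G) (n : ∀ τ, G τ ≠ 0) : Mm Γ fun τ => F τ / G τ := by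
  have h : (fun τ => F τ / G τ) ∈ Hol := MDifferentiable.div a.1 b.1 n
  have G0 := inc_ne_zero b.1 fun e => n I (congrFun e _)
  refine ⟨h, ?_⟩
  rw [eq_div_of_mul_eq G0 ((inc_mul h b.1).symm.trans
    (inc_congr _ (funext fun τ => div_mul_cancel₀ (F τ) (n τ))))]
  exact div_mem a.2 b.2

theorem Mm.fix {N : ℕ} (hN : 0 < N) (a : Mm (Gamma N) F) (h : ∀ γ ∈ Γ, ∀ τ, F (γ • τ) = F τ) :
    Mm Γ F := by
  have : NeZero N := ⟨hN.ne'⟩
  refine ⟨a.1, mem_MF_of_fixed _ a.2 fun γ k => ?_⟩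
  rw [← inv_inv γ, Exp.act_inc]
  exact inc_congr _ (funext (h _ (inv_mem k)))

theorem Mm.dg {N n : ℕ} (hN : 0 < N) (hn : 0 < n) {g : ℂ → ℂ} (a : Mm (Gamma N) fun τ => g τ) :
    Mm (Gamma (N * n)) fun τ => g (n * τ) := by
  have h := (sPbM _ (diag_pos hn)).1 N hN _ a.2
  rw [pbz, pb_inc, show (!![(n : ℤ), 0; 0, 1] : M2).det.natAbs = n by simp] at h
  simp only [← dg_coe hn]
  exact ⟨_, h⟩

theorem g_hol (a b : ℂ) : (fun τ : ℍ => g12 a b τ) ∈ Hol :=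
  mdifferentiable_iff.2 ((g12_diff isOpen_upperHalfPlaneSet differentiable_id (fun _ => id) a b).congr
    fun s k => by simp [ofComplex_apply_of_im_pos k])

theorem g_bdd (hf : 0 < f) (x y : ℤ) :
    IsBoundedAtImInfty ((fun τ : ℍ => g12 (x / f) (y / f) τ) * discriminant) := by
  have f0 : (f : ℂ) ≠ 0 := Nat.cast_ne_zero.2 hf.ne'
  have f1 : (0 : ℤ) < f := Nat.cast_pos.2 hf
  obtain ⟨r, e⟩ := Int.eq_ofNat_of_zero_le (Int.emod_nonneg x f1.ne')
  have l : r < f := by have := Int.emod_lt_of_pos x f1; omega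
  have hx : (x : ℂ) / f = r / f + (x / f : ℤ) := by
    have : (x : ℂ) = r + f * (x / f : ℤ) := by exact_mod_cast e ▸ (Int.emod_add_mul_ediv x f).symm
    field_simp
    linear_combination this
  have := ((exq_mon (N := f ^ 2) (f ^ 2 + 6 * (r - f) * r)
    (ee (6 * (-(x / f : ℤ) * (y / f)) + 6 * (r / f - 1) * (y / f)))).mul
    ((exq_pq (N := f ^ 2) (a := r * f) (by nlinarith) (y / f)).pow 12)).mul (exq_disc (by positivity))
  refine Exq.bdd (by positivity) (this.congr (.of_forall fun τ => ?_))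
    (by push_cast; nlinarith [sq_nonneg ((f : ℤ) - 2 * r)])
  have e : ((r * f : ℕ) : ℂ) * τ / (f ^ 2 : ℕ) + (y / f : ℚ) = r / f * τ + y / f := by
    push_cast
    field_simp
  have := g12_lat τ.2 (r / f) (y / f) (x / f) 0
  rw [Int.cast_zero, add_zero] at this
  simp only [Pi.mul_apply, e]
  rw [hx, this, g12_eq, ← mul_assoc (ee _), ← ee_add, ← ee_add]
  congr 3
  push_cast
  field_simp
  ring

theorem g_Gamma (hf : 0 < f) (x y : ℤ) {γ : SL(2, ℤ)} (k : γ ∈ Gamma (f ^ 2)) (τ : ℍ) :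
    g12 (x / f) (y / f) (γ • τ : ℍ) = g12 (x / f) (y / f) τ := by
  have f0 : (f : ℂ) ≠ 0 := Nat.cast_ne_zero.2 hf.ne'
  obtain ⟨a, b, c, d⟩ := Gamma_mem.1 k
  obtain ⟨a, ea⟩ := (ZMod.intCast_eq_intCast_iff_dvd_sub 1 _ _).1 (by rw [a, Int.cast_one])
  obtain ⟨d, ed⟩ := (ZMod.intCast_eq_intCast_iff_dvd_sub 1 _ _).1 (by rw [d, Int.cast_one])
  obtain ⟨b, eb⟩ := (ZMod.intCast_zmod_eq_zero_iff_dvd _ _).1 b
  obtain ⟨c, ec⟩ := (ZMod.intCast_zmod_eq_zero_iff_dvd _ _).1 c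
  have := g12_lat τ.2 (x / f) (y / f) (f * (x * a + y * c)) (f * (x * b + y * d))
  rw [ee_congr (y := 0) (6 * ((x * b + y * d) * x - (x * a + y * c) * y)) (by push_cast; field_simp; ring),
    ee_zero, one_mul] at this
  rw [g12_law, ← this, eq_add_of_sub_eq ea, eq_add_of_sub_eq ed, eb, ec]
  push_cast
  congr 1 <;> field_simp <;> ring

theorem g_mm (hf : 0 < f) (x y : ℤ) : Mm (Gamma (f ^ 2)) fun τ => g12 (x / f) (y / f) τ := by
  have D := isMF_disc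
  have s : ∀ (γ : SL(2, ℤ)) (g : ℍ → ℂ), (g * discriminant) ∣[(12 : ℤ)] γ =
      (fun τ => g (γ • τ)) * discriminant := fun γ g => by
    rw [← zero_add (12 : ℤ), mul_slash_SL2, D.slash γ trivial]
    congr 1
    exact funext fun τ => by rw [SL_slash_apply, neg_zero, zpow_zero, mul_one]
  have D0 : discriminant ≠ 0 := fun e => discriminant_ne_zero UpperHalfPlane.I (congrFun e _)
  refine ⟨g_hol _ _, _, (fun τ : ℍ => g12 (x / f) (y / f) τ) * discriminant, _,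
    ⟨mul_mem (g_hol _ _) D.hol, fun γ k => by simp only [s, g_Gamma hf x y k], fun γ => ?_⟩,
    D.mono le_top, D0, by
      rw [inc_mul (g_hol _ _) D.hol, mul_div_cancel_right₀ _ (inc_ne_zero _ D0)]⟩
  have := g_bdd hf (x * γ 0 0 + y * γ 1 0) (x * γ 0 1 + y * γ 1 1)
  simp only [s, g12_law, div_mul_eq_mul_div, ← add_div]
  exact_mod_cast this

variable {x y : ℤ}

theorem Rc_ne {τ : ℂ} (h : 0 < τ.im) (hf : f ≠ 0) (k : ¬ (f : ℤ) ∣ x) (c : ℕ) (y : ℤ) :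
    g12 (x / f) (c * y / f) τ ≠ 0 := by
  have := g12_ne h (nl (x := x) (y := c * y) h hf fun e => k e.1)
  rwa [Int.cast_mul, Int.cast_natCast] at this

theorem Rc_mm (hf : 0 < f) (k : ¬ (f : ℤ) ∣ x) (c : ℕ) (y : ℤ) :
    Mm (Gamma (f ^ 2)) fun τ => Rc f c x y τ := by
  have := g_mm hf x (c * y)
  rw [Int.cast_mul, Int.cast_natCast] at this
  exact ((g_mm hf x y).pow c).div this fun τ => Rc_ne τ.2 hf.ne' k c y

/-- the law for the matrices `!![α, f β; f κ, δ]` -/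
theorem Rc_law (hf : f ≠ 0) (c : ℕ) (x y : ℤ) (γ : SL(2, ℤ)) {β κ : ℤ} (hβ : γ 0 1 = f * β)
    (hκ : γ 1 0 = f * κ) (τ : ℍ) : Rc f c x y (γ • τ : ℍ) =
    ee (6 * (c - 1) * (γ 0 0 * β * x ^ 2 + c * κ * γ 1 1 * y ^ 2) / f) *
      Rc f c (x * γ 0 0) (y * γ 1 1) τ := by
  have f0 : (f : ℂ) ≠ 0 := Nat.cast_ne_zero.2 hf
  have e : ∀ z : ℤ, g12 (x / f) (z / f) (γ • τ : ℍ) = ee (6 * (x * β * (x * γ 0 0 / f) -
      z * κ * (z * γ 1 1 / f))) * g12 (x * γ 0 0 / f) (z * γ 1 1 / f) τ := fun z => by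
    have := g12_lat τ.2 (x * γ 0 0 / f) (z * γ 1 1 / f) (z * κ) (x * β)
    push_cast at this
    rw [g12_law, ← this, hβ, hκ]
    push_cast
    congr 1 <;> field_simp <;> ring
  have := e (c * y)
  push_cast at this
  rw [Rc, Rc, this, e, mul_pow, ← ee_nat, mul_div_mul_comm, ← ee_sub]
  push_cast
  congr 2
  · ring
  · rw [mul_assoc]

theorem f_smul (hf : 0 < f) (γ g : SL(2, ℤ)) (h0 : g 0 0 = γ 0 0) (h1 : g 0 1 = f * γ 0 1)
    (h2 : γ 1 0 = f * g 1 0) (h3 : g 1 1 = γ 1 1) {τ T : ℍ} (e : (T : ℂ) = f * τ) :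
    (f : ℂ) * (γ • τ : ℍ) = (g • T : ℍ) := by
  rw [coe_specialLinearGroup_apply, coe_specialLinearGroup_apply, h0, h1, h2, h3, e]
  simp only [eq_intCast, Complex.ofReal_intCast]
  push_cast
  ring

/-! ### the unit -/

variable [NeZero f] {a : ZMod f}

theorem val_pos (hf : 1 < f) (x : (ZMod f)ˣ) : 0 < (x : ZMod f).val := by
  have : Fact (1 < f) := ⟨hf⟩
  exact ZMod.val_pos.2 x.ne_zero

theorem nd (hf : 1 < f) (x : (ZMod f)ˣ) : ¬ (f : ℤ) ∣ (x : ZMod f).val := fun h =>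
  (Nat.le_of_dvd (val_pos hf x) (Int.natCast_dvd_natCast.1 h)).not_gt (ZMod.val_lt _)

theorem im_f (τ : ℍ) : 0 < ((f : ℂ) * τ).im := by
  simpa using mul_pos (Nat.cast_pos.2 (NeZero.pos f)) τ.2

theorem us_ne (hf : 1 < f) (c m : ℕ) (a : ZMod f) (τ : ℍ) : us f c m a τ ≠ 0 :=
  prod_ne_zero_iff.2 fun x _ => pow_ne_zero _ (div_ne_zero (pow_ne_zero _
    (g12_ne (im_f τ) (nl (im_f τ) (by omega) fun e => nd hf x e.1)))
    (Rc_ne (im_f τ) (by omega) (nd hf x) c _))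

theorem sq_yy (hm : f ∣ m * sq f) (a : ZMod f) :
    f ∣ m * ∑ x : (ZMod f)ˣ, (yy f a x).val ^ 2 := by
  rw [← ZMod.natCast_eq_zero_iff] at hm ⊢
  simp only [sq, yy, Nat.cast_mul, Nat.cast_sum, Nat.cast_pow, ZMod.natCast_zmod_val, mul_pow,
    ← mul_sum] at hm ⊢
  rw [show ∑ x : (ZMod f)ˣ, ((x⁻¹ : (ZMod f)ˣ) : ZMod f) ^ 2 = _ from
    Equiv.sum_comp (Equiv.inv _) fun x : (ZMod f)ˣ => (x : ZMod f) ^ 2, mul_left_comm, hm, mul_zero]

/-- **invariance** -/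
theorem us_inv (hm : f ∣ m * sq f) (c : ℕ) (a : ZMod f) {γ : SL(2, ℤ)} (k : γ ∈ Gamma0 (f ^ 2))
    (τ : ℍ) : us f c m a (γ • τ) = us f c m a τ := by
  have f0 : (f : ℂ) ≠ 0 := NeZero.ne _
  obtain ⟨κ, hκ⟩ := (ZMod.intCast_zmod_eq_zero_iff_dvd _ _).1 (Gamma0_mem.1 k)
  have d := (Matrix.det_fin_two _).symm.trans γ.det_coe
  let g : SL(2, ℤ) := ⟨!![γ 0 0, f * γ 0 1; f * κ, γ 1 1], by
    rw [Matrix.det_fin_two_of]
    push_cast at hκ
    linear_combination d + γ 0 1 * hκ⟩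
  let T : ℍ := ⟨f * τ, im_f τ⟩
  have d' : (γ 0 0 : ZMod f) * γ 1 1 = 1 := by
    have := congrArg (Int.cast : ℤ → ZMod f) d
    rw [hκ] at this
    simpa using this
  let u : (ZMod f)ˣ := ⟨γ 0 0, γ 1 1, d', (mul_comm _ _).trans d'⟩
  obtain ⟨s, hs⟩ := hm
  obtain ⟨t, ht⟩ := sq_yy ⟨s, hs⟩ a
  have hs : (m : ℂ) * ∑ x : (ZMod f)ˣ, ((x : ZMod f).val : ℂ) ^ 2 = f * s := by exact_mod_cast hs
  have ht : (m : ℂ) * ∑ x : (ZMod f)ˣ, ((yy f a x).val : ℂ) ^ 2 = f * t := by exact_mod_cast ht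
  rw [us, f_smul (T := T) (NeZero.pos f) γ g rfl rfl (by rw [hκ]; simp [g, pow_two, mul_assoc]) rfl rfl]
  simp only [Rc_law (NeZero.ne f) c _ _ g (β := γ 0 1) (κ := κ) rfl rfl, mul_pow, prod_mul_distrib,
    ← ee_nat, ← ee_sum]
  rw [ee_congr (y := 0) (6 * (c - 1) * (g 0 0 * γ 0 1 * s + c * κ * g 1 1 * t)), ee_zero, one_mul, us]
  · refine Fintype.prod_equiv (Equiv.mulRight u) _ _ fun x =>
      congrArg (· ^ m) (Rc_congr T.2 (NeZero.ne f) c ?_ ?_)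
    · simp [g, u]
    · simp [g, u, yy, mul_assoc, mul_comm]
  · rw [← mul_sum, ← sum_div, ← mul_sum, sum_add_distrib, ← mul_sum, ← mul_sum]
    push_cast
    rw [← mul_div_assoc, div_eq_iff f0]
    linear_combination 6 * (c - 1) * (g 0 0 * γ 0 1 * hs + c * κ * g 1 1 * ht)

/-- **a modular function on `X₀(f ^ 2)`** -/
theorem us_mm (hf : 1 < f) (hm : f ∣ m * sq f) (c : ℕ) (a : ZMod f) :
    Mm (Gamma0 (f ^ 2)) (us f c m a) :=
  Mm.fix (N := f ^ 2 * f) (by positivity) (Mm.prod _ fun x =>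
    ((Rc_mm (by omega) (nd hf x) c _).dg (by positivity) (by omega)).pow m) fun _ k => us_inv hm c a k

theorem sq_dvd {t : ℕ} (h : t.Coprime f) (t0 : 0 < t) : f ∣ (t ^ 2 - 1) * sq f := by
  rw [← ZMod.natCast_eq_zero_iff, Nat.cast_mul, Nat.cast_sub (Nat.one_le_pow _ _ t0)]
  simp only [sq, Nat.cast_sum, Nat.cast_pow, ZMod.natCast_zmod_val, Nat.cast_one, sub_mul, one_mul]
  rw [sub_eq_zero, mul_sum, ← Equiv.sum_comp (Equiv.mulLeft (ZMod.unitOfCoprime t h))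
    fun x : (ZMod f)ˣ => (x : ZMod f) ^ 2]
  simp [mul_pow]

/-! ### the expansion -/

section

variable {R S : Type} [CommRing R] [CommRing S]

theorem Bz_zero (hf : 1 < f) (ζ : R) (a : ZMod f) : constantCoeff (Bz f ζ a) = 1 := by
  rw [Bz, map_prod]
  refine prod_eq_one fun x _ => ?_
  rw [pq, map_mul, pf_zero, pf_zero, if_neg (val_pos hf x).ne',
    if_neg (Nat.sub_ne_zero_of_lt (ZMod.val_lt _)), mul_one]

theorem Bz_inv (hf : 1 < f) (ζ : R) (a : ZMod f) : Bz f ζ a * invOfUnit (Bz f ζ a) 1 = 1 :=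
  mul_invOfUnit _ _ (Bz_zero hf ζ a)

theorem Fz_zero (hf : 1 < f) (c m : ℕ) (ζ : R) (a : ZMod f) : constantCoeff (Fz f c m ζ a) = 1 := by
  simp [Fz, Bz_zero hf, constantCoeff_invOfUnit]

theorem Bz_map (φ : R →+* S) (ζ : R) (a : ZMod f) : map φ (Bz f ζ a) = Bz f (φ ζ) a := by
  simp only [Bz, map_prod, pq_map, map_pow]

theorem Fz_map (hf : 1 < f) (φ : R →+* S) (c m : ℕ) (ζ : R) (a : ZMod f) :
    map φ (Fz f c m ζ a) = Fz f c m (φ ζ) a := by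
  have := congrArg (map φ) (Bz_inv hf ζ (c * a))
  rw [map_mul, map_one, Bz_map, mul_comm] at this
  rw [Fz, Fz, map_pow, map_mul, map_pow, Bz_map, left_inv_eq_right_inv this (Bz_inv hf _ _)]

theorem pw_congr {ζ : R} (h : ζ ^ f = 1) {n n' : ℕ} (e : (n : ZMod f) = n') : ζ ^ n = ζ ^ n' := by
  rw [pow_eq_pow_mod n h, pow_eq_pow_mod n' h, (ZMod.natCast_eq_natCast_iff' _ _ _).1 e]

theorem Bz_pow {ζ : R} (h : ζ ^ f = 1) (t : ℕ) (a : ZMod f) : Bz f (ζ ^ t) a = Bz f ζ (t * a) := by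
  refine prod_congr rfl fun x _ => ?_
  rw [← pow_mul, ← pow_mul]
  congr 1 <;> exact pw_congr h (by simp [yy, mul_assoc])

theorem Fz_pow {ζ : R} (h : ζ ^ f = 1) (c m t : ℕ) (a : ZMod f) :
    Fz f c m (ζ ^ t) a = Fz f c m ζ (t * a) := by
  rw [Fz, Fz, Bz_pow h, Bz_pow h, mul_left_comm]

end

/-- the value of `Bz` -/
def Bv (f : ℕ) [NeZero f] (a : ZMod f) (τ : ℂ) : ℂ := ∏ x : (ZMod f)ˣ,
  (po (f * τ) ((x : ZMod f).val * τ + (yy f a x).val / f) *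
    po (f * τ) (f * τ - ((x : ZMod f).val * τ + (yy f a x).val / f)))

theorem ee_f (n : ℕ) : ee (n / f) = ee (1 / f) ^ n := by rw [← ee_nat, mul_one_div]

theorem ee_ff : ee (1 / f) ^ f = 1 := by
  rw [← ee_f, div_self (NeZero.ne _)]
  exact ee_one.2 ⟨1, by simp⟩

theorem exq_sc {N : ℕ} (hN : 0 < N) {w : ℤ} {P : ℂ⟦X⟧} {g : ℍ → ℂ} (h : Exq N w P g) {u : ℍ → ℍ}
    (hu : ∀ τ, (u τ : ℂ) = N * τ) : Exq 1 w P fun τ => g (u τ) := by
  have N0 : (N : ℂ) ≠ 0 := Nat.cast_ne_zero.2 hN.ne'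
  filter_upwards [(tendsto_scale (c := N) (by positivity)
    fun τ => by simpa using congrArg Complex.im (hu τ)).eventually h] with τ k
  rwa [q_eq, hu, mul_div_cancel_left₀ _ N0, ← div_one (τ : ℂ), ← Nat.cast_one, ← q_eq] at k

theorem exq_prod {ι : Type} (s : Finset ι) {N : ℕ} {P : ι → ℂ⟦X⟧} {g : ι → ℍ → ℂ}
    (h : ∀ i, Exq N 0 (P i) (g i)) : Exq N 0 (∏ i ∈ s, P i) fun τ => ∏ i ∈ s, g i τ := by
  classical
  induction s using Finset.induction_on with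
  | empty => exact Exq.one
  | insert i s k e => simpa only [prod_insert k, add_zero] using (h i).mul e

theorem Bv_exq (a : ZMod f) : Exq 1 0 (Bz f (ee (1 / f)) a) fun τ => Bv f a τ := by
  have f0 : (f : ℂ) ≠ 0 := NeZero.ne _
  refine exq_prod _ fun x => ?_
  have := exq_sc (NeZero.pos f) (exq_pq (ZMod.val_lt (x : ZMod f)) ((yy f a x).val / f))
    (u := fun τ => ⟨f * τ, im_f τ⟩) fun _ => rfl
  have e : ee (-((yy f a x).val / f) : ℚ) = ee (1 / f) ^ (-yy f a x).val := by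
    rw [← mul_left_inj' (ee_ne ((yy f a x).val / f)), ← ee_add, ee_f, ← pow_add,
      pw_congr ee_ff (n' := 0) (by simp), pow_zero]
    push_cast
    rw [neg_add_cancel, ee_zero]
  rw [e] at this
  simpa only [Rat.cast_div, Rat.cast_natCast, ee_f, coe_mk, mul_left_comm _ (f : ℂ),
    mul_div_cancel_left₀ _ f0] using this

theorem us_eq (hm : f ∣ m * sq f) (c : ℕ) (a : ZMod f) (τ : ℍ) : us f c m a τ =
    ee (wz f c m * τ) * (Bv f a τ ^ c / Bv f (c * a) τ) ^ (12 * m) := by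
  have f0 : (f : ℂ) ≠ 0 := NeZero.ne _
  obtain ⟨s, hs⟩ := hm
  have e : ∀ (r : ℕ) (z : ℂ), (r : ℂ) / f * (f * τ) + z = r * τ + z := fun r z => by field_simp
  have k : ∀ x : (ZMod f)ˣ, ee ((x : ZMod f).val * τ + c * (yy f a x).val / f) =
      ee ((x : ZMod f).val * τ + (yy f (c * a) x).val / f) := fun x => by
    rw [ee_add, ee_add, ← Nat.cast_mul, ee_f, ee_f, pw_congr ee_ff (n' := (yy f (c * a) x).val)
      (by simp [yy, mul_assoc])]
  rw [wz, hs, Nat.mul_div_cancel_left _ (NeZero.pos f)]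
  have hs : (m : ℂ) * ∑ x : (ZMod f)ˣ, ((x : ZMod f).val : ℂ) ^ 2 = f * s := by exact_mod_cast hs
  simp only [us, Rc, Bv, g12_eq, Int.cast_natCast, e, mul_pow (ee _), mul_div_mul_comm (ee _ ^ _),
    ← prod_pow, ← prod_div_distrib]
  simp only [← ee_nat, ← ee_sub]
  simp only [mul_pow (ee _), ← ee_nat]
  rw [prod_mul_distrib, ← ee_sum]
  congr 1
  · have : ∀ r z : ℂ, m * (c * ((f : ℂ) * τ + 6 * (r / f - 1) * (r * τ + z / f)) -
        (f * τ + 6 * (r / f - 1) * (r * τ + c * z / f))) =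
        (c - 1) * τ * (m * (f - 6 * r)) + 6 * (c - 1) * τ / f * (m * r ^ 2) := fun r z => by
      field_simp
      ring
    simp only [this, sum_add_distrib, ← mul_sum, hs]
    congr 1
    push_cast
    field_simp
  · refine prod_congr rfl fun x _ => ?_
    rw [po_congr rfl (k x), po_congr (y := _ - (_ + c * _ / _)) (y' := f * τ - ((x : ZMod f).val * τ +
      (yy f (c * a) x).val / f)) rfl (by rw [ee_sub, k, ← ee_sub]), pow_right_comm, ← div_pow, ← pow_mul]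

/-- **the expansion** -/
theorem us_exq (hf : 1 < f) (hm : f ∣ m * sq f) (c : ℕ) (a : ZMod f) :
    Exq 1 (wz f c m) (Fz f c m (ee (1 / f)) a) (us f c m a) := by
  have z := Bz_zero hf (ee (1 / f)) (c * a)
  have := (exq_mon (N := 1) (wz f c m) 1).mul ((((Bv_exq a).pow c).mul
    ((Bv_exq ((c : ZMod f) * a)).inv one_ne_zero (by rw [z]; exact one_ne_zero)).2).pow (12 * m))
  simp only [mul_zero, neg_zero, add_zero, map_one, one_mul, Nat.cast_one, div_one] at this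
  rw [Fz, invOfUnit_eq' _ 1 z]
  exact this.congr (.of_forall fun τ => by rw [us_eq hm, div_eq_mul_inv])

/-- conjugates of values from conjugates of expansions -/
theorem val_cj {M : ℕ} (hM : 0 < M) {σ : ℂ ≃+* ℂ} {τ τ' : ℍ} (h : P004K.Cj0 σ M τ τ')
    (a : Mm (Gamma0 M) F) (b : Mm (Gamma0 M) G) {w : ℤ} {P : ℂ⟦X⟧} (p : Exq 1 w P F)
    (q : Exq 1 w (map (σ : ℂ →+* ℂ) P) G) : σ (F τ) = G τ' := by
  have e : IsAut 1 σ (inc F a.1) (inc G b.1) :=
    ⟨_, p.exL.exM_inc a.1, cm_ls σ w P ▸ q.exL.exM_inc b.1⟩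
  exact P004R.Qf.val_uniq (P004K.val_of one_pos e (h.rl hM _ a.2 _ b.2 e) (P004R.Qf.val_inc τ a.1))
    (P004R.Qf.val_inc τ' b.1)

theorem Mm.up {N M : ℕ} (a : Mm (Gamma0 N) F) (h : N ∣ M) : Mm (Gamma0 M) F :=
  ⟨a.1, MF_mono (fun γ k => by
    rw [Gamma0_mem, ZMod.intCast_zmod_eq_zero_iff_dvd] at k ⊢
    exact (Int.natCast_dvd_natCast.2 h).trans k) a.2⟩

theorem cy_ee {σ : ℂ ≃+* ℂ} {k : ℤ} (y : P004K.Cy σ f k) :
    σ (ee (1 / f)) = ee (1 / f) ^ (k : ZMod f).val := by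
  have e : ∀ b : ℤ, ze f b = ee (b / f) := fun b => by rw [ze, ee, mul_div_assoc]
  obtain ⟨s, hs⟩ := (ZMod.intCast_eq_intCast_iff_dvd_sub (k : ZMod f).val k f).1 (by simp)
  have f0 : (f : ℂ) ≠ 0 := NeZero.ne _
  rw [P004K.Cy, e, e, Int.cast_one] at y
  have hs : (k : ℂ) - ((k : ZMod f).val : ℕ) = f * s := by exact_mod_cast hs
  rw [y, ← ee_f, ee_congr s]
  field_simp
  linear_combination hs

/-- **the conjugates of the values** -/
theorem us_gal (hf : 1 < f) (hm : f ∣ m * sq f) (c : ℕ) (a : ZMod f) {M : ℕ} (hM : 0 < M)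
    (d : f ^ 2 ∣ M) {σ : ℂ ≃+* ℂ} {τ τ' : ℍ} (h : P004K.Cj0 σ M τ τ') {k : ℤ}
    (y : P004K.Cy σ f k) : σ (us f c m a τ) = us f c m (k * a) τ' := by
  refine val_cj hM h ((us_mm hf hm c a).up d) ((us_mm hf hm c _).up d) (us_exq hf hm c a) ?_
  rw [Fz_map hf, RingHom.coe_coe, cy_ee y, Fz_pow ee_ff, ZMod.natCast_zmod_val]
  exact us_exq hf hm c _

/-! ### the absolute value -/

theorem g12_log {τ : ℂ} (h : 0 < τ.im) {a b : ℝ} (k : ¬ ∃ m n : ℤ, m * τ + n = a * τ + b) :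
    Real.log ‖g12 a b τ‖ = 12 * lg τ (a * τ + b) := by
  rw [g12, norm_mul, Real.log_mul (norm_ne_zero_iff.2 (ee_ne _))
    (norm_ne_zero_iff.2 (pow_ne_zero _ (th_ne h k))), norm_pow, Real.log_pow, log_ee, lg]
  simp
  field_simp
  ring

theorem Rc_log {τ : ℂ} (h : 0 < τ.im) (hf : f ≠ 0) (k : ¬ (f : ℤ) ∣ x) (c : ℕ) (y : ℤ) :
    Real.log ‖Rc f c x y τ‖ =
      12 * (c * lg τ (x / f * τ + y / f) - lg τ (x / f * τ + c * y / f)) := by
  have e : ∀ z : ℤ, Real.log ‖g12 (x / f) (z / f) τ‖ = 12 * lg τ (x / f * τ + z / f) := fun z => by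
    have := g12_log h (a := x / f) (b := z / f) (by exact_mod_cast nl (y := z) h hf fun e => k e.1)
    exact_mod_cast this
  have := e (c * y)
  push_cast at this
  rw [Rc, norm_div, Real.log_div (norm_ne_zero_iff.2 (pow_ne_zero _
    (g12_ne h (nl h hf fun e => k e.1)))) (norm_ne_zero_iff.2 (Rc_ne h hf k c y)), norm_pow,
    Real.log_pow, e, this]
  ring

theorem us_log (hf : 1 < f) (c m : ℕ) (a : ZMod f) (τ : ℍ) : Real.log ‖us f c m a τ‖ =
    12 * m * ∑ x : (ZMod f)ˣ, (c * lg (f * τ) ((x : ZMod f).val * τ + (yy f a x).val / f) -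
      lg (f * τ) ((x : ZMod f).val * τ + c * (yy f a x).val / f)) := by
  have f0 : (f : ℂ) ≠ 0 := NeZero.ne _
  have e : ∀ r : ℕ, (r : ℂ) / f * (f * τ) = r * τ := fun r => by field_simp
  rw [us, norm_prod, Real.log_prod fun x _ => norm_ne_zero_iff.2 (prod_ne_zero_iff.1
    (us_ne hf c m a τ) x (mem_univ x)), mul_sum]
  refine sum_congr rfl fun x _ => ?_
  rw [norm_pow, Real.log_pow, Rc_log (im_f τ) (by omega) (nd hf x)]
  simp only [Int.cast_natCast, e]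
  ring

end Vale.Agent.P014Z.Su
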