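import Vale.Agent.P014Z.Su.Lfz
import Vale.Agent.P014Z.Su.Mod
import Vale.Agent.P014Z.Lk.Cyc

/-! # P014Z, block SU: the character sums of the unit and the leading terms at `s = 0` -/

set_option autoImplicit false
set_option linter.all false

open UpperHalfPlane hiding I
open NumberField Finset

noncomputable section

namespace Vale.Agent.P014Z.Su

open Vale.Agent.P022 (Qb GQ GK below)
open P027H P027M.M P004K
open Vale.Agent.P027M.S (Inert LI)
open Vale.Agent.P022E.GW (Ov)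
open Vale.Agent.P022K.G2 (Tv ex_tv)
open P004F.Qx.De (vv coe_vv)
open P014X.An (lg lg_lat)
open Lk.Cy (cy cy_cy ex_hc)

variable {f : ℕ} [NeZero f]

theorem sum_unit (ψ : DirichletCharacter ℂ f) (F : ZMod f → ℂ) :
    ∑ x : (ZMod f)ˣ, ψ x * F x = ∑ x, ψ x * F x :=
  Fintype.sum_of_injective _ Units.val_injective _ _
    (fun x hx => by rw [ψ.map_nonunit fun ⟨u, e⟩ => hx ⟨u, e⟩, zero_mul]) fun _ => rfl

/-- **the character sum of the logarithms** -/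
theorem us_sum (hf : 1 < f) {c : ℕ} (co : c.Coprime f) (m : ℕ) (ψ : DirichletCharacter ℂ f) (τ : ℍ) :
    ∑ a : (ZMod f)ˣ, ψ a * (Real.log ‖us f c m a τ‖ : ℝ) =
      12 * m * (c - ψ⁻¹ c) * LL ψ (vv f τ) := by
  have f0 : (f : ℂ) ≠ 0 := NeZero.ne _
  have v := coe_vv (NeZero.pos f) τ
  let l : ZMod f → ZMod f → ℂ := fun x y => (lg (f * τ) (x.val * τ + y.val / f) : ℝ)
  have e (x : ZMod f) : (x.val : ℂ) / f * (f * τ) = x.val * τ := by field_simp
  have e1 : LL ψ (vv f τ) = ∑ x : (ZMod f)ˣ, ∑ y : (ZMod f)ˣ, ψ (x * y) * l x y := by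
    simp only [LL, v, e, map_mul, mul_assoc, ← mul_sum]
    rw [← sum_unit]
    exact sum_congr rfl fun x _ => congrArg _ (sum_unit ψ _).symm
  have e2 (x : (ZMod f)ˣ) (y : ZMod f) :
      ((lg (f * τ) ((x : ZMod f).val * τ + c * y.val / f) : ℝ) : ℂ) = l x (c * y) := by
    have n := nl_unit hf (vv f τ) x.isUnit (((c * y : ZMod f).val : ℝ) / f)
    push_cast at n
    rw [v, e] at n
    have d : c * y.val = (c * y : ZMod f).val + f * (c * y.val / f) := by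
      rw [ZMod.val_mul, ZMod.val_natCast, Nat.mod_mul_mod, Nat.mod_add_div]
    have d' : (c : ℂ) * y.val = (c * y : ZMod f).val + f * (c * y.val / f : ℕ) := by
      exact_mod_cast d
    simp only [l]
    rw [d', ← lg_lat (τ := f * τ) (v ▸ (vv f τ).im_pos) n 0 (c * y.val / f : ℕ)]
    congr 2
    rw [Int.cast_natCast]
    field_simp
    ring
  obtain ⟨u, hu⟩ := (ZMod.isUnit_iff_coprime c f).2 co
  simp only [us_log hf, Complex.ofReal_mul, Complex.ofReal_sum, Complex.ofReal_sub, e2,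
    Complex.ofReal_natCast, Complex.ofReal_ofNat, mul_left_comm (ψ _), ← mul_sum]
  rw [mul_assoc (12 * m : ℂ), e1]
  simp only [mul_sum, mul_sub, sub_mul, sum_sub_distrib]
  congr 1
  · rw [sum_comm]
    refine sum_congr rfl fun x _ => (Fintype.sum_equiv (Equiv.mulLeft x) _ _ fun y => ?_).symm
    simp only [yy, Equiv.coe_mulLeft, Units.val_mul, mul_comm (x : ZMod f), l,
      Units.mul_inv_cancel_right]
    ring
  · rw [sum_comm]
    refine sum_congr rfl fun x _ =>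
      (Fintype.sum_equiv (Equiv.mulLeft (x * u⁻¹)) _ _ fun y => ?_).symm
    have a : (u : ZMod f) * yy f ((x * u⁻¹ * y : (ZMod f)ˣ) : ZMod f) x = y := by
      rw [yy, ← Units.val_mul, ← Units.val_mul]
      congr 1
      rw [mul_comm x, mul_assoc u⁻¹, mul_assoc u⁻¹, mul_inv_cancel_left, mul_inv_cancel_comm]
    rw [Equiv.coe_mulLeft, ← hu, a, MulChar.inv_apply_eq_inv', Units.val_mul, Units.val_mul, map_mul,
      map_mul, map_mul, map_units_inv]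
    ring

variable {K : Type} [Field K] [NumberField K] {j : K →+* Qb} {c c₀ m : ℕ} {I : Ideal (𝓞 K)} {s : Qb}
  {V : Subgroup GQ} {R' : Finset GQ} {χ : GQ → ℂ} {θ : Ideal (𝓞 K) → ℂ}

/-- **the unit and the leading term** -/
theorem ana0 (r1 : P004K.RC1) (r2 : RC2) (hI : IQ) (hg1 : HG1) (iq : Iq K) (up : Upm K) (hc : 0 < c)
    (hf : 1 < f) (co : c.Coprime f) (hn : Cn (f ^ 2) I)
    (spl : ∀ l P, Ov l P → l ∣ f → ∀ g, Inert P g → g ∈ GK j) (co' : c₀.Coprime f)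
    (hs : ∀ g ∈ GK j, ∀ σ τ τ' (t : ℤ), Ex σ g → Hp (JJ j) (f ^ 2) I c τ → Cj0 σ (f ^ 2) τ τ' →
      Cy σ f t → io (g s) = us f c₀ m (t : ZMod f) τ')
    (hV : ∀ g, g ∈ V ↔ g ∈ Hc j c ∧ cy f g = 1) (t' : Tv (GK j) V R') (P : Pch j c χ)
    (n : ∀ g ∈ GK j, ‖χ g‖ = 1) (ψ : DirichletCharacter ℂ f)
    (t1 : ∀ B g, Cop c B → Ar j c B g → θ B = χ g * ψ (Ideal.absNorm B))
    (t0 : ∀ B, ¬ Cop c B → θ B = 0) : (∀ g ∈ V, g s = s) ∧ ∃ H : ℂ → ℂ, Differentiable ℂ H ∧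
      (∀ s : ℝ, 1 < s → s * H s = (s - 1) * LI θ s) ∧
      ‖∑ g ∈ R', χ g * ψ (cy f g) * (Real.log ‖io (g s)‖ : ℝ)‖ =
        ‖12 * m * (c₀ - ψ⁻¹ c₀)‖ * ‖H 0‖ := by
  have N0 : 0 < f ^ 2 := by positivity
  obtain ⟨⟨τ₀, h0⟩, -, -, fx, -⟩ := hg1 K j iq _ c I N0 hc (co.pow_right 2) hn
  obtain ⟨R, t⟩ := ex_tv (Γ := GK j) (U := Hc j c) fun z => t'.ne (Nat.eq_zero_of_zero_dvd
    (z ▸ Subgroup.relIndex_dvd_of_le_left _ fun g hg => ((hV g).1 hg).1))
  choose σ ex using ex_ex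
  choose τ hτ using fun g => (cj0 (σ g) _ N0).1 τ₀
  choose h h1 h2 using ex_hc r1 r2 iq hc co spl
  have val : ∀ g ∈ GK j, ∀ u ∈ Hc j c, io ((g * u) s) = us f c₀ m (cy f (g * u)) (τ g) :=
    fun g hg u hu => by
    have e := (ex g).mul (ex u)
    simpa using hs _ (mul_mem hg hu.1) _ τ₀ _ _ e h0
      (((fx τ₀ _ u hu.1 h0 (ex u)).1 hu).trans (hτ g)) (cy_cy e)
  have fix : ∀ g ∈ V, g s = s := fun g hg => P004K.io_inj (by
    have a := val 1 (one_mem _) g ((hV g).1 hg).1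
    have b := val 1 (one_mem _) 1 (one_mem _)
    rw [one_mul, ((hV g).1 hg).2] at a
    rwa [one_mul, map_one, ← a, eq_comm] at b)
  obtain ⟨φ, hφ, β, -, k⟩ := lz0 r1 r2 hI iq up hc hf co (pow_two f ▸ hn) (pow_two f ▸ h0) t
    fun g _ => ⟨σ g, ex g, pow_two f ▸ hτ g⟩
  obtain ⟨H, d1, d2, d3⟩ := k χ ψ θ P t1 t0
  refine ⟨fix, H, d1, d2, ?_⟩
  rw [d3, norm_mul (_ * ψ _), norm_mul (χ φ), n φ hφ, ψ.unit_norm_eq_one, one_mul, one_mul, ← norm_mul, mul_sum,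
    ← t'.sum_of (R ×ˢ univ) (fun p => p.1 * h ((cy f p.1)⁻¹ * p.2))
      (fun p hp => mul_mem (t.mem _ (mem_product.1 hp).1) (h1 _).1) (fun g hg => ?_)
      (fun p hp q hq e => ?_) _ fun y hy u _ hu => ?_, sum_product]
  · refine congrArg _ (sum_congr rfl fun g hg => ?_)
    rw [mul_left_comm, ← us_sum hf co', mul_sum]
    refine sum_congr rfl fun a _ => ?_
    rw [val g (t.mem g hg) _ (h1 _), P.rt (t.mem g hg) (h1 _), map_mul, h2, mul_inv_cancel_left,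
      mul_assoc]
  · obtain ⟨r, hr, e⟩ := t.ex g hg
    refine ⟨(r, cy f g), mem_product.2 ⟨hr, mem_univ _⟩, (hV _).2 ⟨?_, by simp [h2]⟩⟩
    rw [mul_inv_rev, mul_assoc]
    exact mul_mem (inv_mem (h1 _)) e
  · obtain ⟨e1, e2⟩ := (hV _).1 e
    refine Prod.ext (t.un _ (mem_product.1 hp).1 _ (mem_product.1 hq).1 ?_) ?_
    · simpa [mul_assoc] using mul_mem (mul_mem (h1 ((cy f p.1)⁻¹ * p.2)) e1)
        (inv_mem (h1 ((cy f q.1)⁻¹ * q.2)))
    · simpa [h2, inv_mul_eq_one] using e2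
  · rw [P.rt hy ((hV u).1 hu).1, map_mul, ((hV u).1 hu).2, mul_one, AlgEquiv.mul_apply, fix u hu]

end Vale.Agent.P014Z.Su
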