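import Vale.Agent.P014Z.Su.Defs
import Vale.Agent.P004Z.Fin.Bas

/-! # P014Z, block SU: the Siegel functions are units outside the level -/

set_option autoImplicit false
set_option linter.all false

open UpperHalfPlane hiding I
open PowerSeries CongruenceSubgroup
open scoped MatrixGroups Manifold

noncomputable section

namespace Vale.Agent.P014Z.Su

open Vale.Agent.P022 H236 H218.L3 H231.L3 H236.L3 H542.L3 Vale.Agent.P022D.Irr Vale.Agent.P014T.Sg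
open Vale.Agent.P004Z.Fin (Iq RR Nv const_Iq val_RR)

namespace It

variable {O : ValuationSubring ℂ} {f : ℕ} {x y : ℤ}

theorem int_iff {z : ℂ} : IsIntegral ℤ z ↔ ∀ O : ValuationSubring ℂ, z ∈ O := by
  refine ⟨fun h O => ?_, fun h => ?_⟩
  · obtain ⟨u, rfl⟩ := IsIntegrallyClosed.isIntegral_iff.1 (h.tower_top (A := O))
    exact u.2
  have h1 : z ∈ (integralClosure (Subring.closure (∅ : Set ℂ)) ℂ).toSubring := by
    rw [← iInf_valuationSubring_superset, Subring.mem_iInf]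
    exact fun V => h V
  haveI : Algebra.IsIntegral ℤ (Subring.closure (∅ : Set ℂ)) := ⟨fun x => by
    obtain ⟨x, hx⟩ := x
    obtain ⟨n, rfl⟩ := Subring.mem_bot.1 (Subring.closure_empty (R := ℂ) ▸ hx)
    exact isIntegral_algebraMap (R := ℤ) (x := n)⟩
  exact isIntegral_trans (A := Subring.closure (∅ : Set ℂ)) _ h1

theorem ee_val (β : ℚ) : O.valuation (ee β) = 1 := val_root β.den_nz (by
  rw [← ee_nat, ← ee_int β.num, ← Rat.cast_natCast, ← Rat.cast_mul, Rat.den_mul_eq_num,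
    Rat.cast_intCast])

theorem ee_mem (β : ℚ) : ee β ∈ O := (O.valuation_le_one_iff _).1 (ee_val β).le

theorem iq_of {N : ℕ} (hN : 0 < N) {m : ℤ} {F : O⟦X⟧} {g : ℍ → ℂ}
    (h : Exq N m (map O.subtype F) g) : g ∈ Iq O :=
  ⟨N, hN, _, mem_Int.2 fun n => by
    rcases lt_or_ge n m with k | k
    · rw [coeff_ls_of_lt m _ k]
      exact zero_mem _
    · obtain ⟨k, rfl⟩ : ∃ k : ℕ, n = m + k := ⟨(n - m).toNat, by omega⟩
      rw [coeff_ls, coeff_map]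
      exact Subtype.property _, h.exL⟩

theorem mon_iq {N : ℕ} (hN : 0 < N) (w : ℤ) : (fun τ : ℍ => ee (w * τ / N)) ∈ Iq O :=
  iq_of hN (F := 1) (by simpa using exq_mon (N := N) w 1)

theorem po_iq {N : ℕ} (hN : 0 < N) (a : ℕ) (β : ℚ) :
    (fun τ : ℍ => po τ (a * τ / N + β)) ∈ Iq O ∧
      (a ≠ 0 → (fun τ : ℍ => (po τ (a * τ / N + β))⁻¹) ∈ Iq O) := by
  have e := exq_po hN a β
  have k : pf (ee β) a N = map O.subtype (pf ⟨_, ee_mem β⟩ a N) := (pf_map O.subtype ⟨_, _⟩ a N).symm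
  refine ⟨iq_of hN (k ▸ e), fun h => ?_⟩
  have c : constantCoeff (pf (ee β) a N) ≠ 0 := by rw [pf_zero, if_neg h]; exact one_ne_zero
  refine iq_of hN (F := invOfUnit (pf ⟨_, ee_mem β⟩ a N) 1) (m := -0) ?_
  rw [(PowerSeries.eq_inv_iff_mul_eq_one c).2 (by
    rw [k, ← map_mul, invOfUnit_mul _ _ (by rw [pf_zero, if_neg h]; rfl), map_one] :
      map O.subtype (invOfUnit (pf ⟨_, ee_mem β⟩ a N) 1) * pf (ee β) a N = 1)]
  exact (e.inv hN.ne' c).2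

/-- `f / (1 - ζ)` is integral -/
theorem div_mem {z : ℂ} (hz : z ∈ O) (h : z ^ f = 1) (n : z ≠ 1) : f / (1 - z) ∈ O := by
  have e : (f : ℂ) = (∑ i ∈ Finset.range f, ∑ j ∈ Finset.range i, z ^ j) * (1 - z) := by
    have := mul_neg_geom_sum z f
    rw [h, sub_self, mul_eq_zero, or_iff_right (sub_ne_zero.2 n.symm)] at this
    rw [Finset.sum_mul, Finset.sum_congr rfl fun i _ => geom_sum_mul_neg z i,
      Finset.sum_sub_distrib, this]
    simp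
  rw [e, mul_div_cancel_right₀ _ (sub_ne_zero.2 n.symm)]
  exact sum_mem fun i _ => sum_mem fun j _ => pow_mem hz j

/-- the function -/
abbrev gf (f : ℕ) (x y : ℤ) (τ : ℍ) : ℂ := g12 (x / f) (y / f) τ

theorem gf_lat (hf : f ≠ 0) (x y s t : ℤ) (τ : ℍ) :
    gf f (x + f * s) (y + f * t) τ = ee ((6 * (t * x - s * y) : ℤ) / f : ℚ) * gf f x y τ := by
  have f0 : (f : ℂ) ≠ 0 := Nat.cast_ne_zero.2 hf
  have e : ∀ u v : ℤ, ((u + f * v : ℤ) : ℂ) / f = u / f + v := fun u v => by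
    push_cast
    field_simp
  rw [gf, e, e, g12_lat τ.2]
  congr 2
  push_cast
  ring

theorem gf_law (γ : SL(2, ℤ)) (τ : ℍ) :
    gf f x y (γ • τ) = gf f (x * γ 0 0 + y * γ 1 0) (x * γ 0 1 + y * γ 1 1) τ := by
  rw [gf, g12_law]
  congr 1 <;> push_cast <;> ring

theorem nz_law (k : ¬ ((f : ℤ) ∣ x ∧ (f : ℤ) ∣ y)) (γ : SL(2, ℤ)) :
    ¬ ((f : ℤ) ∣ x * γ 0 0 + y * γ 1 0 ∧ (f : ℤ) ∣ x * γ 0 1 + y * γ 1 1) := fun ⟨a, b⟩ => by
  have d : γ 0 0 * γ 1 1 - γ 0 1 * γ 1 0 = 1 := (Matrix.det_fin_two _).symm.trans γ.det_coe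
  refine k ⟨?_, ?_⟩
  · exact ((a.mul_right (γ 1 1)).sub (b.mul_right (γ 1 0))).trans (Eq.dvd (by
      linear_combination x * d))
  · exact ((b.mul_right (γ 0 0)).sub (a.mul_right (γ 0 1))).trans (Eq.dvd (by
      linear_combination y * d))

theorem gf_inv (hf : f ≠ 0) (x y : ℤ) : Nv (Gamma (f ^ 2)) (gf f x y) := fun γ m τ => by
  obtain ⟨a, b, c, d⟩ := Gamma_mem.1 m
  obtain ⟨a, ea⟩ := (ZMod.intCast_eq_intCast_iff_dvd_sub 1 _ _).1 (by rw [a, Int.cast_one])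
  obtain ⟨d, ed⟩ := (ZMod.intCast_eq_intCast_iff_dvd_sub 1 _ _).1 (by rw [d, Int.cast_one])
  obtain ⟨b, eb⟩ := (ZMod.intCast_zmod_eq_zero_iff_dvd _ _).1 b
  obtain ⟨c, ec⟩ := (ZMod.intCast_zmod_eq_zero_iff_dvd _ _).1 c
  have f0 : (f : ℂ) ≠ 0 := Nat.cast_ne_zero.2 hf
  push_cast at ea eb ec ed
  rw [gf_law, show x * γ 0 0 + y * γ 1 0 = x + f * (f * (x * a + y * c)) by
      linear_combination x * ea + y * ec,
    show x * γ 0 1 + y * γ 1 1 = y + f * (f * (x * b + y * d)) by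
      linear_combination x * eb + y * ed, gf_lat hf,
    ee_one.2 ⟨6 * ((x * b + y * d) * x - (x * a + y * c) * y), by push_cast; field_simp⟩, one_mul]

theorem gf_ne (hf : f ≠ 0) (k : ¬ ((f : ℤ) ∣ x ∧ (f : ℤ) ∣ y)) (τ : ℍ) : gf f x y τ ≠ 0 :=
  g12_ne τ.2 (nl τ.2 hf k)

theorem gf_hol (f : ℕ) (x y : ℤ) : gf f x y ∈ Hol := by
  refine mdifferentiable_iff.2 ((g12_diff (t := id) isOpen_upperHalfPlaneSet differentiable_id
    (fun _ h => h) (x / f) (y / f)).congr fun s h => ?_)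
  simp [gf, ofComplex_apply_of_im_pos h]

theorem gf_eq {a : ℕ} (h : a < f) (y : ℤ) (τ : ℍ) : gf f a y τ =
    ee ((6 * (a - f) * y : ℤ) / f ^ 2 : ℚ) * ee ((f ^ 2 + 6 * (a - f) * a : ℤ) * τ / (f ^ 2 : ℕ)) *
      (po τ (a * τ / f + (y / f : ℚ)) * po τ ((f - a : ℕ) * τ / f + (-y / f : ℚ))) ^ 12 := by
  have f0 : (f : ℂ) ≠ 0 := Nat.cast_ne_zero.2 (by omega)
  rw [gf, g12_eq, ← ee_add, Nat.cast_sub h.le]
  congr 2
  · push_cast
    field_simp
    ring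
  · congr 2 <;> push_cast <;> field_simp <;> ring

theorem gf_iq0 {a : ℕ} (h : a < f) (k : ¬ ((f : ℤ) ∣ a ∧ (f : ℤ) ∣ y)) :
    gf f a y ∈ Iq O ∧ (fun τ => f ^ 12 / gf f a y τ) ∈ Iq O := by
  have hf : 0 < f := by omega
  have f0 : (f : ℂ) ≠ 0 := Nat.cast_ne_zero.2 hf.ne'
  have p := po_iq (O := O) hf (f - a) (-y / f)
  have i : (fun τ : ℍ => f / po τ (a * τ / f + (y / f : ℚ))) ∈ Iq O := by
    rcases eq_or_ne a 0 with rfl | n
    · have n : ee (y / f : ℚ) ≠ 1 := fun e => by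
        obtain ⟨m, e⟩ := ee_one.1 e
        refine k ⟨by simp, m, ?_⟩
        push_cast at e
        exact_mod_cast (div_eq_iff f0).1 e |>.trans (mul_comm _ _)
      convert mul_mem (const_Iq (div_mem (f := f) (ee_mem _) (by
        rw [← ee_nat, ← ee_int y]; congr 1; push_cast; field_simp) n))
        ((po_iq hf f (y / f)).2 hf.ne') using 2 with τ
      rw [Nat.cast_zero, zero_mul, zero_div, zero_add, po_step τ.2, Pi.mul_apply,
        mul_div_cancel_left₀ _ f0, add_comm (τ : ℂ), ← div_div, div_eq_mul_inv]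
    · convert mul_mem (const_Iq (natCast_mem O f)) ((po_iq hf a (y / f)).2 n) using 2 with τ
      exact div_eq_mul_inv _ _
  refine ⟨?_, ?_⟩
  · rw [funext (gf_eq h y)]
    exact mul_mem (mul_mem (const_Iq (ee_mem _)) (mon_iq (pow_pos hf 2) _))
      (pow_mem (mul_mem (po_iq hf a _).1 p.1) 12)
  · convert mul_mem (mul_mem (const_Iq (ee_mem (-((6 * (a - f) * y : ℤ) / f ^ 2))))
      (mon_iq (pow_pos hf 2) (-(f ^ 2 + 6 * (a - f) * a)))) (pow_mem (mul_mem i (p.2 (by omega))) 12)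
      using 2 with τ
    simp only [gf_eq h, Pi.mul_apply, Pi.pow_apply, Rat.cast_neg, Int.cast_neg, neg_mul, neg_div,
      ee_neg, div_eq_mul_inv, mul_inv, mul_pow, inv_pow]
    ring

theorem gf_iq (hf : f ≠ 0) (k : ¬ ((f : ℤ) ∣ x ∧ (f : ℤ) ∣ y)) :
    gf f x y ∈ Iq O ∧ (fun τ => f ^ 12 / gf f x y τ) ∈ Iq O := by
  obtain ⟨a, e⟩ := Int.eq_ofNat_of_zero_le (Int.emod_nonneg x (Nat.cast_ne_zero.2 hf))
  have h : a < f := by have := Int.emod_lt_of_pos x (Nat.cast_pos.2 (Nat.pos_of_ne_zero hf)); omega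
  have e' : x = a + f * (x / f) := by rw [← e, Int.emod_add_mul_ediv]
  obtain ⟨p, q⟩ := gf_iq0 (O := O) (y := y) h fun z => k ⟨e' ▸ z.1.add (dvd_mul_right _ _), z.2⟩
  have l := gf_lat hf a y (x / f) 0
  rw [← e', mul_zero, add_zero] at l
  refine ⟨funext l ▸ mul_mem (const_Iq (ee_mem _)) p, ?_⟩
  convert mul_mem (const_Iq (ee_mem (-((6 * (0 * a - x / f * y) : ℤ) / f)))) q using 2 with τ
  rw [l, Pi.mul_apply, Rat.cast_neg, ee_neg, mul_comm (ee _), ← div_div, div_eq_inv_mul]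

/-- **integral at all cusps** -/
theorem gf_RR (hf : f ≠ 0) (k : ¬ ((f : ℤ) ∣ x ∧ (f : ℤ) ∣ y)) :
    gf f x y ∈ RR O ∧ (fun τ => f ^ 12 / gf f x y τ) ∈ RR O := by
  have p : 0 < f ^ 2 := pow_pos (Nat.pos_of_ne_zero hf) 2
  refine ⟨⟨gf_hol f x y, ⟨_, p, gf_inv hf x y⟩, fun γ => ?_⟩,
    MDifferentiable.div mdifferentiable_const (gf_hol f x y) (gf_ne hf k),
    ⟨_, p, fun γ m τ => by simp only [gf_inv hf x y γ m τ]⟩, fun γ => ?_⟩ <;> simp only [gf_law]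
  exacts [(gf_iq hf (nz_law k γ)).1, (gf_iq hf (nz_law k γ)).2]

/-- at a place outside the level the value is a unit -/
theorem gf_val (hf : O.valuation f = 1) (k : ¬ ((f : ℤ) ∣ x ∧ (f : ℤ) ∣ y)) {τ : ℍ}
    (hj : jf τ ∈ O) : O.valuation (gf f x y τ) = 1 := by
  have f0 : f ≠ 0 := fun e => by simp [e] at hf
  have a := (O.valuation_le_one_iff _).2 (val_RR (gf_RR f0 k).1 hj)
  have b := (O.valuation_le_one_iff _).2 (val_RR (gf_RR f0 k).2 hj)
  rw [map_div₀, map_pow, hf, one_pow, one_div,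
    inv_le_one₀ (zero_lt_iff.2 ((map_ne_zero _).2 (gf_ne f0 k τ)))] at b
  exact le_antisymm a b

end It

open It

/-- **INT** -/
theorem int {f : ℕ} (hf : f ≠ 0) {x y : ℤ} {τ : ℍ} (hj : IsIntegral ℤ (jf τ))
    (k : ¬ ((f : ℤ) ∣ x ∧ (f : ℤ) ∣ y)) :
    IsIntegral ℤ (g12 (x / f) (y / f) τ) ∧ IsIntegral ℤ (f ^ 12 / g12 (x / f) (y / f) τ) :=
  ⟨int_iff.2 fun O => val_RR (gf_RR hf k).1 (int_iff.1 hj O),
    int_iff.2 fun O => val_RR (gf_RR hf k).2 (int_iff.1 hj O)⟩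

/-- a unit outside `f` -/
def Uf (f : ℕ) (z : ℂ) : Prop := ∃ k : ℕ, IsIntegral ℤ (f ^ k * z) ∧ IsIntegral ℤ (f ^ k * z⁻¹)

section

variable {f : ℕ} {z w : ℂ}

theorem Uf.mul : Uf f z → Uf f w → Uf f (z * w)
  | ⟨k, a, b⟩, ⟨l, c, d⟩ => ⟨k + l, by simpa only [pow_add, mul_mul_mul_comm] using a.mul c,
    by simpa only [pow_add, mul_inv, mul_mul_mul_comm] using b.mul d⟩

theorem Uf.inv : Uf f z → Uf f z⁻¹
  | ⟨k, a, b⟩ => ⟨k, b, by rwa [inv_inv]⟩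

theorem Uf.one : Uf f 1 := ⟨0, by simpa using isIntegral_one, by simpa using isIntegral_one⟩

theorem Uf.prod {ι : Type} (s : Finset ι) (g : ι → ℂ) (h : ∀ i ∈ s, Uf f (g i)) :
    Uf f (∏ i ∈ s, g i) := Finset.prod_induction g _ (fun _ _ => Uf.mul) Uf.one h

theorem Uf.pow (h : Uf f z) (n : ℕ) : Uf f (z ^ n) := by
  simpa using Uf.prod (Finset.range n) _ fun _ _ => h

theorem Uf.val (h : Uf f z) (z0 : z ≠ 0) {O : ValuationSubring ℂ} (hf : O.valuation f = 1) :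
    O.valuation z = 1 := by
  obtain ⟨k, a, b⟩ := h
  have a := (O.valuation_le_one_iff _).2 (int_iff.1 a O)
  have b := (O.valuation_le_one_iff _).2 (int_iff.1 b O)
  rw [map_mul, map_pow, hf, one_pow, one_mul] at a b
  rw [map_inv₀, inv_le_one₀ (zero_lt_iff.2 ((map_ne_zero _).2 z0))] at b
  exact le_antisymm a b

theorem g12_uf (hf : f ≠ 0) {x y : ℤ} {τ : ℍ} (hj : IsIntegral ℤ (jf τ))
    (k : ¬ ((f : ℤ) ∣ x ∧ (f : ℤ) ∣ y)) : Uf f (g12 (x / f) (y / f) τ) :=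
  ⟨12, ((isIntegral_natCast f).pow 12).mul (int hf hj k).1, by
    simpa only [div_eq_mul_inv (_ ^ 12 : ℂ)] using (int hf hj k).2⟩

theorem Rc_uf (hf : f ≠ 0) (c : ℕ) {x : ℤ} (y : ℤ) {τ : ℍ} (hj : IsIntegral ℤ (jf τ))
    (k : ¬ (f : ℤ) ∣ x) : Uf f (Rc f c x y τ) := by
  have := ((g12_uf hf hj (y := y) fun h => k h.1).pow c).mul
    (g12_uf hf hj (y := c * y) fun h => k h.1).inv
  rwa [← div_eq_mul_inv, Int.cast_mul, Int.cast_natCast] at this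

/-- **the values of `u_a` are units outside `f`** -/
theorem us_uf [NeZero f] (hf : 1 < f) (c m : ℕ) (a : ZMod f) {τ τ' : ℍ} (e : (τ' : ℂ) = f * τ)
    (hj : IsIntegral ℤ (jf τ')) : Uf f (us f c m a τ) := by
  rw [us, ← e]
  refine Uf.prod _ _ fun x _ => (Rc_uf (by omega) c _ hj fun h => ?_).pow m
  have := Fact.mk hf
  exact x.ne_zero (by simpa using (ZMod.intCast_zmod_eq_zero_iff_dvd _ f).2 h)

end

end Vale.Agent.P014Z.Su
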