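import Vale.Agent.P014X.An.Lf0
import Vale.Agent.P004R.Lfa
import Vale.Agent.P004K.Rc.R1

/-! # P014Z: the zeta function of an abelian layer is a product of primitive L-functions -/

set_option autoImplicit false
set_option linter.all false

open NumberField IsDedekindDomain Finset
open scoped Classical

noncomputable section

namespace Vale.Agent.P014Z.La

open Vale.Agent.P022 Vale.Agent.P022.H916 P004R.Gl
open Vale.Agent.P027M.S (Inert LI Pr)
open Vale.Agent.P027M.S.Eul (fv)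
open Vale.Agent.P016Z.EP (Nv)
open P004R.La (Lo lo zeta euler)

variable {K L : Type} [Field K] [NumberField K] [Field L] [NumberField L]
  {j : K →+* Qb} {jL : L →+* Qb} {P : Ideal (𝓞 Qb)} {l : ℕ}

/-- `ψ` is a Frobenius element of `K` at `P` -/
def Fk (j : K →+* Qb) (P : Ideal (𝓞 Qb)) (ψ : GQ) : Prop :=
  ∀ x : 𝓞 Qb, ψ • x - x ^ Ideal.absNorm (below j P) ∈ P

/-- `θ` is the primitive character of ideals which belongs to `φ` -/
structure Pc (j : K →+* Qb) (φ : GK j →* ℂˣ) (θ : Ideal (𝓞 K) →* ℂ) : Prop where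
  le : ∀ I, ‖θ I‖ ≤ 1
  ram : ∀ P : Ideal (𝓞 Qb), P.IsPrime → below j P ≠ ⊥ → ∀ t : GK j, Inert P t → φ t ≠ 1 →
    θ (below j P) = 0
  unr : ∀ P : Ideal (𝓞 Qb), P.IsPrime → below j P ≠ ⊥ → (∀ t : GK j, Inert P t → φ t = 1) →
    ∀ ψ : GK j, Fk j P ψ → θ (below j P) = φ ψ

/-- `X` is the dual of the group of the abelian layer `L / K` -/
structure Ab (j : K →+* Qb) (jL : L →+* Qb) (X : Finset (GK j →* ℂˣ)) : Prop where
  le : GK jL ≤ GK j
  cm : ∀ g ∈ GK j, ∀ h ∈ GK j, g * h * g⁻¹ * h⁻¹ ∈ GK jL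
  mem : ∀ φ, φ ∈ X ↔ ∀ g : GK j, g.1 ∈ GK jL → φ g = 1

/-- the order of a Frobenius element modulo inertia -/
theorem ord' [Algebra K L] {ρ : GK j →* (L ≃ₐ[K] L)} (D : Dict j jL ρ) (hP : P.IsPrime)
    (hl : l ≠ 0) (h : (l : 𝓞 Qb) ∈ P) {ψ : GK j} (hψ : Fk j P ψ) (i : ℕ) :
    ρ ψ ^ i ∈ (below jL P).inertia (L ≃ₐ[K] L) ↔ (below jL P).inertiaDeg (𝓞 K) ∣ i := by
  have := lies D P
  have p := below_pr jL hP
  have q1 := two_le j hP hl h
  have e := Ideal.absNorm_pow_inertiaDeg (below j P) (below jL P)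
  have k : ∀ i (y : 𝓞 L), (ρ ψ ^ i) • y - y ^ Ideal.absNorm (below j P) ^ i ∈ below jL P :=
    fun i y => by
    rw [← map_pow]
    exact D.frob_push (g := ψ ^ i) (frob_pow hP (by omega) hψ i) y
  have a : ρ ψ ^ (below jL P).inertiaDeg (𝓞 K) ∈ (below jL P).inertia (L ≃ₐ[K] L) := fun y => by
    have a := k ((below jL P).inertiaDeg (𝓞 K)) y
    rw [e] at a
    simpa using (below jL P).add_mem a (pow_norm _ p (below_ne jL hl h) y)
  refine ⟨fun b => Nat.dvd_of_mod_eq_zero (by_contra fun m0 => ?_), fun ⟨m, b⟩ => by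
    rw [b, pow_mul]; exact pow_mem a m⟩
  rw [← Nat.div_add_mod i ((below jL P).inertiaDeg (𝓞 K)), pow_add, pow_mul,
    mul_mem_cancel_left (pow_mem a _)] at b
  refine (Nat.mod_lt i (Ideal.inertiaDeg_pos (below jL P) (𝓞 K))).not_ge ?_
  have c := (H853.card_le_of_pow_eq (R := 𝓞 L ⧸ below jL P) (Nat.one_lt_pow m0 q1) fun x => by
    obtain ⟨y, rfl⟩ := Ideal.Quotient.mk_surjective x
    rw [← map_pow]
    have d := (below jL P).sub_mem (b y) (k (i % (below jL P).inertiaDeg (𝓞 K)) y)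
    rw [sub_sub_sub_cancel_left] at d
    exact Ideal.Quotient.eq.2 d).2
  refine (Nat.pow_le_pow_iff_right q1).1 ?_
  rwa [e, Ideal.absNorm_apply, Submodule.cardQuot_apply]

theorem dual {G Γ : Type} [Group G] [Group Γ] [Fintype (Γ →* ℂˣ)] (r : G →* Γ)
    (hr : Function.Surjective r) {X : Finset (G →* ℂˣ)} (hX : ∀ φ, φ ∈ X ↔ ∀ g, r g = 1 → φ g = 1)
    (f : (G →* ℂˣ) → ℂ) : ∏ χ : Γ →* ℂˣ, f (χ.comp r) = ∏ φ ∈ X, f φ :=
  prod_bij (fun χ _ => χ.comp r) (fun χ _ => (hX _).2 fun g h => by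
    rw [MonoidHom.comp_apply, h, map_one])
    (fun χ _ χ' _ h => (MonoidHom.cancel_right hr).1 h)
    (fun φ h => ⟨r.liftOfSurjective hr ⟨φ, (hX φ).1 h⟩, mem_univ _,
      r.liftOfRightInverse_comp _ _ _⟩) fun _ _ => rfl

theorem li_ne {θ : Ideal (𝓞 K) →* ℂ} (h : ∀ I, ‖θ I‖ ≤ 1) {s : ℝ} (hs : 1 < s) : LI θ s ≠ 0 :=
  (P027M.S.Eul.main h hs).1

/-- **the factorisation** -/
theorem lfa {X : Finset (GK j →* ℂˣ)} (A : Ab j jL X) {θ : (GK j →* ℂˣ) → Ideal (𝓞 K) →* ℂ}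
    (h : ∀ φ ∈ X, Pc j φ (θ φ)) {s : ℝ} (hs : 1 < s) :
    dedekindZeta L s = ∏ φ ∈ X, LI (θ φ) s := by
  obtain ⟨ι, hι⟩ := ex_hom A.le
  let _ := ι.toAlgebra
  obtain ⟨_, ρ, D⟩ := ex_dict (j := j) (jL := jL) hι fun g hg u hu => by
    simpa using mul_mem (A.cm g hg u (A.le hu)) hu
  have hc : ∀ x y : L ≃ₐ[K] L, x * y = y * x := fun x y => by
    obtain ⟨x, rfl⟩ := D.surj x
    obtain ⟨y, rfl⟩ := D.surj y
    rw [← mul_inv_eq_one, ← map_mul, ← map_mul, ← map_inv, ← map_mul, D.ker, mul_inv_rev,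
      ← mul_assoc]
    exact A.cm _ x.2 _ y.2
  have := Fintype.ofFinite ((L ≃ₐ[K] L) →* ℂˣ)
  have hX : ∀ φ, φ ∈ X ↔ ∀ g, ρ g = 1 → φ g = 1 := fun φ => by simp only [A.mem, D.ker]
  have key : ∀ v : Pr K, Lo L s v (∏ φ ∈ X, (1 - fv (θ φ) s v)) := fun v => by
    obtain ⟨P, hP, hv⟩ := exists_above j v.asIdeal v.isPrime
    obtain ⟨g, a, c⟩ := lo D hP hv s
    have lm := (mem_below (j := j) (P := P) _).1 (hv ▸ P016Z.EP.rc_mem v)
    have h0 : below j P ≠ ⊥ := hv ▸ v.ne_bot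
    obtain ⟨ψ, hψ⟩ := exists_frob j hP (P016Z.EP.rc_prime v) lm
    rw [← P014X.Lf.grp hc _ (ρ ψ) (by
      have := lies D P
      have := below_pr jL hP
      exact Ideal.inertiaDeg_pos _ _) (ord' D hP (P016Z.EP.rc_prime v).ne_zero lm hψ) a] at c
    rw [← dual ρ D.surj hX, prod_congr rfl fun χ _ => ?_]
    · exact c
    have p := h (χ.comp ρ) ((hX _).2 fun g e => by rw [MonoidHom.comp_apply, e, map_one])
    rw [fv, ← hv]
    split_ifs with k
    · rw [p.unr P hP h0 (fun t i => k _ (D.inertia_push i)) ψ hψ]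
      rfl
    · push Not at k
      obtain ⟨τ, k1, k2⟩ := k
      obtain ⟨t, rfl, i⟩ := D.inertia_lift hP k1
      rw [p.ram P hP h0 t i k2]
  have z := (zeta hs key).unique (hasProd_prod fun φ hφ => euler (h φ hφ).le hs)
  rwa [prod_inv_distrib, inv_inj] at z

/-- a pair of layers -/
theorem lfa2 {F : Type} [Field F] [NumberField F] {jF : F →+* Qb} {X Y : Finset (GK j →* ℂˣ)}
    (A : Ab j jL X) (B : Ab j jF Y) (le : GK jL ≤ GK jF)
    {θ : (GK j →* ℂˣ) → Ideal (𝓞 K) →* ℂ} (h : ∀ φ ∈ X, Pc j φ (θ φ)) {s : ℝ} (hs : 1 < s) :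
    dedekindZeta L s = dedekindZeta F s * ∏ φ ∈ X \ Y, LI (θ φ) s := by
  have sub : Y ⊆ X := fun φ k => (A.mem φ).2 fun g hg => (B.mem φ).1 k g (le hg)
  rw [lfa A h hs, lfa B (fun φ k => h φ (sub k)) hs, mul_comm, prod_sdiff sub]

/-- multiplicative functions with given values at the primes -/
theorem ex_mul (a : Pr K → ℂ) (ha : ∀ v, ‖a v‖ ≤ 1) : ∃ θ : Ideal (𝓞 K) →* ℂ,
    (∀ I, ‖θ I‖ ≤ 1) ∧ θ ⊥ = 0 ∧ ∀ v : Pr K, θ v.asIdeal = a v := by
  let b : Ideal (𝓞 K) → ℂ := fun I => if h : ∃ v : Pr K, v.asIdeal = I then a h.choose else 0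
  have b1 : ∀ v : Pr K, b v.asIdeal = a v := fun v => by
    have h : ∃ w : Pr K, w.asIdeal = v.asIdeal := ⟨v, rfl⟩
    rw [show b _ = _ from dif_pos h, HeightOneSpectrum.ext h.choose_spec]
  have b2 : ∀ I, ‖b I‖ ≤ 1 := fun I => by
    by_cases h : ∃ v : Pr K, v.asIdeal = I
    · rw [show b _ = _ from dif_pos h]
      exact ha _
    · rw [show b _ = _ from dif_neg h, norm_zero]
      exact zero_le_one
  let f : Ideal (𝓞 K) → ℂ := fun I =>
    if I = 0 then 0 else ((UniqueFactorizationMonoid.normalizedFactors I).map b).prod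
  refine ⟨⟨⟨f, (if_neg one_ne_zero).trans (by
    rw [UniqueFactorizationMonoid.normalizedFactors_one, Multiset.map_zero, Multiset.prod_zero])⟩,
    fun I J => ?_⟩, fun I => ?_, if_pos rfl, fun v => ?_⟩
  · show f _ = f _ * f _
    by_cases x : I = 0
    · simp [f, x]
    by_cases y : J = 0
    · simp [f, y]
    simp only [f, if_neg x, if_neg y, if_neg (mul_ne_zero x y),
      UniqueFactorizationMonoid.normalizedFactors_mul x y, Multiset.map_add, Multiset.prod_add]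
  · show ‖f I‖ ≤ 1
    by_cases x : I = 0
    · simp [f, x]
    rw [show f I = _ from if_neg x]
    induction UniqueFactorizationMonoid.normalizedFactors I using Multiset.induction with
    | empty => simp
    | cons c m ih =>
      rw [Multiset.map_cons, Multiset.prod_cons, norm_mul]
      exact mul_le_one₀ (b2 c) (norm_nonneg _) ih
  · show f _ = _
    rw [show f _ = _ from if_neg v.ne_bot,
      UniqueFactorizationMonoid.normalizedFactors_irreducible v.irreducible, normalize_eq,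
      Multiset.map_singleton, Multiset.prod_singleton, b1]

/-- the comparison of two series which differ at finitely many primes -/
theorem li_dep {θ θ' : Ideal (𝓞 K) →* ℂ} (h : ∀ I, ‖θ I‖ ≤ 1) (h' : ∀ I, ‖θ' I‖ ≤ 1)
    (S : Finset (Pr K)) (e : ∀ v ∉ S, θ' v.asIdeal = θ v.asIdeal) (z : ∀ v ∈ S, θ' v.asIdeal = 0)
    {s : ℝ} (hs : 1 < s) : LI θ' s =
      LI θ s * ∏ v ∈ S, (1 - θ v.asIdeal * (Ideal.absNorm v.asIdeal : ℂ) ^ (-(s : ℂ))) := by
  have a : HasProd (fun v => if v ∈ S then 1 - fv θ s v else 1) (∏ v ∈ S, (1 - fv θ s v)) := by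
    rw [← prod_congr rfl (f := fun v => if v ∈ S then 1 - fv θ s v else 1) fun v hv => if_pos hv]
    exact hasProd_prod_of_ne_finset_one fun v hv => if_neg hv
  have b := (euler h hs).unique (((euler h' hs).mul a).congr_fun fun v => by
    by_cases k : v ∈ S
    · rw [if_pos k, fv, fv, z v k, zero_mul, sub_zero, one_mul]
    · rw [if_neg k, fv, fv, e v k, mul_one])
  rw [eq_inv_mul_iff_mul_eq₀ (li_ne h' hs), mul_inv_eq_iff_eq_mul₀ (li_ne h hs), mul_comm] at b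
  exact b

theorem fk_eq (hP : P.IsPrime) (h0 : below j P ≠ ⊥) {φ : GK j →* ℂˣ}
    (h : ∀ t : GK j, Inert P t → φ t = 1) {ψ ψ' : GK j} (a : Fk j P ψ) (b : Fk j P ψ') :
    φ ψ = φ ψ' := by
  have := h (ψ⁻¹ * ψ') fun x => (mem_of_frob hP (Ideal.absNorm_eq_zero_iff.not.2 h0) a _).1 (by
    rw [smul_sub, smul_smul, Subgroup.coe_mul, Subgroup.coe_inv, mul_inv_cancel_left]
    have := P.sub_mem (b x) (a x)
    rwa [sub_sub_sub_cancel_right] at this)
  rwa [map_mul, map_inv, inv_mul_eq_one] at this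

/-- **the primitive character exists** -/
theorem ex_pc (φ : GK j →* ℂˣ) (n : ∀ g, ‖(φ g : ℂ)‖ ≤ 1) : ∃ θ, Pc j φ θ := by
  choose Q q1 q2 using fun v : Pr K => exists_above j v.asIdeal v.isPrime
  choose F hF using fun v : Pr K => exists_frob j (q1 v) (P016Z.EP.rc_prime v)
    ((mem_below (j := j) (P := Q v) _).1 ((q2 v).symm ▸ P016Z.EP.rc_mem v))
  obtain ⟨θ, t1, -, t2⟩ := ex_mul
    (fun v : Pr K => if ∀ t : GK j, Inert (Q v) t → φ t = 1 then (φ (F v) : ℂ) else 0) fun v => by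
      split_ifs
      exacts [n _, by simp]
  have cj : ∀ g t : GK j, φ (g⁻¹ * t * g) = φ t := fun g t => by
    rw [map_mul, map_mul, map_inv, inv_mul_cancel_comm]
  have key : ∀ P : Ideal (𝓞 Qb), P.IsPrime → below j P ≠ ⊥ → ∃ (v : Pr K) (g : GK j),
      below j P = v.asIdeal ∧ ∀ x, (g : GQ) • x ∈ P ↔ x ∈ Q v := fun P hP h0 => by
    let v : Pr K := ⟨_, below_pr j hP, h0⟩
    obtain ⟨g, hg⟩ := exists_smul j (q1 v) hP (q2 v)
    exact ⟨v, g, rfl, fun x => by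
      rw [hg, Ideal.mem_pointwise_smul_iff_inv_smul_mem, inv_smul_smul]⟩
  have mv : ∀ (P P' : Ideal (𝓞 Qb)) (g t : GK j) (q : ℕ), (∀ x, (g : GQ) • x ∈ P ↔ x ∈ P') →
      (∀ x : 𝓞 Qb, (t : GQ) • x - x ^ q ∈ P) →
      ∀ x : 𝓞 Qb, ((g⁻¹ * t * g : GK j) : GQ) • x - x ^ q ∈ P' := fun P P' g t q e h x => by
    rw [← e, smul_sub, smul_smul, smul_pow', Subgroup.coe_mul, Subgroup.coe_mul, Subgroup.coe_inv,
      mul_assoc, mul_inv_cancel_left, mul_smul]
    exact h _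
  refine ⟨θ, t1, fun P hP h0 t i ne => ?_, fun P hP h0 u ψ fr => ?_⟩
  · obtain ⟨v, g, e, k⟩ := key P hP h0
    rw [e, t2, if_neg fun z => ne ?_]
    rw [← cj g, z _ fun x => by simpa using mv P _ g t 1 k (fun y => by simpa using i y) x]
  · obtain ⟨v, g, e, k⟩ := key P hP h0
    have z : ∀ t : GK j, Inert (Q v) t → φ t = 1 := fun t i => by
      rw [← cj g⁻¹, u _ fun x => by
        simpa using mv (Q v) P g⁻¹ t 1 (fun y => by rw [← k]; simp) (fun y => by simpa using i y) x]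
    rw [e, t2, if_pos z, ← cj g ψ, fk_eq (q1 v) ((q2 v).symm ▸ v.ne_bot) z (hF v)
      (ψ' := g⁻¹ * ψ * g) fun x => by rw [q2, ← e]; exact mv P _ g ψ _ k fr x]

/-! ### ring class characters times Dirichlet characters -/

/-- `g` raises the roots of unity of order `f` to the power `a` -/
def Cz (f : ℕ) (g : GQ) (a : ℕ) : Prop := ∀ ζ : Qb, ζ ^ f = 1 → g ζ = ζ ^ a

theorem cz_of {f q : ℕ} (hP : P.IsPrime) (hf : (f : 𝓞 Qb) ∉ P) {g : GQ}
    (h : ∀ x : 𝓞 Qb, g • x - x ^ q ∈ P) : Cz f g q := fun ζ e => by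
  have f0 : f ≠ 0 := fun z => hf (by rw [z, Nat.cast_zero]; exact zero_mem _)
  let z : 𝓞 Qb := ⟨ζ, IsIntegral.of_pow (Nat.pos_of_ne_zero f0) (e ▸ isIntegral_one)⟩
  have e' : z ^ f = 1 := Subtype.ext e
  exact congrArg Subtype.val (root_eq hP hf (x := g • z) (y := z ^ q)
    (by rw [← smul_pow', e', smul_one]) (by rw [← pow_mul, mul_comm, pow_mul, e', one_pow]) (h z))

open P004K in
/-- **the dictionary**: `φ = χ η` belongs to `I ↦ χ(I) η(N I)` -/
theorem dict (r : RC2) (hK : Iq K) {c f : ℕ} (hc : 0 < c) (χ φ : GK j →* ℂˣ)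
    (n : ∀ g, ‖(χ g : ℂ)‖ ≤ 1) (hχ : ∀ g : GK j, g.1 ∈ Hc j c → χ g = 1)
    (η : DirichletCharacter ℂ f) (hφ : ∀ (g : GK j) a, Cz f g a → (φ g : ℂ) = χ g * η a) :
    ∃ θ : Ideal (𝓞 K) →* ℂ, (∀ I, ‖θ I‖ ≤ 1) ∧
      (∀ I (g : GK j), Cop c I → Ar j c I g → θ I = χ g * η (Ideal.absNorm I)) ∧
      (∀ I, ¬ Cop c I → θ I = 0) ∧
      (∀ P : Ideal (𝓞 Qb), P.IsPrime → ((c * f : ℕ) : 𝓞 Qb) ∈ P → θ (below j P) = 0) ∧
      (∀ P : Ideal (𝓞 Qb), P.IsPrime → below j P ≠ ⊥ → ((c * f : ℕ) : 𝓞 Qb) ∉ P →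
        (∀ t : GK j, Inert P t → φ t = 1) ∧ ∀ ψ : GK j, Fk j P ψ → θ (below j P) = φ ψ) ∧
      ((∀ P : Ideal (𝓞 Qb), P.IsPrime → ((c * f : ℕ) : 𝓞 Qb) ∈ P →
        ∃ t : GK j, Inert P t ∧ φ t ≠ 1) → Pc j φ θ) := by
  obtain ⟨r1, -, r3, r4, r5, -, r7⟩ := r K j hK c hc
  let u : Ideal (𝓞 K) → ℂ := fun I =>
    if h : Cop c I then χ ⟨_, (r1 I h).choose_spec.1⟩ * η (Ideal.absNorm I) else 0
  have u1 : ∀ I (g : GK j), Cop c I → Ar j c I g → u I = χ g * η (Ideal.absNorm I) :=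
    fun I g h a => by
      have := hχ (g⁻¹ * ⟨_, (r1 I h).choose_spec.1⟩) ((r4 I _ _ a).1 (r1 I h).choose_spec)
      rw [map_mul, map_inv, inv_mul_eq_one] at this
      rw [show u I = _ from dif_pos h, this]
  have u0 : ∀ I, ¬ Cop c I → u I = 0 := fun I h => dif_neg h
  have top : ∀ g : GK j, Ar j c ⊤ g → χ g = 1 := fun g a =>
    hχ g ((r5 _ g (P004R.cop_top c) a).2 ⟨1, 0, by simp⟩)
  let θ : Ideal (𝓞 K) →* ℂ := ⟨⟨u, by
    obtain ⟨g, a⟩ := r1 _ (P004R.cop_top c)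
    rw [Ideal.one_eq_top, u1 _ ⟨g, a.1⟩ (P004R.cop_top c) a, top ⟨g, a.1⟩ a]
    simp⟩, fun I I' => by
    show u _ = u _ * u _
    by_cases x : Cop c I
    · by_cases y : Cop c I'
      · obtain ⟨g, a⟩ := r1 _ x
        obtain ⟨g', b⟩ := r1 _ y
        rw [u1 _ (⟨g, a.1⟩ * ⟨g', b.1⟩) (P004R.La.cop_mul.2 ⟨x, y⟩) (r3 _ _ _ _ x y a b),
          u1 _ ⟨g, a.1⟩ x a, u1 _ ⟨g', b.1⟩ y b]
        simp only [map_mul, Units.val_mul, Nat.cast_mul]
        ring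
      · rw [u0 _ y, u0 _ fun z => y (P004R.La.cop_mul.1 z).2, mul_zero]
    · rw [u0 _ x, u0 _ fun z => x (P004R.La.cop_mul.1 z).1, zero_mul]⟩
  have le : ∀ I, ‖θ I‖ ≤ 1 := fun I => by
    show ‖u I‖ ≤ 1
    by_cases x : Cop c I
    · rw [show u I = _ from dif_pos x, norm_mul]
      exact mul_le_one₀ (n _) (norm_nonneg _) (η.norm_le_one _)
    · rw [u0 _ x, norm_zero]
      exact zero_le_one
  have a : ∀ P : Ideal (𝓞 Qb), P.IsPrime → ((c * f : ℕ) : 𝓞 Qb) ∈ P → θ (below j P) = 0 :=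
    fun P hP m => by
    show u _ = 0
    by_cases x : Cop c (below j P)
    · have y : (c : 𝓞 Qb) ∉ P := fun y => (below_pr j hP).ne_top (by
        rw [← x.2, sup_eq_left.2 ((Ideal.span_singleton_le_iff_mem _).2 ((mem_below c).2 y))])
      have z := (hP.mem_or_mem (Nat.cast_mul (α := 𝓞 Qb) c f ▸ m)).resolve_left y
      rw [show u _ = _ from dif_pos x, η.map_nonunit, mul_zero]
      rw [ZMod.isUnit_iff_coprime]
      intro k
      obtain ⟨s, t, e⟩ := (Nat.isCoprime_iff_coprime.2 k).map (Int.castRingHom (𝓞 Qb))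
      refine hP.ne_top ((Ideal.eq_top_iff_one _).2 (e ▸ add_mem (P.mul_mem_left _ ?_)
        (P.mul_mem_left _ (by simpa using z))))
      simpa using (mem_below _).1 (below j P).absNorm_mem
    · exact u0 _ x
  have b : ∀ P : Ideal (𝓞 Qb), P.IsPrime → below j P ≠ ⊥ → ((c * f : ℕ) : 𝓞 Qb) ∉ P →
      (∀ t : GK j, Inert P t → φ t = 1) ∧ ∀ ψ : GK j, Fk j P ψ → θ (below j P) = φ ψ :=
    fun P hP h0 m => by
    have x : (c : 𝓞 Qb) ∉ P := fun z => m (by rw [Nat.cast_mul]; exact P.mul_mem_right _ z)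
    have y : (f : 𝓞 Qb) ∉ P := fun z => m (by rw [Nat.cast_mul]; exact P.mul_mem_left _ z)
    have P0 : P ≠ ⊥ := P004K.Rc.below_ne h0
    refine ⟨fun t i => Units.ext ?_, fun ψ fr => ?_⟩
    · have e := r7 P hP P0 x t t.2 0 fun z => by simpa using i z
      rw [pow_zero, Ideal.one_eq_top] at e
      rw [hφ t 1 (cz_of hP y fun z => by simpa using i z), top t e]
      simp
    · have e := r7 P hP P0 x ψ ψ.2 1 fun z => by simpa using fr z
      rw [pow_one] at e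
      rw [hφ ψ _ (cz_of hP y fr)]
      exact u1 _ ψ ⟨h0, ((below_pr j hP).isMaximal h0).out.2 _ (lt_of_le_of_ne le_sup_left
        fun z => x ((mem_below (j := j) c).1 (by
          rw [z]; exact Ideal.mem_sup_right (Ideal.mem_span_singleton_self _))))⟩ e
  refine ⟨θ, le, u1, u0, a, b, fun k => ⟨le, fun P hP h0 t i ne => a P hP (by_contra fun m =>
    ne ((b P hP h0 m).1 t i)), fun P hP h0 z => (b P hP h0 fun m => ?_).2⟩⟩
  obtain ⟨t, i, ne⟩ := k P hP m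
  exact ne (z t i)

end Vale.Agent.P014Z.La
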