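import Vale.Agent.P027M.M.CPbm
import Vale.Agent.P022.H236.L3.Te

/-! # P014Z, units: the function `(u(τ) ^ p / u'(p τ) - 1) / c` -/

set_option autoImplicit false
set_option linter.all false

open UpperHalfPlane CongruenceSubgroup PowerSeries
open scoped MatrixGroups Manifold

noncomputable section

namespace Vale.Agent.P014Z.Su.Dp

open Vale.Agent.P022 Vale.Agent.P022.H218.L3 Vale.Agent.P022.H231.L3 Vale.Agent.P022.H236
  Vale.Agent.P022.H236.L3 Vale.Agent.P022.H542.L3 Vale.Agent.P027M.M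

variable {l M : ℕ}

/-- the point `l τ` -/
def vp (hl : 0 < l) (τ : ℍ) : ℍ := gl !![(l : ℤ), 0; 0, 1] (diag_pos hl) • τ

theorem vp_coe (hl : 0 < l) (τ : ℍ) : (vp hl τ : ℂ) = l * τ := dg_coe hl τ

theorem vp_hol (hl : 0 < l) {u : ℍ → ℂ} (h : u ∈ Hol) : (fun τ => u (vp hl τ)) ∈ Hol :=
  comp_mem' _ (gl_pos _ _) h

theorem g0_le (h : l ∣ M) : Gamma0 M ≤ Gamma0 l := fun γ hγ => by
  rw [Gamma0_mem, ZMod.intCast_zmod_eq_zero_iff_dvd] at hγ ⊢
  exact (Int.natCast_dvd_natCast.2 h).trans hγ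

theorem pbz_mem (hl : 0 < l) (hM : 0 < M) {x : Mer} (hx : x ∈ MF (Gamma0 M)) :
    pbz !![(l : ℤ), 0; 0, 1] (diag_pos hl) x ∈ MF (Gamma0 (l * M)) := by
  have h := (sPbM _ (diag_pos hl)).1 M hM x (MF_mono (fun γ k => Gamma0_mem.2 (Gamma_mem.1 k).2.2.1) hx)
  have : NeZero (M * (!![(l : ℤ), 0; 0, 1] : M2).det.natAbs) :=
    ⟨Nat.mul_ne_zero hM.ne' (by simp; omega)⟩
  refine mem_MF_of_fixed _ h fun γ hγ => ?_
  obtain ⟨c, hc⟩ := (ZMod.intCast_zmod_eq_zero_iff_dvd _ _).1 (Gamma0_mem.1 (inv_mem hγ))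
  rw [← inv_inv γ]
  generalize γ⁻¹ = δ at hc
  have hd := δ.det_coe
  rw [Matrix.det_fin_two] at hd
  rw [Nat.cast_mul] at hc
  let g : SL(2, ℤ) := ⟨!![δ 0 0, l * δ 0 1; M * c, δ 1 1], by
    rw [Matrix.det_fin_two_of]; linear_combination hd + δ 0 1 * hc⟩
  have e : !![(l : ℤ), 0; 0, 1] * (δ : M2) = (g : M2) * !![(l : ℤ), 0; 0, 1] := by
    ext i j
    fin_cases i <;> fin_cases j <;>
      simp [g, Matrix.mul_apply, Fin.sum_univ_two, hc, mul_comm, mul_left_comm]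
  have h1 : 0 < ((g : M2) * !![(l : ℤ), 0; 0, 1]).det := by
    rw [Matrix.det_mul]; exact mul_pos (SL_pos g) (diag_pos hl)
  rw [← pbz_SL, ← pbz_mul _ _ (e ▸ h1), pbz_congr e _ h1, pbz_mul (SL_pos g) (diag_pos hl), pbz_SL,
    act_eq_self hx (inv_mem (Gamma0_mem.2 (by simp [g])))]

theorem vp_mem (hl : 0 < l) (hM : 0 < M) {u : ℍ → ℂ} {h : u ∈ Hol} (m : inc u h ∈ MF (Gamma0 M)) :
    inc _ (vp_hol hl h) ∈ MF (Gamma0 (l * M)) := by
  have := pbz_mem hl hM m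
  rwa [pbz, pb_inc] at this

theorem hol_inv {v : ℍ → ℂ} (h : v ∈ Hol) (n : ∀ τ, v τ ≠ 0) : (fun τ => (v τ)⁻¹) ∈ Hol :=
  fun τ => (differentiableAt_inv (n τ)).comp_mdifferentiableAt (h τ)

/-- `(u / v - 1) / c` -/
theorem quo {Γ : Subgroup SL(2, ℤ)} {u v : ℍ → ℂ} {h : u ∈ Hol} {h' : v ∈ Hol} (n : ∀ τ, v τ ≠ 0)
    (m : inc u h ∈ MF Γ) (m' : inc v h' ∈ MF Γ) {w : ℤ} {F G W : ℂ⟦X⟧} (e : Exq 1 w F u)
    (e' : Exq 1 w G v) (g : constantCoeff G ≠ 0) {c : ℂ} (c0 : c ≠ 0) (k : F = G * (1 + C c * W)) :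
    ∃ hW : (fun τ => (u τ / v τ - 1) / c) ∈ Hol, inc _ hW ∈ MF Γ ∧
      Exq 1 0 W (fun τ => (u τ / v τ - 1) / c) ∧ ExM 1 (ls 0 W) (inc _ hW) := by
  have hW : (fun τ => (u τ / v τ - 1) / c) ∈ Hol := by
    convert Hol.smul_mem (sub_mem (mul_mem h (hol_inv h' n)) (one_mem Hol)) c⁻¹ using 2 with τ
    simp [div_eq_mul_inv, mul_comm]
  have x : Exq 1 0 W fun τ => (u τ / v τ - 1) / c := by
    have a := e.mul (e'.inv one_ne_zero g).2
    rw [add_neg_cancel, k, mul_right_comm, PowerSeries.mul_inv_cancel _ g, one_mul] at a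
    filter_upwards [a] with τ a
    have b := (a.add (Ev.one.smul (-1))).smul c⁻¹
    simp only [neg_zero, zpow_zero, mul_one] at b ⊢
    convert b using 1
    · rw [neg_one_smul ℂ, add_neg_cancel_comm, smul_eq_C_mul, ← mul_assoc, ← map_mul,
        inv_mul_cancel₀ c0, map_one, one_mul]
    · field_simp
      ring
  refine ⟨hW, ?_, x, x.exL.exM_inc hW⟩
  have v0 : inc v h' ≠ 0 := inc_ne_zero h' fun z => n I (congrFun z I)
  have q : inc _ hW = (inc u h / inc v h' - 1) / algebraMap ℂ Mer c := by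
    rw [eq_div_iff ((map_ne_zero _).2 c0), eq_sub_iff_add_eq, eq_div_iff v0, ← inc_const, ← inc_mul,
      ← inc_one, ← inc_add, ← inc_mul]
    refine inc_congr _ (funext fun τ => ?_)
    have := n τ
    simp only [Pi.mul_apply, Pi.add_apply]
    field_simp
    ring
  rw [q]
  exact div_mem (sub_mem (div_mem m m') (one_mem _)) (algebraMap_mem _ c)

end Vale.Agent.P014Z.Su.Dp
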