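import Vale.Agent.P014Z.Su.Dep

/-! # P014Z, units: the character sum modulo `p` -/

set_option autoImplicit false
set_option linter.all false

open PowerSeries Finset AddChar

noncomputable section

namespace Vale.Agent.P014Z.Su

open Vale.Agent.P014T.Sg Dp

variable {A B : Type} [CommRing A] [CommRing B] {f : ℕ} [NeZero f] {p : ℕ} {ζ : A}

theorem Dp.gs_shift {k : Type} [Field k] (χ : k →+* B) {ψ : DirichletCharacter k f}
    (pr : ψ.IsPrimitive) (e : AddChar (ZMod f) B) (a : ZMod f) :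
    gaussSum (ψ.ringHomComp χ) (e.mulShift a) = χ (ψ⁻¹ a) * gaussSum (ψ.ringHomComp χ) e := by
  by_cases ha : IsUnit a
  · have := gaussSum_mulShift_eq (ψ.ringHomComp χ) e ha.unit
    rwa [MulChar.ringHomComp_inv] at this
  rw [MulChar.map_nonunit _ ha, map_zero, zero_mul]
  rcases subsingleton_or_nontrivial B with _ | _
  · exact Subsingleton.elim _ _
  obtain ⟨d, d1, d2, d3⟩ := exists_divisor_of_not_isPrimitive _ (not_isPrimitive_mulShift e ha)
  by_contra n
  refine ((Nat.sInf_le (?_ : ψ.FactorsThrough d)).trans_lt d2).ne pr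
  rw [DirichletCharacter.factorsThrough_iff_ker_unitsMap d1]
  intro u hu
  by_contra c
  have l := gaussSum_aux_of_mulShift _ (ψ.ringHomComp χ) d1 d3 hu
  have i : ψ u - 1 ≠ 0 := sub_ne_zero.2 fun z => c (Units.ext z)
  rw [MulChar.ringHomComp_apply, ← sub_eq_zero, ← sub_one_mul, ← χ.map_one, ← map_sub] at l
  exact n ((i.isUnit.map χ).mul_right_eq_zero.1 l)

theorem Vz_map (φ : A →+* B) (hζ : ζ ^ f = 1) (c m : ℕ) (a : ZMod f) :
    map φ (Vz f p c m ζ a) = Vz f p c m (φ ζ) a := by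
  have e : ∀ a, map φ (Wz f p ζ a) = Wz f p (φ ζ) a := fun a => by
    ext n
    simp [coeff_Wz hζ, coeff_Wz (ζ := φ ζ) (by rw [← map_pow, hζ, map_one]), map_ofNat]
  simp only [Vz, map_mul, map_sub, map_natCast, e]

/-- **the character sum modulo `p`**: `n`, `n'` are lifts of `ψ`, `ψ⁻¹` -/
theorem sum_mod [Fact p.Prime] (hζ : ζ ^ f = 1) {ψ : DirichletCharacter (ZMod p) f}
    (pr : ψ.IsPrimitive) {c : ℕ} (hc : ψ c = 1) (u : c.Coprime f) {n n' : ZMod f → ℤ}
    (hn : ∀ a, (n a : ZMod p) = ψ a) (hn' : ∀ a, (n' a : ZMod p) = ψ⁻¹ a) (m k : ℕ) :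
    (p : A) ∣ coeff k (∑ a, (n a : A⟦X⟧) * Vz f p c m ζ a) -
      24 * m * (c - 1) * (∑ a, n a * ζ ^ a.val) *
        (∑ x ∈ k.divisorsAntidiagonal, cw p x.2 * n x.1 * n' x.2 : ℤ) := by
  let φ := Ideal.Quotient.mk (Ideal.span {(p : A)})
  have p0 : (p : A ⧸ Ideal.span {(p : A)}) = 0 :=
    (map_natCast φ p).symm.trans (Ideal.Quotient.eq_zero_iff_mem.2 (Ideal.mem_span_singleton_self _))
  let χ := ZMod.castHom (ringChar.dvd p0) (A ⧸ Ideal.span {(p : A)})
  have z : φ ζ ^ f = 1 := by rw [← map_pow, hζ, map_one]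
  have a1 : ∀ a, ((n a : ℤ) : A ⧸ Ideal.span {(p : A)}) = ψ.ringHomComp χ a := fun a => by
    rw [MulChar.ringHomComp_apply, ← hn, map_intCast]
  have a2 : ∀ a, ((n' a : ℤ) : A ⧸ Ideal.span {(p : A)}) = χ (ψ⁻¹ a) := fun a => by
    rw [← hn', map_intCast]
  have e := sum_Vz (p := p) z (ψ.ringHomComp χ) (c := c) (by
    rw [MulChar.ringHomComp_apply, hc, map_one]) u m k
  have i : ∀ (a : ℤ) (s : A⟦X⟧), coeff k ((a : A⟦X⟧) * s) = a * coeff k s := fun a s => by
    rw [← coeff_C_mul, map_intCast]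
  rw [← Ideal.mem_span_singleton, ← Ideal.Quotient.eq]
  simp only [gs_shift χ pr, ← Vz_map φ hζ, coeff_map] at e
  simp only [map_sum, i, map_mul, map_sub, map_intCast, map_natCast, map_ofNat, map_one, map_pow,
    Int.cast_sum, Int.cast_mul, a1, a2]
  rw [e, mul_sum, mul_sum]
  exact sum_congr rfl fun x _ => by rw [gaussSum]; simp only [zmodChar_apply]; ring

end Vale.Agent.P014Z.Su
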