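import Vale.Agent.P014Z.Su.Mod
import Vale.Agent.P014Z.Su.Dpm
import Vale.Agent.P014Z.Su.Dpf0

/-! # P014Z, units: the depleted logarithm as a modular function -/

set_option autoImplicit false
set_option linter.all false

open PowerSeries Finset UpperHalfPlane CongruenceSubgroup
open scoped MatrixGroups

noncomputable section

namespace Vale.Agent.P014Z.Su

open Vale.Agent.P014T.Sg Vale.Agent.P022 H236 H236.L3 H218.L3 H231.L3 P027M.M Dp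

variable {A : Type} [CommRing A] (f : ℕ) [NeZero f] {p : ℕ}

/-- `(u_a(τ) ^ p / u_(p a)(p τ) - 1) / p` -/
def wu (hp : 0 < p) (c m : ℕ) (a : ZMod f) (τ : ℍ) : ℂ :=
  (us f c m a τ ^ p / us f c m (p * a) (vp hp τ) - 1) / p

variable {f}

theorem Mm.sum {Γ : Subgroup SL(2, ℤ)} {ι : Type} (s : Finset ι) (n : ι → ℤ) {F : ι → ℍ → ℂ}
    {W : ι → ℂ⟦X⟧} (h : ∀ i, Mm Γ (F i) ∧ Exq 1 0 (W i) (F i)) :
    Mm Γ (fun τ => ∑ i ∈ s, n i * F i τ) ∧
      Exq 1 0 (∑ i ∈ s, n i * W i) fun τ => ∑ i ∈ s, n i * F i τ := by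
  classical
  have k : ∀ z : ℂ, Mm Γ fun _ => z := fun z => ⟨_, inc_const z ▸ algebraMap_mem _ z⟩
  induction s using Finset.induction_on with
  | empty => exact ⟨k 0, .of_forall fun τ => by simp [Ev, hasSum_zero]⟩
  | insert i s o e =>
    simp only [sum_insert o]
    obtain ⟨a, b⟩ := (k (n i)).mul (h i).1
    refine ⟨⟨add_mem a e.1.1, (inc_add a e.1.1).symm ▸ add_mem b e.1.2⟩, ?_⟩
    filter_upwards [(h i).2, e.2] with τ x y
    have := (x.smul (n i)).add y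
    rwa [smul_eq_C_mul, map_intCast, ← mul_assoc, ← add_mul] at this

/-- one unit -/
theorem wu_spec (hf : 1 < f) {m : ℕ} (hm : f ∣ m * sq f) (hp : p.Prime) (h2 : p ≠ 2) (ι : A →+* ℂ)
    {ζ : A} (hζ : ζ ^ f = 1) (e : ι ζ = ee (1 / f)) (c : ℕ) (a : ZMod f) : ∃ r : A⟦X⟧,
    Mm (Gamma0 (p * f ^ 2)) (wu f hp.pos c m a) ∧
      Exq 1 0 (map ι (Vz f p c m ζ a + p * r)) (wu f hp.pos c m a) := by
  obtain ⟨r, h⟩ := dw_Fz hf hζ hp h2 c m a
  obtain ⟨a1, a2⟩ := (us_mm hf hm c a).pow p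
  obtain ⟨b1, b2⟩ := us_mm hf hm c (p * a)
  obtain ⟨k1, k2, k3, -⟩ := quo (fun τ => us_ne hf c m _ _)
    (MF_mono (g0_le (dvd_mul_left _ p)) a2) (vp_mem hp.pos (by positivity) b2)
    ((us_exq hf hm c a).pow p) ((us_exq hf hm c (p * a)).mulTau hp.ne_zero (vp_coe hp.pos))
    (by rw [constantCoeff_expand, Fz_zero hf]; exact one_ne_zero) (Nat.cast_ne_zero.2 hp.ne_zero)
    (W := map ι (Vz f p c m ζ a + p * r)) (by
      rw [← e, ← Fz_map hf, ← Fz_map hf, ← map_expand, ← map_pow, h]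
      simp only [map_mul, map_add, map_one, map_pow, map_natCast]
      ring)
  exact ⟨r, ⟨k1, k2⟩, k3⟩

/-- **DEP**: `n`, `n'` are lifts of `ψ`, `ψ⁻¹` -/
theorem dep [hp : Fact p.Prime] (hf : 1 < f) {m : ℕ} (hm : f ∣ m * sq f) (h2 : p ≠ 2) (ι : A →+* ℂ)
    {ζ : A} (hζ : ζ ^ f = 1) (e : ι ζ = ee (1 / f)) {ψ : DirichletCharacter (ZMod p) f}
    (pr : ψ.IsPrimitive) {c : ℕ} (hc : ψ c = 1) (u : c.Coprime f) {n n' : ZMod f → ℤ}
    (hn : ∀ a, (n a : ZMod p) = ψ a) (hn' : ∀ a, (n' a : ZMod p) = ψ⁻¹ a) : ∃ W : A⟦X⟧,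
    (∃ h : (fun τ => ∑ a, n a * wu f hp.1.pos c m a τ) ∈ Hol, inc _ h ∈ MF (Gamma0 (p * f ^ 2)) ∧
      ExM 1 (ls 0 (map ι W)) (inc _ h)) ∧
    ∀ k, (p : A) ∣ coeff k W - 24 * m * (c - 1) * (∑ a, n a * ζ ^ a.val) *
      (∑ x ∈ k.divisorsAntidiagonal, cw p x.2 * n x.1 * n' x.2 : ℤ) := by
  choose r h using wu_spec hf hm hp.1 h2 ι hζ e c
  obtain ⟨⟨a, b⟩, x⟩ := Mm.sum univ n h
  refine ⟨∑ a, n a * (Vz f p c m ζ a + p * r a), ⟨a, b, ?_⟩, fun k => ?_⟩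
  · simpa only [map_sum, map_mul, map_intCast] using x.exL.exM_inc a
  have := (sum_mod hζ pr hc u hn hn' m k).add (Dvd.intro (coeff k (∑ a, n a * r a)) rfl)
  rw [← coeff_C_mul, map_natCast, sub_add_eq_add_sub, ← map_add, mul_sum, ← sum_add_distrib] at this
  simpa only [mul_add, mul_left_comm] using this

end Vale.Agent.P014Z.Su
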