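import Vale.Agent.P014Z.Su.Dpm

/-! # P014Z, units: the expansion of the eigen-component when `p` divides the conductor -/

set_option autoImplicit false
set_option linter.all false

open PowerSeries Finset

noncomputable section

namespace Vale.Agent.P014Z.Su

open Dp

variable {R : Type} [CommRing R] {p : ℕ}

namespace Dr

theorem pw_dvd {x : R⟦X⟧} (x0 : constantCoeff x = 0) {t : R} {k : ℕ}
    (h : ∀ i < k, t ∣ coeff i x) {n : ℕ} (hn : 2 ≤ n) : t ^ n ∣ coeff k (x ^ n) := by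
  choose! y hy using h
  let z : R⟦X⟧ := C t * mk fun i => if i < k then y i else 0
  have a : ∀ i, coeff i z = if i < k then coeff i x else 0 := fun i => by
    rw [coeff_C_mul, coeff_mk]
    split_ifs with l
    · exact (hy i l).symm
    · exact mul_zero _
  have b : X ^ k ∣ x - z := X_pow_dvd_iff.2 fun i l => by rw [map_sub, a, if_pos l, sub_self]
  have x1 : X ∣ x := X_dvd_iff.2 x0
  have z1 : X ∣ z := X_dvd_iff.2 (by
    rw [← coeff_zero_eq_constantCoeff_apply, a]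
    split_ifs <;> simp [x0])
  have c : X ^ (k + 1) ∣ x ^ n - z ^ n := by
    rw [← (Commute.all x z).geom_sum₂_mul, pow_succ']
    refine mul_dvd_mul (dvd_sum fun i hi => ?_) b
    rcases i.eq_zero_or_pos with rfl | i0
    · exact (dvd_pow z1 (by omega)).mul_left _
    · exact (dvd_pow x1 i0.ne').mul_right _
  have d := X_pow_dvd_iff.1 c k k.lt_succ_self
  rw [map_sub, sub_eq_zero] at d
  rw [d, mul_pow, ← map_pow, coeff_C_mul]
  exact dvd_mul_right _ _

/-- **extraction of the root** -/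
theorem root (hp : p.Prime) (reg : ∀ x : R, p * x = 0 → x = 0) {π : R} {j : ℕ} (hj : 2 ≤ j)
    (ha : (p : R) ∣ π ^ (p - 1)) (hb : π ^ (j + 1) ∣ p) {Z w : R⟦X⟧} (z0 : constantCoeff Z = 1)
    (h : Dw p Z 1 w) (hw : ∀ k, π ^ j ∣ coeff k w) (k : ℕ) : π ^ (j + 1) ∣ coeff k (Z - 1 - w) := by
  obtain ⟨r, h⟩ := h
  obtain ⟨x, rfl⟩ : ∃ x, Z = x + 1 := ⟨Z - 1, by ring⟩
  have x0 : constantCoeff x = 0 := by simpa using z0
  rw [add_sub_cancel_right]
  induction k using Nat.strong_induction_on with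
  | _ k ih =>
    have lo : ∀ i < k, π ^ j ∣ coeff i x := fun i l => by
      have := ((pow_dvd_pow π j.le_succ).trans (ih i l)).add (hw i)
      rwa [map_sub, sub_add_cancel] at this
    have m : ∀ (n : ℕ) (s : R⟦X⟧), coeff k ((n : R⟦X⟧) * s) = n * coeff k s := fun n s => by
      rw [← coeff_C_mul, map_natCast]
    have p2 := hp.two_le
    have e : (p : R⟦X⟧) * (x - w - p * r + ∑ i ∈ Ioo 1 p, (p.choose i / p : ℕ) * x ^ i) =
        -x ^ p := by
      rw [add_pow_prime_eq' hp, ← Finset.sum_erase_add _ _ (mem_Ioo.2 ⟨one_pos, hp.one_lt⟩),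
        show (Ioo 0 p).erase 1 = Ioo 1 p by ext i; simp; omega, Nat.choose_one_right,
        Nat.div_self hp.pos] at h
      simp only [one_pow, mul_one, mul_comm (x ^ _), Nat.cast_one, pow_one, one_mul] at h
      linear_combination h
    obtain ⟨s, hs⟩ := pw_dvd x0 lo p2
    obtain ⟨ε, hε⟩ := ha
    obtain ⟨v, hv⟩ : ∃ v, j * p = (p - 1) + (j + 1) + v := Nat.exists_eq_add_of_le (by
      obtain ⟨q, rfl⟩ := Nat.exists_eq_add_of_le p2
      obtain ⟨i, rfl⟩ := Nat.exists_eq_add_of_le hj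
      rw [show 2 + q - 1 = q + 1 by omega]
      nlinarith [Nat.zero_le (i * q)])
    have e' := congrArg (coeff k) e
    rw [m, map_neg, hs, ← pow_mul, hv, pow_add, pow_add, hε, map_add, map_sub _ (x - w), m,
      map_sum] at e'
    have := reg (coeff k (x - w) - p * coeff k r + ∑ i ∈ Ioo 1 p,
      coeff k (((p.choose i / p : ℕ) : R⟦X⟧) * x ^ i) + π ^ (j + 1) * (ε * π ^ v * s))
      (by linear_combination e')
    rw [show coeff k (x - w) = p * coeff k r - ∑ i ∈ Ioo 1 p,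
      coeff k (((p.choose i / p : ℕ) : R⟦X⟧) * x ^ i) - π ^ (j + 1) * (ε * π ^ v * s) by
        linear_combination this]
    refine dvd_sub (dvd_sub (hb.mul_right _) (dvd_sum fun i hi => ?_)) (dvd_mul_right _ _)
    have i2 : 2 ≤ i := (mem_Ioo.1 hi).1
    rw [m]
    refine Dvd.dvd.mul_left (dvd_trans ?_ (pw_dvd x0 lo i2)) _
    rw [← pow_mul]
    exact pow_dvd_pow _ (by nlinarith)

variable {f : ℕ} [NeZero f]

/-- the fibres of the multiplication by `p` -/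
def fi (p : ℕ) (b : ZMod f) : Finset (ZMod f)ˣ := univ.filter fun a : (ZMod f)ˣ => (p : ZMod f) * a = b

/-- the sums over the fibres of the multiplication by `p` -/
def Fb (p : ℕ) (ν ν' : (ZMod f)ˣ → ℕ) : Prop := ∀ b : ZMod f,
  ∑ a ∈ fi p b, ν a = ∑ a ∈ fi p b, ν' a

theorem Fb.prod {ν ν' : (ZMod f)ˣ → ℕ} (h : Fb p ν ν') {M : Type} [CommMonoid M] (G : ZMod f → M) :
    ∏ a : (ZMod f)ˣ, G (p * a) ^ ν a = ∏ a : (ZMod f)ˣ, G (p * a) ^ ν' a := by
  have k : ∀ μ : (ZMod f)ˣ → ℕ, ∏ a : (ZMod f)ˣ, G (p * a) ^ μ a =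
      ∏ b, G b ^ ∑ a ∈ fi p b, μ a := fun μ => by
    rw [← prod_fiberwise univ fun a : (ZMod f)ˣ => (p : ZMod f) * a]
    refine prod_congr rfl fun b _ => ?_
    rw [← prod_pow_eq_pow_sum, fi]
    exact prod_congr rfl fun a m => by rw [(mem_filter.1 m).2]
  rw [k, k]
  exact prod_congr rfl fun b _ => by rw [h b]

theorem Fb.sum {ν ν' : (ZMod f)ˣ → ℕ} (h : Fb p ν ν') : ∑ a, ν a = ∑ a, ν' a := by
  rw [← sum_fiberwise univ (fun a : (ZMod f)ˣ => (p : ZMod f) * a) ν,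
    ← sum_fiberwise univ (fun a : (ZMod f)ˣ => (p : ZMod f) * a) ν']
  exact sum_congr rfl fun b _ => h b

theorem ex_u [hp : Fact p.Prime] (pf : p ∣ f) {k : Type} [CommRing k] {ψ : DirichletCharacter k f}
    (pr : ψ.IsPrimitive) : ∃ u : (ZMod f)ˣ, (p : ZMod f) * u = p ∧ ψ u ≠ 1 := by
  obtain ⟨d, hd⟩ := pf
  have d1 : d ∣ f := ⟨p, hd.trans (mul_comm _ _)⟩
  have f0 := NeZero.pos f
  have d2 : d < f := by
    have := hp.1.two_le
    have : 0 < d := Nat.pos_of_ne_zero fun z => by simp [z] at hd; omega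
    nlinarith
  by_contra n
  push Not at n
  refine ((Nat.sInf_le (?_ : ψ.FactorsThrough d)).trans_lt d2).ne pr
  rw [DirichletCharacter.factorsThrough_iff_ker_unitsMap d1]
  intro u hu
  refine Units.ext (n u ?_)
  have e : (((u : ZMod f).val : ℕ) : ZMod d) = (1 : ℕ) := by
    have := congrArg Units.val (MonoidHom.mem_ker.1 hu)
    rw [ZMod.unitsMap_val, ← ZMod.natCast_val] at this
    simpa using this
  have := ((ZMod.natCast_eq_natCast_iff _ _ _).1 e).mul_left' p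
  rw [← hd, ← ZMod.natCast_eq_natCast_iff] at this
  simpa using this

/-- the exponents of the power which is taken away -/
theorem ex_k [hp : Fact p.Prime] (pf : p ∣ f) {ψ : DirichletCharacter (ZMod p) f}
    (pr : ψ.IsPrimitive) {ν : (ZMod f)ˣ → ℕ} {z : ZMod p} (hν : ∀ a, (ν a : ZMod p) = z * ψ a) :
    ∃ κ : (ZMod f)ˣ → ℕ, Fb p ν fun a => κ a * p := by
  classical
  obtain ⟨u, u1, u2⟩ := ex_u pf pr
  have d : ∀ b : ZMod f, p ∣ ∑ a ∈ fi p b, ν a := fun b => by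
    rw [← ZMod.natCast_eq_zero_iff, Nat.cast_sum]
    simp only [hν]
    have e : ∑ a ∈ fi p b, z * ψ a =
        ψ u * ∑ a ∈ fi p b, z * ψ a := by
      rw [mul_sum, fi, sum_filter, sum_filter, ← Equiv.sum_comp (Equiv.mulLeft u)]
      simp only [Equiv.coe_mulLeft, Units.val_mul, ← mul_assoc, u1, map_mul, mul_comm (ψ u)]
    rw [← sub_eq_zero, ← one_sub_mul, mul_eq_zero, sub_eq_zero] at e
    exact e.resolve_left u2.symm
  choose q hq using d
  let r := Function.invFun fun a : (ZMod f)ˣ => (p : ZMod f) * a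
  refine ⟨fun a => if a = r (p * a) then q (p * a) else 0, fun b => ?_⟩
  by_cases x : ∃ a : (ZMod f)ˣ, (p : ZMod f) * a = b
  · have y : (p : ZMod f) * r b = b := Function.invFun_eq x
    have mf : ∀ a, a ∈ fi p b ↔ (p : ZMod f) * a = b := fun a => by simp [fi]
    rw [hq, sum_eq_single_of_mem (r b) ((mf _).2 y) fun a m n => by
      simp only [(mf a).1 m, if_neg n, zero_mul]]
    simp only [y, if_true, mul_comm]
  · rw [fi, filter_eq_empty_iff.2 fun a _ e => x ⟨a, e⟩, sum_empty, sum_empty]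

theorem sum_units {k M : Type} [CommRing k] [AddCommMonoid M] (G : ZMod f → M)
    (h : ∀ a, ¬ IsUnit a → G a = 0) : ∑ a : (ZMod f)ˣ, G a = ∑ a, G a := by
  classical
  rw [← sum_subset (subset_univ (univ.map ⟨Units.val, Units.val_injective⟩)) fun a _ m =>
    h a fun ⟨u, e⟩ => m (mem_map.2 ⟨u, mem_univ _, e⟩), sum_map]
  rfl

end Dr

open Dr

variable {f : ℕ} [NeZero f] {ζ : R}

/-- **the expansion**: `∏ F a ^ ν a = (∏ F a ^ κ a) ^ p (1 + π ^ j W)` -/
theorem dpr_ser [hp : Fact p.Prime] (h : 1 < f) (hζ : ζ ^ f = 1) (h2 : p ≠ 2)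
    (reg : ∀ x : R, p * x = 0 → x = 0) {ψ : DirichletCharacter (ZMod p) f} (pr : ψ.IsPrimitive)
    {c : ℕ} (hc : ψ c = 1) (u : c.Coprime f) {n n' : ZMod f → ℤ} (hn : ∀ a, (n a : ZMod p) = ψ a)
    (hn' : ∀ a, (n' a : ZMod p) = ψ⁻¹ a) (m : ℕ) {π s : R} {j : ℕ} (hj : 2 ≤ j)
    (ha : (p : R) ∣ π ^ (p - 1)) (hb : π ^ (j + 1) ∣ p)
    (hs : (p : R) ∣ ∑ a, n a * ζ ^ a.val - π ^ j * s) {ν κ : (ZMod f)ˣ → ℕ} {z : ℤ}
    (hν : ∀ a, (ν a : ZMod p) = z * ψ a) (fb : Fb p ν fun a => κ a * p) : ∃ W : R⟦X⟧,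
    ∏ a : (ZMod f)ˣ, Fz f c m ζ a ^ ν a =
      (∏ a : (ZMod f)ˣ, Fz f c m ζ a ^ κ a) ^ p * (1 + C (π ^ j) * W) ∧
    ∀ k, π ∣ coeff k W - 24 * m * (c - 1) * z * s *
      (∑ x ∈ k.divisorsAntidiagonal, cw p x.2 * n x.1 * n' x.2 : ℤ) := by
  have D : ∀ μ : (ZMod f)ˣ → ℕ, Dw p (∏ a : (ZMod f)ˣ, Fz f c m ζ a ^ μ a)
      (∏ a : (ZMod f)ˣ, expand p hp.1.ne_zero (Fz f c m ζ (p * a)) ^ μ a)
      (∑ a : (ZMod f)ˣ, μ a * Vz f p c m ζ a) := fun μ =>
    Dw.prod _ fun a _ => (dw_Fz h hζ hp.1 h2 c m a).pow _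
  have o : ∀ μ : (ZMod f)ˣ → ℕ, constantCoeff (∏ a : (ZMod f)ˣ, Fz f c m ζ a ^ μ a) = 1 :=
    fun μ => by simp [fz0 h]
  have i1 := mul_invOfUnit _ 1 (o fun a => κ a * p)
  have i2 := mul_invOfUnit (∏ a : (ZMod f)ˣ, expand p hp.1.ne_zero (Fz f c m ζ (p * a)) ^ (κ a * p))
    1 (by simp [constantCoeff_expand, fz0 h])
  have d := (D ν).mul ((D _).inv i1 i2)
  rw [fb.prod fun b => expand p hp.1.ne_zero (Fz f c m ζ b), i2] at d
  have d' := d.congr (W' := z * ∑ a, (n a : R⟦X⟧) * Vz f p c m ζ a) (by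
    have e : ∀ a, ∃ t : ℤ, n a = (if IsUnit a then n a else 0) + p * t := fun a => by
      split_ifs with x
      · exact ⟨0, by simp⟩
      · simp only [zero_add]
        exact (ZMod.intCast_zmod_eq_zero_iff_dvd _ _).1 ((hn a).trans (ψ.map_nonunit x))
    choose t ht using e
    have e : ∑ a, (n a : R⟦X⟧) * Vz f p c m ζ a = ∑ a : (ZMod f)ˣ, (n a : R⟦X⟧) * Vz f p c m ζ a +
        p * ∑ a, (t a : R⟦X⟧) * Vz f p c m ζ a := by
      have := sum_units (k := ℤ) (fun a => ((if IsUnit a then n a else 0 : ℤ) : R⟦X⟧) *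
        Vz f p c m ζ a) fun a x => by simp [x]
      simp only [Units.isUnit, if_true] at this
      rw [this, mul_sum, ← sum_add_distrib]
      refine sum_congr rfl fun a _ => ?_
      conv_lhs => rw [ht a]
      push_cast
      ring
    rw [e, mul_add, add_sub_right_comm, mul_left_comm, mul_sum, ← sum_neg_distrib,
      ← sum_add_distrib, ← sum_sub_distrib]
    refine dvd_add (dvd_sum fun a _ => ?_) (dvd_mul_right _ _)
    obtain ⟨v, hv⟩ := (ZMod.intCast_eq_intCast_iff_dvd_sub (ν a) (z * n a) p).1 (by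
      push_cast
      rw [hν, hn])
    refine ⟨(v + κ a) * Vz f p c m ζ a, ?_⟩
    have hv' : (z : R⟦X⟧) * n a - ν a = p * v := by exact_mod_cast congrArg (Int.cast : ℤ → R⟦X⟧) hv
    push_cast
    linear_combination Vz f p c m ζ a * hv')
  have cf : ∀ k, (p : R) ∣ coeff k ((z : R⟦X⟧) * ∑ a, (n a : R⟦X⟧) * Vz f p c m ζ a) - π ^ j *
      (24 * m * (c - 1) * z * s *
        (∑ x ∈ k.divisorsAntidiagonal, cw p x.2 * n x.1 * n' x.2 : ℤ)) := fun k => by
    obtain ⟨a, ea⟩ := sum_mod hζ pr hc u hn hn' m k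
    obtain ⟨b, eb⟩ := hs
    rw [← map_intCast (C : R →+* R⟦X⟧) z, coeff_C_mul]
    exact ⟨z * a + 24 * m * (c - 1) * z * b *
      (∑ x ∈ k.divisorsAntidiagonal, cw p x.2 * n x.1 * n' x.2 : ℤ), by
      linear_combination z * ea + 24 * m * (c - 1) * z *
        (∑ x ∈ k.divisorsAntidiagonal, cw p x.2 * n x.1 * n' x.2 : ℤ) * eb⟩
  have r := fun k => (root hp.1 reg hj ha hb (by simp [o]) d' (fun k =>
    (dvd_sub_left (dvd_mul_right _ _)).1 (((pow_dvd_pow π j.le_succ).trans hb).trans (cf k))) k).add (hb.trans (cf k))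
  simp only [map_sub _ ((_ : R⟦X⟧) - 1), sub_add_sub_cancel] at r
  choose y hy using r
  refine ⟨mk fun k => π * y k + 24 * m * (c - 1) * z * s *
    (∑ x ∈ k.divisorsAntidiagonal, cw p x.2 * n x.1 * n' x.2 : ℤ), ?_, fun k => by
      rw [coeff_mk, add_sub_cancel_right]
      exact dvd_mul_right _ _⟩
  rw [← prod_pow]
  simp only [← pow_mul]
  have e : C (π ^ j) * (mk fun k => π * y k + 24 * m * (c - 1) * z * s *
      (∑ x ∈ k.divisorsAntidiagonal, cw p x.2 * n x.1 * n' x.2 : ℤ)) =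
      (∏ a : (ZMod f)ˣ, Fz f c m ζ a ^ ν a) *
        invOfUnit (∏ a : (ZMod f)ˣ, Fz f c m ζ a ^ (κ a * p)) 1 - 1 := by
    ext k
    rw [coeff_C_mul, coeff_mk]
    linear_combination -hy k
  rw [e, add_sub_cancel, mul_left_comm, i1, mul_one]

end Vale.Agent.P014Z.Su
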