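import Vale.Agent.P014Z.Su.Defs

/-! # P014Z, block SU: the distribution relations of the Siegel functions -/

set_option autoImplicit false
set_option linter.all false

open Complex Finset

noncomputable section

namespace Vale.Agent.P014Z.Su

open Vale.Agent.P014T.Sg

variable {τ : ℂ} {q : ℕ}

/-- **distribution in the second coordinate** -/
theorem dis1 (h : 0 < τ.im) (hq : 0 < q) (a b : ℂ) : ∏ k ∈ range q, g12 a (b + k / q) τ =
    ee (3 * a * (q - 1)) * g12 a (q * b) (q * τ) := by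
  have q0 : (q : ℂ) ≠ 0 := Nat.cast_ne_zero.2 hq.ne'
  have d := th_dist h hq (ee_prim hq (Nat.coprime_one_right q)) (a * τ + b)
  have s : ∀ n : ℕ, ∑ k ∈ range n, (τ + 6 * a * (a * τ + (b + k / q))) =
      n * τ + 6 * a * (n * (a * τ + b)) + 3 * a * (n * (n - 1) / q) := fun n => by
    induction n with
    | zero => simp
    | succ n i => rw [sum_range_succ, i]; push_cast; ring
  have e : ∀ k : ℕ, a * τ + (b + k / q) = a * τ + b + k * ((1 : ℕ) / q) := fun k => by
    push_cast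
    ring
  simp only [g12, prod_mul_distrib, prod_pow]
  rw [← ee_sum, s]
  simp only [e]
  rw [d, mul_pow, ← ee_nat 12, ← mul_assoc (ee _), ← mul_assoc (ee _), ← ee_add, ← ee_add,
    show a * (q * τ) + q * b = q * (a * τ + b) by ring]
  congr 1
  refine ee_congr (-3 * (q - 1)) ?_
  push_cast
  field_simp
  ring

/-- **distribution in the first coordinate** -/
theorem dis2 (h : 0 < τ.im) (hq : 0 < q) (a b : ℂ) : ∏ k ∈ range q, g12 (a + k / q) b τ =
    ee (-3 * b * (q - 1)) * g12 (q * a) b (τ / q) := by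
  have q0 : (q : ℂ) ≠ 0 := Nat.cast_ne_zero.2 hq.ne'
  have t0 : τ ≠ 0 := fun e => by simp [e] at h
  have h' := im_S h
  have h'' : 0 < ((q : ℂ) * (-1 / τ)).im := by
    rw [mul_im, natCast_im, zero_mul, add_zero, natCast_re]
    exact mul_pos (Nat.cast_pos.2 hq) h'
  have e : ∀ {t : ℂ}, 0 < t.im → ∀ x y, g12 x y (-1 / t) = g12 (-y) x t := fun h x y => by
    rw [g12_S h, ← g12_neg h, neg_neg]
  have := dis1 h' hq (-b) a
  simp only [← e h', ← e h''] at this
  rw [show -1 / (-1 / τ) = τ by field_simp, show -1 / (q * (-1 / τ)) = τ / q by field_simp] at this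
  rw [this]
  congr 2
  ring

/-- the shifts by the multiples of `F / q`; the root of unity is killed by `F` -/
theorem dis1_pow (h : 0 < τ.im) {F G : ℕ} (hF : 0 < F) (e : F = q * G) (X Y : ℤ) :
    (∏ k ∈ range q, g12 (X / F) ((Y + k * G : ℤ) / F) τ) ^ F =
      g12 (X / F) ((q * Y : ℤ) / F) (q * τ) ^ F := by
  have hq : 0 < q := Nat.pos_of_ne_zero fun z => by simp [z] at e; omega
  have F0 : (F : ℂ) ≠ 0 := Nat.cast_ne_zero.2 hF.ne'
  have q0 : (q : ℂ) ≠ 0 := Nat.cast_ne_zero.2 hq.ne'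
  have e' : (F : ℂ) = q * G := by exact_mod_cast e
  have k : ∀ k : ℕ, ((Y + k * G : ℤ) : ℂ) / F = Y / F + k / q := fun k => by
    push_cast
    field_simp
    rw [e']
    ring
  simp only [k]
  rw [dis1 h hq, mul_pow, ← ee_nat, ee_one.2 ⟨3 * X * (q - 1), by push_cast; field_simp⟩, one_mul,
    Int.cast_mul, Int.cast_natCast, mul_div_assoc]

theorem dis2_pow (h : 0 < τ.im) {F G : ℕ} (hF : 0 < F) (e : F = q * G) (X Y : ℤ) :
    (∏ k ∈ range q, g12 ((X + k * G : ℤ) / F) (Y / F) τ) ^ F =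
      g12 ((q * X : ℤ) / F) (Y / F) (τ / q) ^ F := by
  have hq : 0 < q := Nat.pos_of_ne_zero fun z => by simp [z] at e; omega
  have F0 : (F : ℂ) ≠ 0 := Nat.cast_ne_zero.2 hF.ne'
  have q0 : (q : ℂ) ≠ 0 := Nat.cast_ne_zero.2 hq.ne'
  have e' : (F : ℂ) = q * G := by exact_mod_cast e
  have k : ∀ k : ℕ, ((X + k * G : ℤ) : ℂ) / F = X / F + k / q := fun k => by
    push_cast
    field_simp
    rw [e']
    ring
  simp only [k]
  rw [dis2 h hq, mul_pow, ← ee_nat, ee_one.2 ⟨-3 * Y * (q - 1), by push_cast; field_simp⟩, one_mul,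
    Int.cast_mul, Int.cast_natCast, mul_div_assoc]

end Vale.Agent.P014Z.Su
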