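import Vale.Agent.P014T.Sg.Ex

/-! # P014Z, units: the congruence of Dwork for the formal products -/

set_option autoImplicit false
set_option linter.all false

open PowerSeries Finset

noncomputable section

namespace Vale.Agent.P014Z.Su.Dp

open Vale.Agent.P014T.Sg

section

variable {A B : Type} [CommRing A] [CommRing B] {p : ℕ} {F G W F' G' W' : A}

/-- `F ^ p = G (1 + p W)` modulo `p ^ 2` -/
def Dw (p : ℕ) (F G W : A) : Prop := ∃ r, F ^ p = G * (1 + p * W + p ^ 2 * r)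

theorem Dw.one : Dw p (1 : A) 1 0 := ⟨0, by simp⟩

theorem Dw.mul (h : Dw p F G W) (h' : Dw p F' G' W') : Dw p (F * F') (G * G') (W + W') := by
  obtain ⟨r, h⟩ := h
  obtain ⟨r', h'⟩ := h'
  exact ⟨r + r' + (W + p * r) * (W' + p * r'), by rw [mul_pow, h, h']; ring⟩

theorem Dw.pow (h : Dw p F G W) (n : ℕ) : Dw p (F ^ n) (G ^ n) (n * W) := by
  induction n with
  | zero => simpa using Dw.one
  | succ n ih => simpa only [pow_succ, Nat.cast_succ, add_one_mul] using ih.mul h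

theorem Dw.prod {ι : Type} (s : Finset ι) {F G W : ι → A} (h : ∀ i ∈ s, Dw p (F i) (G i) (W i)) :
    Dw p (∏ i ∈ s, F i) (∏ i ∈ s, G i) (∑ i ∈ s, W i) := by
  classical
  induction s using Finset.induction_on with
  | empty => simpa using Dw.one
  | insert i s n ih =>
    rw [prod_insert n, prod_insert n, sum_insert n]
    exact (h i (mem_insert_self _ _)).mul (ih fun j m => h j (mem_insert_of_mem m))

theorem Dw.map (φ : A →+* B) (h : Dw p F G W) : Dw p (φ F) (φ G) (φ W) := by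
  obtain ⟨r, h⟩ := h
  exact ⟨φ r, by simpa using congrArg φ h⟩

theorem Dw.inv (h : Dw p F G W) (a : F * F' = 1) (b : G * G' = 1) : Dw p F' G' (-W) := by
  obtain ⟨r, h⟩ := h
  have e : G * F' ^ p * (1 + p * W + p ^ 2 * r) = 1 := by
    rw [mul_right_comm, ← h, ← mul_pow, a, one_pow]
  exact ⟨G * F' ^ p * (W * (W + p * r) - r), by
    linear_combination (-F' ^ p) * b + G' * (1 - p * W) * e⟩

theorem Dw.congr (h : Dw p F G W) (e : (p : A) ∣ W' - W) : Dw p F G W' := by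
  obtain ⟨r, h⟩ := h
  obtain ⟨s, e⟩ := e
  exact ⟨r - s, by rw [h, eq_add_of_sub_eq e]; ring⟩

end

variable {R : Type} [CommRing R] {p : ℕ}

theorem Dw.lim {F G W : R⟦X⟧} (u : IsUnit G) (h : ∀ K, ∃ F' G' W', X ^ K ∣ F - F' ∧
    X ^ K ∣ G - G' ∧ X ^ K ∣ W - W' ∧ Dw p F' G' W') : Dw p F G W := by
  obtain ⟨H, u⟩ := u.exists_right_inv
  choose F' G' W' a b c r d using h
  refine ⟨mk fun k => coeff k (r (k + 1)), ?_⟩
  rw [← one_mul (F ^ p), ← congrArg (· * F ^ p) u, mul_assoc]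
  refine congrArg _ (PowerSeries.ext fun k => ?_)
  have e : X ^ (k + 1) ∣ H * F ^ p - (1 + (p : R⟦X⟧) * W + (p : R⟦X⟧) ^ 2 * r (k + 1)) := by
    simp only [← Ideal.mem_span_singleton, ← Ideal.Quotient.eq] at a b c ⊢
    rw [map_mul, map_pow, a, ← map_pow, d, map_mul, ← b, ← mul_assoc, ← map_mul, mul_comm H, u]
    simp only [map_add, map_mul, map_one, one_mul, c]
  have l := X_pow_dvd_iff.1 e k k.lt_succ_self
  have m : ∀ s : R⟦X⟧, coeff k ((p : R⟦X⟧) ^ 2 * s) = (p : R) ^ 2 * coeff k s := fun s => by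
    rw [← coeff_C_mul, map_pow, map_natCast]
  rw [map_sub, sub_eq_zero] at l
  rw [l, map_add, map_add _ (1 + _), m, m, coeff_mk]

/-- the coefficients of `((1 - t) ^ p / (1 - t ^ p) - 1) / p` -/
def cw (p m : ℕ) : ℤ := if p ∣ m then 0 else (-1) ^ (m % p) * (p.choose (m % p) / p : ℕ)

theorem cw_dvd {m : ℕ} (h : p ∣ m) : cw p m = 0 := if_pos h

theorem ch_pred (hp : p.Prime) {k : ℕ} (h : k < p) : (p : ℤ) ∣ (p - 1).choose k - (-1) ^ k := by
  induction k with
  | zero => simp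
  | succ k ih =>
    have a := hp.dvd_choose_self k.succ_ne_zero h
    rw [Nat.choose_eq_choose_pred_add hp.pos k.succ_pos, Nat.succ_sub_one, ← Int.natCast_dvd_natCast,
      Nat.cast_add] at a
    have b := a.sub (ih (by omega))
    rwa [show ∀ x y z : ℤ, x + y - (x - z ^ k) = y - -z ^ k from fun _ _ _ => by ring,
      ← neg_one_mul, ← pow_succ'] at b

/-- `cw p m = - 1 / m` modulo `p` -/
theorem cw_mul (hp : p.Prime) {m : ℕ} (h : ¬ p ∣ m) : (p : ℤ) ∣ m * cw p m + 1 := by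
  obtain ⟨k, hk⟩ := Nat.exists_eq_succ_of_ne_zero (mt Nat.dvd_of_mod_eq_zero h)
  have l : k + 1 < p := (Nat.mod_lt m hp.pos).trans_eq' hk
  obtain ⟨c, hc⟩ := hp.dvd_choose_self k.succ_ne_zero l
  have e : c * (k + 1) = (p - 1).choose k := Nat.eq_of_mul_eq_mul_left hp.pos (by
    have := Nat.add_one_mul_choose_eq (p - 1) k
    rw [Nat.sub_add_cancel hp.pos] at this
    rw [this, ← mul_assoc, ← hc])
  obtain ⟨s, hs⟩ := ch_pred hp (k := k) (by omega)
  have q : (m : ℤ) = p * (m / p : ℕ) + (k + 1) := by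
    exact_mod_cast (Nat.div_add_mod m p).symm.trans (by rw [hk])
  have e' : (c : ℤ) * (k + 1) = (p - 1).choose k := by exact_mod_cast e
  have o : ((-1 : ℤ) ^ k) ^ 2 = 1 := by rw [pow_right_comm, neg_one_sq, one_pow]
  rw [cw, if_neg h, hk, hc, Nat.mul_div_cancel_left _ hp.pos]
  exact ⟨(-1) ^ (k + 1) * ((m / p : ℕ) * c + s), by
    rw [Nat.succ_eq_add_one, pow_succ]
    linear_combination (-(-1) ^ k * c) * q - (-1) ^ k * e' - (-1) ^ k * hs - o⟩

theorem base (hp : p.Prime) (h2 : p ≠ 2) :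
    (1 - X : R⟦X⟧) ^ p = (1 - X ^ p) * (1 + (p : R⟦X⟧) * PowerSeries.mk fun m => (cw p m : R)) := by
  have e : (1 - X ^ p) * (PowerSeries.mk fun m => (cw p m : R)) =
      ∑ k ∈ Ioo 0 p, (-X : R⟦X⟧) ^ k * 1 ^ (p - k) * (p.choose k / p : ℕ) := by
    ext m
    have t : ∀ k : ℕ, (-X : R⟦X⟧) ^ k * 1 ^ (p - k) * ((p.choose k / p : ℕ) : R⟦X⟧) =
        C ((-1) ^ k * ((p.choose k / p : ℕ) : R)) * X ^ k := fun k => by
      rw [neg_pow]; simp only [map_mul, map_pow, map_neg, map_one, map_natCast]; ring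
    simp only [t, map_sum, coeff_C_mul, coeff_X_pow, sub_mul, one_mul, map_sub, coeff_mk,
      coeff_X_pow_mul', mul_ite, mul_one, mul_zero, sum_ite_eq, mem_Ioo]
    by_cases h : p ≤ m
    · obtain ⟨m, rfl⟩ := Nat.exists_eq_add_of_le h
      rw [if_pos h, if_neg (by omega), Nat.add_sub_cancel_left]
      simp [cw]
    · rw [if_neg h, sub_zero, cw, Nat.mod_eq_of_lt (by omega)]
      rcases m.eq_zero_or_pos with rfl | m0
      · simp
      · rw [if_neg (Nat.not_dvd_of_pos_of_lt m0 (by omega)), if_pos ⟨m0, by omega⟩]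
        rw [Int.cast_mul, Int.cast_pow, Int.cast_neg, Int.cast_one, Int.cast_natCast]
  rw [sub_eq_neg_add, add_pow_prime_eq' hp, ← e, (hp.odd_of_ne_two h2).neg_pow]
  ring

/-- one factor -/
def w1 (p : ℕ) (u : R) (d : ℕ) : R⟦X⟧ := mk fun k => if d ∣ k then cw p (k / d) * u ^ (k / d) else 0

theorem dw1 (hp : p.Prime) (h2 : p ≠ 2) (u : R) {d : ℕ} (hd : d ≠ 0) :
    Dw p (1 - C u * X ^ d) (1 - C (u ^ p) * X ^ (p * d)) (w1 p u d) := by
  have e := congrArg (fun s => expand d hd (rescale u s)) (base (R := R) hp h2)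
  have w : expand d hd (rescale u (mk fun m => (cw p m : R))) = w1 p u d := by
    ext k
    simp [coeff_expand, w1, coeff_rescale, mul_comm]
  simp only [map_pow, map_sub, map_mul, map_add, map_one, map_natCast, rescale_X, expand_X,
    expand_C, w] at e
  exact ⟨0, by rw [e, mul_pow, ← pow_mul, mul_comm d, map_pow, mul_zero, add_zero]⟩

/-- the depleted logarithm -/
def wf (p : ℕ) (u : R) (a N : ℕ) : R⟦X⟧ :=
  mk fun k => ∑ x ∈ k.divisorsAntidiagonal with x.1 % N = a % N, cw p x.2 * u ^ x.2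

theorem wf_dvd (u : R) {a N : ℕ} (a0 : 0 < a) (h : a ≤ N) (K : ℕ) :
    X ^ K ∣ wf p u a N - ∑ n ∈ range K, w1 p u (a + n * N) := X_pow_dvd_iff.2 fun k hk => by
  have N0 : 0 < N := by omega
  rw [map_sub, sub_eq_zero, wf, coeff_mk, map_sum]
  simp only [w1, coeff_mk]
  rcases k.eq_zero_or_pos with rfl | k0
  · simp [cw]
  have q : ∀ x : ℕ × ℕ, (x.1 * x.2 = k ∧ k ≠ 0) ∧ x.1 % N = a % N → a + (x.1 - a) / N * N = x.1 :=
    fun x m => by
      have x0 : 0 < x.1 := Nat.pos_of_mul_pos_right (m.1.1 ▸ k0)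
      have l : a ≤ x.1 := by
        by_contra! c
        rcases h.eq_or_lt with rfl | h
        · rw [Nat.mod_self, Nat.mod_eq_of_lt c] at m; omega
        · rw [Nat.mod_eq_of_lt h, Nat.mod_eq_of_lt (c.trans h)] at m; omega
      rw [Nat.div_mul_cancel ((Nat.modEq_iff_dvd' l).1 m.2.symm), Nat.add_sub_cancel' l]
  rw [← sum_filter, eq_comm]
  refine sum_nbij' (fun n => (a + n * N, k / (a + n * N))) (fun x => (x.1 - a) / N)
    (fun n m => ?_) (fun x m => ?_) (fun n _ => ?_) (fun x m => ?_) fun _ _ => rfl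
  · simp only [mem_filter, mem_range, Nat.mem_divisorsAntidiagonal] at m ⊢
    exact ⟨⟨Nat.mul_div_cancel' m.2, k0.ne'⟩, Nat.add_mul_mod_self_right _ _ _⟩
  all_goals
    simp only [coe_filter, mem_filter, mem_range, Nat.mem_divisorsAntidiagonal, Set.mem_setOf_eq] at *
  · exact ⟨by
      have := Nat.le_of_dvd k0 (Dvd.intro _ m.1.1)
      exact (Nat.div_le_self _ _).trans_lt (by omega), by rw [q x m]; exact Dvd.intro _ m.1.1⟩
  · rw [Nat.add_sub_cancel_left, Nat.mul_div_cancel _ N0]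
  · rw [q x m]
    exact Prod.ext rfl (by rw [← m.1.1]; exact Nat.mul_div_cancel_left _ (Nat.pos_of_mul_pos_right (m.1.1 ▸ k0)))

/-- **the formal product** -/
theorem dw_pf (hp : p.Prime) (h2 : p ≠ 2) (u : R) {a N : ℕ} (a0 : 0 < a) (h : a ≤ N) :
    Dw p (pf u a N) (pf (u ^ p) (p * a) (p * N)) (wf p u a N) := by
  have N0 : 0 < N := by omega
  refine Dw.lim (isUnit_iff_constantCoeff.2 (by
    rw [pf_zero, if_neg (Nat.mul_pos hp.pos a0).ne']; exact isUnit_one)) fun K =>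
    ⟨_, _, _, pf_dvd u a N0 K, pf_dvd _ _ (Nat.mul_pos hp.pos N0) K, wf_dvd u a0 h K, ?_⟩
  refine Dw.prod _ fun n _ => ?_
  rw [show p * a + n * (p * N) = p * (a + n * N) by ring]
  exact dw1 hp h2 u (by omega)

theorem ex_pf {n : ℕ} (hn : n ≠ 0) (u : R) (a : ℕ) {N : ℕ} (hN : 0 < N) :
    expand n hn (pf u a N) = pf u (n * a) (n * N) := by
  have e : ∀ K, expand n hn (pk u a N K) = pk u (n * a) (n * N) K := fun K => by
    simp only [pk, map_prod, map_sub, map_one, map_mul, map_pow, expand_C, expand_X, ← pow_mul,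
      mul_add, mul_left_comm n]
  ext k
  rw [coeff_pf u _ (Nat.mul_pos (Nat.pos_of_ne_zero hn) hN) k.lt_succ_self, ← e, coeff_expand,
    coeff_expand, coeff_pf u a hN (Nat.lt_succ_of_le (Nat.div_le_self k n))]

/-- the two products -/
theorem dw_pq (hp : p.Prime) (h2 : p ≠ 2) (u u' : R) {a N : ℕ} (a0 : 0 < a) (h : a < N) :
    Dw p (pq u u' a N) (expand p hp.ne_zero (pq (u ^ p) (u' ^ p) a N))
      (wf p u a N + wf p u' (N - a) N) := by
  rw [pq, pq, map_mul, ex_pf _ _ _ (by omega), ex_pf _ _ _ (by omega)]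
  exact (dw_pf hp h2 u a0 h.le).mul (dw_pf hp h2 u' (by omega) (by omega))

end Vale.Agent.P014Z.Su.Dp
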