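import Vale.Agent.P014T.Sg.Ex

/-! # P014Z, block SU: products of Siegel functions on `X₀(f ^ 2)` (words, transformation laws) -/

set_option autoImplicit false
set_option linter.all false

open Complex Matrix UpperHalfPlane PowerSeries
open scoped MatrixGroups Manifold

noncomputable section

namespace Vale.Agent.P014Z.Su

open Vale.Agent.P014T.Sg

/-- the twelfth power of the Siegel function at `a τ + b` -/
def g12 (a b τ : ℂ) : ℂ := ee (τ + 6 * a * (a * τ + b)) * th τ (a * τ + b) ^ 12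

/-- the smoothed function; it depends on `x`, `y` modulo `f` only -/
def Rc (f c : ℕ) (x y : ℤ) (τ : ℂ) : ℂ := g12 (x / f) (y / f) τ ^ c / g12 (x / f) (c * y / f) τ

section

variable (f : ℕ) [NeZero f]

/-- the second coordinate -/
def yy (a : ZMod f) (x : (ZMod f)ˣ) : ZMod f := a * (x⁻¹ : (ZMod f)ˣ)

/-- **the unit** `u_a` -/
def us (c m : ℕ) (a : ZMod f) (τ : ℍ) : ℂ :=
  ∏ x : (ZMod f)ˣ, Rc f c (x : ZMod f).val (yy f a x).val (f * τ) ^ m

/-- the sum of the squares -/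
def sq : ℕ := ∑ x : (ZMod f)ˣ, (x : ZMod f).val ^ 2

/-- the order at the cusp -/
def wz (c m : ℕ) : ℤ :=
  (c - 1) * (m * ∑ x : (ZMod f)ˣ, (f - 6 * (x : ZMod f).val : ℤ) + 6 * (m * sq f / f : ℕ))

variable {R : Type} [CommRing R]

/-- `∏ (1 - ζ ^ y X ^ d) (1 - ζ ^ (-y) X ^ d')`, `d ≡ x`, `d' ≡ - x`, `x y = a` -/
def Bz (ζ : R) (a : ZMod f) : R⟦X⟧ :=
  ∏ x : (ZMod f)ˣ, pq (ζ ^ (yy f a x).val) (ζ ^ (-yy f a x).val) (x : ZMod f).val f

/-- **the expansion** -/
def Fz (c m : ℕ) (ζ : R) (a : ZMod f) : R⟦X⟧ :=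
  (Bz f ζ a ^ c * invOfUnit (Bz f ζ (c * a)) 1) ^ (12 * m)

end

variable {a b τ : ℂ}

theorem g12_T (a b τ : ℂ) : g12 a b (τ + 1) = g12 a (a + b) τ := by
  rw [g12, g12, th_T, ee_congr 1 (y := τ + 6 * a * (a * τ + (a + b))) (by push_cast; ring)]
  congr 3
  ring

theorem g12_S (h : 0 < τ.im) (a b : ℂ) : g12 a b (-1 / τ) = g12 b (-a) τ := by
  have t0 : τ ≠ 0 := fun e => by simp [e] at h
  have p := pp_ne h
  have s : ee (-1 / τ) * (po (-1 / τ) (-1 / τ) ^ 2 / (τ * po τ τ ^ 2)) ^ 12 = ee τ := by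
    rw [div_pow, ← pow_mul, ← mul_div_assoc, pp_S h]
    field_simp
  have e : a * (-1 / τ) + b = (b * τ + -a) / τ := by field_simp; ring
  rw [g12, g12, e, th_S h, mul_pow, mul_pow, ee_add, ee_add, ← s, ← ee_nat 12]
  have : ee (6 * a * ((b * τ + -a) / τ)) * ee ((12 : ℕ) * ((b * τ + -a) ^ 2 / (2 * τ))) =
      ee (6 * b * (b * τ + -a)) := by
    rw [← ee_add]
    congr 1
    push_cast
    field_simp
    ring
  rw [← this]
  ring

theorem g12_neg (h : 0 < τ.im) (a b : ℂ) : g12 (-a) (-b) τ = g12 a b τ := by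
  rw [g12, g12, show -a * τ + -b = -(a * τ + b) by ring, th_neg h, Even.neg_pow (by decide)]
  congr 2
  ring

theorem g12_one (a b τ : ℂ) : g12 a (b + 1) τ = ee (6 * a) * g12 a b τ := by
  rw [g12, g12, ← add_assoc (a * τ), th_one, Even.neg_pow (by decide), ← mul_assoc, ← ee_add]
  congr 2
  ring

theorem g12_tau (h : 0 < τ.im) (a b : ℂ) : g12 (a + 1) b τ = ee (-6 * b) * g12 a b τ := by
  rw [g12, g12, show (a + 1) * τ + b = a * τ + b + τ by ring, th_tau h, mul_pow,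
    Even.neg_pow (by decide), ← ee_nat 12, ← mul_assoc, ← mul_assoc, ← ee_add, ← ee_add]
  congr 2
  push_cast
  ring

theorem g12_lat (h : 0 < τ.im) (a b : ℂ) (s t : ℤ) :
    g12 (a + s) (b + t) τ = ee (6 * (t * a - s * b)) * g12 a b τ := by
  have k : ∀ (F : ℂ → ℂ) (w : ℂ), (∀ x, F (x + 1) = ee w * F x) → ∀ (n : ℤ) x,
      F (x + n) = ee (n * w) * F x := fun F w k n x => by
    induction n with
    | zero => simp [ee_zero]
    | succ n i =>
      rw [Int.cast_add, Int.cast_one, ← add_assoc, k, i, ← mul_assoc, ← ee_add]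
      congr 2
      ring
    | pred n i =>
      have := k (x + (-n - 1 : ℤ))
      rw [show x + (-n - 1 : ℤ) + 1 = x + (-n : ℤ) by push_cast; ring, i] at this
      rw [← mul_right_inj' (ee_ne w), ← this, ← mul_assoc, ← ee_add]
      congr 2
      push_cast
      ring
  rw [k (fun x => g12 x _ τ) _ (fun x => g12_tau h x _), k (fun y => g12 a y τ) _
    (fun y => g12_one a y τ), ← mul_assoc, ← ee_add, ee_congr (-6 * s * t)]
  push_cast
  ring

/-- **the transformation law** -/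
theorem g12_law (γ : SL(2, ℤ)) : ∀ (a b : ℂ) (τ : ℍ), g12 a b (γ • τ : ℍ) =
    g12 (a * γ 0 0 + b * γ 1 0) (a * γ 0 1 + b * γ 1 1) τ := by
  have : γ ∈ Subgroup.closure {ModularGroup.S, ModularGroup.T} := by
    simp [SpecialLinearGroup.SL2Z_generators]
  refine Subgroup.closure_induction (fun x k a b τ => ?_) (fun a b τ => by simp)
    (fun x y _ _ p q a b τ => ?_) (fun x _ p a b τ => ?_) this
  · rcases k with rfl | rfl
    · have := g12_S τ.2 a b
      rw [modular_S_smul]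
      simpa [ModularGroup.S, neg_div, one_div] using this
    · rw [modular_T_smul]
      simpa [ModularGroup.T, add_comm] using g12_T a b τ
  · have e : ∀ i j, (x * y) i j = x i 0 * y 0 j + x i 1 * y 1 j := fun i j =>
      (mul_apply (M := x.1) (N := y.1)).trans (Fin.sum_univ_two _)
    rw [mul_smul, p, q, e, e, e, e]
    push_cast
    congr 1 <;> ring
  · have d : (x 0 0 : ℂ) * x 1 1 - x 0 1 * x 1 0 = 1 := by
      exact_mod_cast (det_fin_two _).symm.trans x.det_coe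
    have e : ∀ i j, x⁻¹ i j = !![x 1 1, -x 0 1; -x 1 0, x 0 0] i j := fun i j =>
      congrFun₂ (adjugate_fin_two x.1) i j
    conv_rhs => rw [← smul_inv_smul x τ, p, e, e, e, e]
    simp only [of_apply, cons_val', cons_val_zero, cons_val_one, cons_val_fin_one]
    push_cast
    congr 1
    · linear_combination -a * d
    · linear_combination -b * d

theorem g12_ne (h : 0 < τ.im) (k : ¬ ∃ m n : ℤ, m * τ + n = a * τ + b) : g12 a b τ ≠ 0 :=
  mul_ne_zero (ee_ne _) (pow_ne_zero _ (th_ne h k))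

theorem g12_diff {U : Set ℂ} (o : IsOpen U) {t : ℂ → ℂ} (ht : Differentiable ℂ t)
    (h : ∀ s ∈ U, 0 < (t s).im) (a b : ℂ) : DifferentiableOn ℂ (fun s => g12 a b (t s)) U :=
  (by fun_prop : Differentiable ℂ fun s => ee (t s + 6 * a * (a * t s + b))).differentiableOn.mul
    ((((by fun_prop : Differentiable ℂ fun s => ee (-(a * t s + b) / 2)).differentiableOn.mul
      (po_diff o ht.differentiableOn (by fun_prop) h)).mul
      (po_diff o ht.differentiableOn (by fun_prop) h)).pow 12)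

/-- the product form -/
theorem g12_eq (a b τ : ℂ) : g12 a b τ = ee (τ + 6 * (a - 1) * (a * τ + b)) *
    (po τ (a * τ + b) * po τ (τ - (a * τ + b))) ^ 12 := by
  rw [g12, th, mul_assoc (ee _), mul_pow, ← ee_nat 12, ← mul_assoc, ← ee_add]
  congr 2
  push_cast
  ring

variable {f c : ℕ} {x y : ℤ}

theorem nl (h : 0 < τ.im) (hf : f ≠ 0) (k : ¬ ((f : ℤ) ∣ x ∧ (f : ℤ) ∣ y)) :
    ¬ ∃ m n : ℤ, m * τ + n = x / f * τ + y / f := fun ⟨m, n, e⟩ => k (by
  have f0 : (f : ℂ) ≠ 0 := Nat.cast_ne_zero.2 hf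
  have e' : ((f * m - x : ℤ) : ℂ) * τ = (y - f * n : ℤ) := by
    push_cast
    field_simp at e
    linear_combination e
  have a := congrArg Complex.im e'
  simp only [mul_im, intCast_re, intCast_im, zero_mul, add_zero, mul_eq_zero, h.ne', or_false,
    Int.cast_eq_zero] at a
  rw [a, Int.cast_zero, zero_mul, eq_comm, Int.cast_eq_zero] at e'
  exact ⟨⟨m, by omega⟩, n, by omega⟩)

theorem Rc_lat (h : 0 < τ.im) (hf : f ≠ 0) (c : ℕ) (x y s t : ℤ) :
    Rc f c (x + f * s) (y + f * t) τ = Rc f c x y τ := by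
  have f0 : (f : ℂ) ≠ 0 := Nat.cast_ne_zero.2 hf
  have e : ∀ u v : ℤ, ((u + f * v : ℤ) : ℂ) / f = u / f + v := fun u v => by
    push_cast
    field_simp
  rw [Rc, Rc, e, e, mul_div_assoc (c : ℂ), e, mul_add (c : ℂ), ← mul_div_assoc,
    show (c : ℂ) * t = (c * t : ℤ) by push_cast; rfl, g12_lat h, g12_lat h, mul_pow, ← ee_nat,
    show (c : ℂ) * (6 * (t * (x / f) - s * (y / f))) =
      6 * ((c * t : ℤ) * (x / f) - s * (c * y / f)) by push_cast; ring,
    mul_div_mul_left _ _ (ee_ne _)]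

theorem Rc_congr (h : 0 < τ.im) (hf : f ≠ 0) (c : ℕ) {x y x' y' : ℤ} (a : (x : ZMod f) = x')
    (b : (y : ZMod f) = y') : Rc f c x y τ = Rc f c x' y' τ := by
  obtain ⟨s, a⟩ := (ZMod.intCast_eq_intCast_iff_dvd_sub _ _ _).1 a
  obtain ⟨t, b⟩ := (ZMod.intCast_eq_intCast_iff_dvd_sub _ _ _).1 b
  rw [← Rc_lat h hf c x y s t, ← a, ← b, add_sub_cancel, add_sub_cancel]

end Vale.Agent.P014Z.Su
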