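import Vale.Agent.P014Z.Su.Mod
import Vale.Agent.P004K.Gm.Jh

/-! # P014Z, block SU: conjugates of the values of the Siegel functions at CM points -/

set_option autoImplicit false
set_option linter.all false

open PowerSeries Finset UpperHalfPlane CongruenceSubgroup ModularForm
open scoped MatrixGroups

noncomputable section

namespace Vale.Agent.P014Z.Su

open Vale.Agent.P014T.Sg Vale.Agent.P022 H236 H236.L3 H218.L3 H231.L3 P027M.M P027H P004K

variable {F M : ℕ} {σ σ' : ℂ ≃+* ℂ} {τ τ' : ℍ} {k : ℤ}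

theorem g_exq {r n : ℕ} (l : r < F) (hn : 0 < n) (s y : ℤ) :
    Exq (F ^ 2 * n) (n * (F ^ 2 + 6 * (r - F) * r) + (12 : ℕ) * 0)
      (C (ze (F ^ 2) (6 * (r - F - s * F) * y)) *
        pq (ze (F ^ 2) (F * y)) (ze (F ^ 2) (-(F * y))) (r * F * n) (F ^ 2 * n) ^ 12)
      fun τ => g12 ((r + F * s : ℤ) / F) (y / F) τ := by
  have hF : 0 < F := by omega
  have f0 : (F : ℂ) ≠ 0 := Nat.cast_ne_zero.2 hF.ne'
  have n0 : (n : ℂ) ≠ 0 := Nat.cast_ne_zero.2 hn.ne'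
  have z : ∀ b : ℤ, ze (F ^ 2) b = ee (b / F ^ 2) := fun b => by
    rw [ze, ee, mul_div_assoc, Nat.cast_pow]
  have := (exq_mon (N := F ^ 2 * n) (n * (F ^ 2 + 6 * (r - F) * r))
    (ze (F ^ 2) (6 * (r - F - s * F) * y))).mul ((exq_pq (N := F ^ 2 * n) (a := r * F * n)
      (Nat.mul_lt_mul_of_pos_right (by nlinarith) hn) (y / F)).pow 12)
  rw [show ee (y / F : ℚ) = ze (F ^ 2) (F * y) by rw [z]; congr 1; push_cast; field_simp,
    show ee (-(y / F) : ℚ) = ze (F ^ 2) (-(F * y)) by rw [z]; congr 1; push_cast; field_simp] at this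
  refine this.congr (.of_forall fun τ => ?_)
  have e : ((r * F * n : ℕ) : ℂ) * τ / (F ^ 2 * n : ℕ) + (y / F : ℚ) = r / F * τ + y / F := by
    push_cast
    field_simp
  have := g12_lat τ.2 (r / F) (y / F) s 0
  rw [Int.cast_zero, add_zero] at this
  simp only [e]
  rw [show ((r + F * s : ℤ) : ℂ) / F = r / F + s by push_cast; field_simp, this, g12_eq,
    ← mul_assoc (ee _), z, ← ee_add, ← ee_add]
  congr 2
  push_cast
  field_simp
  ring

/-- **the conjugates on `Y(M)`** -/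
theorem g_gal (hF : 0 < F) (hM : 0 < M) (d : F ^ 2 ∣ M) (h : Cj σ M k τ τ') (y : Cy σ M k)
    (X Y : ℤ) : σ (g12 (X / F) (Y / F) τ) = g12 (X / F) (k * Y / F) τ' := by
  obtain ⟨n, rfl⟩ := d
  have hn := Nat.pos_of_mul_pos_left hM
  have F2 : 0 < F ^ 2 := by positivity
  have : NeZero (F ^ 2) := ⟨F2.ne'⟩
  obtain ⟨γ, hγ, R⟩ := h.rl hM y
  have f1 : (0 : ℤ) < F := Nat.cast_pos.2 hF
  obtain ⟨r, e⟩ := Int.eq_ofNat_of_zero_le (Int.emod_nonneg X f1.ne')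
  have l : r < F := by have := Int.emod_lt_of_pos X f1; omega
  obtain ⟨s, rfl⟩ : ∃ s : ℤ, X = r + F * s := ⟨_, e ▸ (Int.emod_add_mul_ediv X F).symm⟩
  have m : ∀ Y : ℤ, inc _ (g_mm hF (r + F * s) Y).1 ∈ MF (Gt (F ^ 2 * n * 4)) := fun Y =>
    mem_MF_of_fixed _ (g_mm hF _ Y).2 (mul_assoc (F ^ 2) n 4 ▸
      gt_fix fun γ k => act_eq_self (g_mm hF _ Y).2 k)
  have a : IsAut (F ^ 2 * n * 4) σ (inc _ (g_mm hF (r + F * s) Y).1)
      (inc _ (g_mm hF (r + F * s) (k * Y)).1) := by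
    rw [mul_assoc]
    refine ⟨_, (g_exq l (by positivity) s Y).exL.exM_inc _, ?_⟩
    have := (g_exq (n := n * 4) l (by positivity) s (k * Y)).exL.exM_inc (g_mm hF _ _).1
    have z := (y.down F2 hn).zpow
    rw [cm_ls, map_mul, map_pow, pq_map, map_C]
    simp only [RingHom.coe_coe, z]
    convert this using 5 <;> ring_nf
  have := P004R.Qf.val_uniq (val_of (by positivity) a (R _ (m _) _ (m _) a) (P004R.Qf.val_inc _ _))
    (P004R.Qf.val_inc _ _)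
  rw [g_Gamma hF _ _ (gamma_le hγ)] at this
  exact_mod_cast this

theorem cj1 (h : σ (jf τ) = jf τ') : ∃ ψ, Tp σ (lat τ) (lat τ') ψ := by
  obtain ⟨Λ, ψ, t⟩ := ex_tp (isLat τ) σ
  obtain ⟨μ, k⟩ := (jh Λ _ t.lat' (isLat τ')).1 (by rw [t.jL, jL_lat, jL_lat, h])
  exact ⟨_, t.homR k⟩

theorem prim {A B D : ℤ} (a : A ≠ 0) (e : A * (τ : ℂ) ^ 2 + B * τ + D = 0) :
    ∃ A B D u v w : ℤ, u * A + v * B + w * D = 1 ∧ A * (τ : ℂ) ^ 2 + B * τ + D = 0 := by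
  let g : ℤ := Int.gcd (Int.gcd A B) D
  have g0 : g ≠ 0 := by simp [g, a]
  obtain ⟨A', hA⟩ : g ∣ A := (Int.gcd_dvd_left _ _).trans (Int.gcd_dvd_left _ _)
  obtain ⟨B', hB⟩ : g ∣ B := (Int.gcd_dvd_left _ _).trans (Int.gcd_dvd_right _ _)
  obtain ⟨D', hD⟩ : g ∣ D := Int.gcd_dvd_right _ _
  have e1 : g = _ := Int.gcd_eq_gcd_ab (Int.gcd A B) D
  have e2 := Int.gcd_eq_gcd_ab A B
  generalize Int.gcdA (Int.gcd A B) D = s, Int.gcdB (Int.gcd A B) D = t, Int.gcdA A B = u,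
    Int.gcdB A B = v at e1 e2
  generalize (Int.gcd A B : ℤ) = h at e1 e2
  clear_value g
  refine ⟨A', B', D', u * s, v * s, t, mul_left_cancel₀ g0 ?_,
    mul_left_cancel₀ (Int.cast_ne_zero.2 g0 : (g : ℂ) ≠ 0) ?_⟩
  · linear_combination -e1 - s * e2 - u * s * hA - v * s * hB - t * hD
  · rw [hA, hB, hD] at e
    push_cast at e
    linear_combination e

/-- on torsion points the transport is a complex multiplication -/
theorem ex_lam {A B D : ℤ} (a : A ≠ 0) (e : A * (τ : ℂ) ^ 2 + B * τ + D = 0) (hM : 0 < M)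
    (f : σ τ = τ) {ψ : ℂ → ℂ} (t : Tp σ (lat τ) (lat τ) ψ) : ∃ c : ℂ, (∀ σ' : ℂ ≃+* ℂ, σ' τ = τ →
      σ' c = c) ∧ (∀ z ∈ lat τ, c * z ∈ lat τ) ∧
      ∀ z : ℂ, M * z ∈ lat τ → ψ z - c * z ∈ lat τ := by
  obtain ⟨A, B, D, u, v, w, g, e⟩ := prim a e
  have M0 : (M : ℂ) ≠ 0 := Nat.cast_ne_zero.2 hM.ne'
  have θ : ∀ z ∈ lat τ, (A : ℂ) * τ * z ∈ lat τ := fun z hz => by
    obtain ⟨m, n, rfl⟩ := mem_lat.1 hz
    exact mem_of_eq (lin_lat τ (A * n - B * m) (-D * m)) (by push_cast; linear_combination m * e)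
  have p : ∀ z : ℂ, M * z ∈ lat τ → ∃ a b : ℤ, ψ z - (a * τ + b) / M ∈ lat τ := fun z hz => by
    have := t.int M z
    rw [Int.cast_natCast] at this
    obtain ⟨a, b, k⟩ := mem_lat.1 (sub_sub_cancel (ψ _) _ ▸ sub_mem ((t.mem _).2 hz) this)
    exact ⟨a, b, mem_of_eq (zero_mem _) (by rw [k]; push_cast; field_simp; ring)⟩
  obtain ⟨a, b, h1⟩ := p (τ / M) (mem_of_eq (tau_lat τ) (by field_simp))
  obtain ⟨c, d, h2⟩ := p (1 / M) (mem_of_eq (one_lat τ) (by field_simp))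
  have q := (t.cm θ).2
  rw [map_mul, map_intCast, f] at q
  have k1 := t.lin A 0 (τ / M) (1 / M)
  have k2 := t.lin (-B) (-D) (τ / M) (1 / M)
  rw [show (A : ℂ) * (τ / M) + (0 : ℤ) * (1 / M) = A * τ * (1 / M) by push_cast; ring] at k1
  rw [show ((-B : ℤ) : ℂ) * (τ / M) + (-D : ℤ) * (1 / M) = A * τ * (τ / M) by
    push_cast; linear_combination -e / M] at k2
  obtain ⟨d1, d2⟩ := (div_lat (τ := τ) (a := A * (a - d) + B * c) (b := A * b + D * c) hM).1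
    (mem_of_eq (add_mem (sub_mem (sub_mem (q (1 / M)) k1) (int_mul_mem A h1)) (θ _ h2))
      (by push_cast; linear_combination c / M * e))
  obtain ⟨-, d3⟩ := (div_lat (τ := τ) (a := A * b + D * c) (b := B * b + D * (d - a)) hM).1
    (mem_of_eq (sub_mem (sub_mem (sub_mem k2 (q (τ / M))) (θ _ h1))
      (add_mem (int_mul_mem B h1) (int_mul_mem D h2))) (by push_cast; linear_combination -a / M * e))
  obtain ⟨s, hs⟩ : ∃ s, s = u * c + v * (d - a) - w * b := ⟨_, rfl⟩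
  have j1 : ψ (τ / M) - (d + s * (A * τ)) * (τ / M) ∈ lat τ := mem_of_eq (add_mem h1
    ((div_lat (a := a - d + s * B) (b := b + s * D) hM).2
      ⟨((d1.mul_left u).sub (d3.mul_left w)).trans (Eq.dvd (by
        linear_combination (a - d) * g - B * hs)), ((d2.mul_left u).add (d3.mul_left v)).trans
        (Eq.dvd (by linear_combination b * g - D * hs))⟩))
    (by push_cast; linear_combination -s / M * e)
  have j2 : ψ (1 / M) - (d + s * (A * τ)) * (1 / M) ∈ lat τ := mem_of_eq (add_mem h2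
    ((div_lat (a := c - s * A) (b := 0) hM).2
      ⟨((d1.mul_left v).add (d2.mul_left w)).trans (Eq.dvd (by
        linear_combination c * g + A * hs)), dvd_zero _⟩)) (by push_cast; ring)
  refine ⟨d + s * (A * τ), fun σ' k => by simp [k], fun z hz => mem_of_eq
    (add_mem (int_mul_mem d hz) (int_mul_mem s (θ z hz))) (by ring), fun z hz => ?_⟩
  obtain ⟨m, n, k⟩ := mem_lat.1 hz
  obtain rfl : z = m * (τ / M) + n * (1 / M) := by field_simp; linear_combination -k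
  exact mem_of_eq (add_mem (add_mem (t.lin m n _ _) (int_mul_mem m j1)) (int_mul_mem n j2)) (by ring)

/-- **the values are abelian over the ring class field** -/
theorem g_ab (hF : 0 < F) {A B D : ℤ} (a : A ≠ 0) (e : A * (τ : ℂ) ^ 2 + B * τ + D = 0)
    (f : σ τ = τ) (f' : σ' τ = τ) (j : σ (jf τ) = jf τ) (j' : σ' (jf τ) = jf τ) (X Y : ℤ) :
    σ (σ' (g12 (X / F) (Y / F) τ)) = σ' (σ (g12 (X / F) (Y / F) τ)) := by
  have hM : 0 < F ^ 2 := by positivity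
  have M0 : ((F ^ 2 : ℕ) : ℂ) ≠ 0 := Nat.cast_ne_zero.2 hM.ne'
  obtain ⟨ψ, t⟩ := cj1 j
  obtain ⟨ψ', t'⟩ := cj1 j'
  obtain ⟨c, c1, c2, c3⟩ := ex_lam a e hM f t
  obtain ⟨c', c1', c2', c3'⟩ := ex_lam a e hM f' t'
  obtain ⟨χ, s, u, -⟩ := (t.trans t').symm
  have p : ∀ {σ : ℂ ≃+* ℂ} {ψ ψ' : ℂ → ℂ} {c c' : ℂ}, Tp σ (lat τ) (lat τ) ψ → σ c' = c' →
      (∀ z ∈ lat τ, c' * z ∈ lat τ) → ∀ z, ψ z - c * z ∈ lat τ → ψ' z - c' * z ∈ lat τ →
      ψ (ψ' z) - c' * c * z ∈ lat τ := fun t a b z h h' => by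
    have := (t.cm b).2 z
    rw [a] at this
    exact mem_of_eq (add_mem (add_mem ((t.sub_iff _ _).2 h') this) (b _ h)) (by ring)
  have q : ∀ z : ℂ, (F ^ 2 : ℕ) * z ∈ lat τ → χ (ψ (ψ' z)) - z ∈ lat τ := fun z h => mem_of_eq
    (add_mem ((s.sub_iff _ _).2 (mem_of_eq (sub_mem (p t (c1' _ f) c2' z (c3 z h) (c3' z h))
      (p t' (c1 _ f') c2 z (c3' z h) (c3 z h))) (by ring : ψ (ψ' z) - ψ' (ψ z) = _))) (u z)) (by ring)
  obtain ⟨k, y⟩ := ex_cy σ hM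
  obtain ⟨k', y'⟩ := ex_cy σ' hM
  have := g_gal (σ := (σ' * σ)⁻¹ * (σ * σ')) (k := 1) hF hM dvd_rfl ⟨_, (t'.trans t).trans s,
    q _ (mem_of_eq (tau_lat τ) (by field_simp)), by
      rw [Int.cast_one]
      exact q _ (mem_of_eq (one_lat τ) (by field_simp))⟩ (by
    rw [Cy, RingAut.mul_apply, ← (σ' * σ).injective.eq_iff, ← RingAut.mul_apply, mul_inv_cancel,
      RingAut.one_apply, RingAut.mul_apply, RingAut.mul_apply, y, y', y.zpow, y'.zpow, mul_comm]) X Y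
  rw [RingAut.mul_apply, ← (σ' * σ).injective.eq_iff, ← RingAut.mul_apply, mul_inv_cancel] at this
  simpa using this

end Vale.Agent.P014Z.Su
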