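import Vale.Agent.P014Z.Su.Defs
import Vale.Agent.P014Z.Su.Dep0

/-! # P014Z, units: the depleted logarithm of the expansions -/

set_option autoImplicit false
set_option linter.all false

open PowerSeries Finset AddChar

noncomputable section

namespace Vale.Agent.P014Z.Su

open Vale.Agent.P014T.Sg Dp

variable {R : Type} [CommRing R] (f : ℕ) [NeZero f] {p : ℕ} {ζ : R}

/-- the depleted logarithm of `Bz` -/
def Wz (p : ℕ) (ζ : R) (a : ZMod f) : R⟦X⟧ := ∑ x : (ZMod f)ˣ,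
  (wf p (ζ ^ (yy f a x).val) (x : ZMod f).val f + wf p (ζ ^ (-yy f a x).val) (f - (x : ZMod f).val) f)

/-- the depleted logarithm of `Fz` -/
def Vz (p c m : ℕ) (ζ : R) (a : ZMod f) : R⟦X⟧ :=
  (12 * m : ℕ) * (c * Wz f p ζ a - Wz f p ζ (c * a))

variable {f}

namespace Dp

theorem v_pos (h : 1 < f) (x : (ZMod f)ˣ) : 0 < (x : ZMod f).val :=
  haveI : Fact (1 < f) := ⟨h⟩
  ZMod.val_pos.2 x.ne_zero

theorem z_pow (hζ : ζ ^ f = 1) (y : ZMod f) (n : ℕ) : (ζ ^ y.val) ^ n = ζ ^ (n * y).val := by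
  rw [← zmodChar_apply hζ, ← zmodChar_apply hζ, ← map_nsmul_eq_pow, nsmul_eq_mul]

theorem bz0 (h : 1 < f) (ζ : R) (a : ZMod f) : constantCoeff (Bz f ζ a) = 1 := by
  rw [Bz, map_prod]
  refine prod_eq_one fun x _ => ?_
  have := v_pos h x
  have := (x : ZMod f).val_lt
  rw [pq, map_mul, pf_zero, pf_zero, if_neg (by omega), if_neg (by omega), mul_one]

theorem bz_inv (h : 1 < f) (ζ : R) (a : ZMod f) : Bz f ζ a * invOfUnit (Bz f ζ a) 1 = 1 :=
  mul_invOfUnit _ _ (bz0 h ζ a)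

theorem fz0 (h : 1 < f) (c m : ℕ) (ζ : R) (a : ZMod f) : constantCoeff (Fz f c m ζ a) = 1 := by
  simp [Fz, bz0 h]

end Dp

/-- **the congruence for `Bz`**, for every odd prime -/
theorem dw_Bz (h : 1 < f) (hζ : ζ ^ f = 1) (hp : p.Prime) (h2 : p ≠ 2) (a : ZMod f) :
    Dw p (Bz f ζ a) (expand p hp.ne_zero (Bz f ζ (p * a))) (Wz f p ζ a) := by
  rw [Bz, Bz, map_prod]
  refine Dw.prod _ fun x _ => ?_
  have e : yy f (p * a) x = p * yy f a x := mul_assoc _ _ _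
  rw [e, ← mul_neg, ← z_pow hζ, ← z_pow hζ]
  exact dw_pq hp h2 _ _ (v_pos h x) (ZMod.val_lt _)

/-- **the congruence for `Fz`** -/
theorem dw_Fz (h : 1 < f) (hζ : ζ ^ f = 1) (hp : p.Prime) (h2 : p ≠ 2) (c m : ℕ) (a : ZMod f) :
    Dw p (Fz f c m ζ a) (expand p hp.ne_zero (Fz f c m ζ (p * a))) (Vz f p c m ζ a) := by
  rw [Fz, Fz, map_pow, map_mul, map_pow, Vz, sub_eq_add_neg, mul_left_comm]
  exact (((dw_Bz h hζ hp h2 a).pow c).mul ((dw_Bz h hζ hp h2 (c * a)).inv (bz_inv h _ _) (by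
    rw [← map_mul, bz_inv h, map_one]))).pow _

open Classical in
/-- the coefficients -/
theorem coeff_Wz (hζ : ζ ^ f = 1) (a : ZMod f) (n : ℕ) : coeff n (Wz f p ζ a) =
    2 * ∑ x ∈ n.divisorsAntidiagonal with IsUnit (x.1 : ZMod f),
      cw p x.2 * ζ ^ (a * (x.1 : ZMod f)⁻¹ * x.2).val := by
  have k : ∀ (s : (ZMod f)ˣ) (v : (ZMod f)ˣ → ℕ), (∀ x, (v x : ZMod f) = s⁻¹ * x) →
      ∑ x : (ZMod f)ˣ, coeff n (wf p (ζ ^ (s * yy f a x).val) (v x) f) =
      ∑ x ∈ n.divisorsAntidiagonal with IsUnit (x.1 : ZMod f),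
        cw p x.2 * ζ ^ (a * (x.1 : ZMod f)⁻¹ * x.2).val := fun s v hv => by
    simp only [wf, coeff_mk, sum_filter]
    rw [sum_comm]
    refine sum_congr rfl fun x _ => ?_
    simp only [← ZMod.natCast_eq_natCast_iff', hv]
    split_ifs with u
    · obtain ⟨u, e⟩ := u
      rw [sum_eq_single (s * u) (fun y _ n => if_neg fun l => n ?_) (by simp), if_pos (by simp [e]),
        z_pow hζ, ← e, ZMod.inv_coe_unit, yy, mul_inv_rev]
      · congr 3
        simp only [Units.val_mul]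
        linear_combination (x.2 * a * (u⁻¹ : (ZMod f)ˣ) : ZMod f) * s.mul_inv
      · exact Units.ext (by rw [Units.val_mul, e, l, Units.mul_inv_cancel_left])
    · exact sum_eq_zero fun y _ => if_neg fun l => u ⟨s⁻¹ * y, l.symm⟩
  rw [Wz, map_sum, two_mul]
  simp only [map_add, sum_add_distrib]
  congr 1
  · simpa using k 1 (fun x => (x : ZMod f).val) (by simp)
  · simpa using k (-1) (fun x => f - (x : ZMod f).val) fun x => by
      simp [Nat.cast_sub (ZMod.val_lt _).le]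

/-- **the character sum** -/
theorem sum_Wz (hζ : ζ ^ f = 1) (ψ : DirichletCharacter R f) (n : ℕ) :
    ∑ a, ψ a * coeff n (Wz f p ζ a) = 2 * ∑ x ∈ n.divisorsAntidiagonal,
      cw p x.2 * ψ x.1 * gaussSum ψ ((zmodChar f hζ).mulShift x.2) := by
  simp only [coeff_Wz hζ, mul_left_comm _ (2 : R), ← mul_sum, sum_filter]
  simp only [mul_sum]
  rw [sum_comm]
  refine sum_congr rfl fun x _ => ?_
  split_ifs with u
  · obtain ⟨u, e⟩ := u
    rw [gaussSum, mul_sum, mul_sum, ← Equiv.sum_comp u.mulLeft, ← e]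
    refine sum_congr rfl fun y _ => ?_
    rw [Units.mulLeft_apply, map_mul, mulShift_apply, zmodChar_apply, ZMod.inv_coe_unit,
      mul_right_comm (u : ZMod f), Units.mul_inv, one_mul, mul_comm y]
    ring
  · simp [ψ.map_nonunit u]

theorem sum_sh (ψ : DirichletCharacter R f) {c : ZMod f} (hc : ψ c = 1) (u : IsUnit c)
    (g : ZMod f → R) : ∑ a, ψ a * g (c * a) = ∑ a, ψ a * g a := by
  rw [← Equiv.sum_comp u.unit.mulLeft fun a => ψ a * g a]
  simp [hc]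

/-- **the character sum for `Fz`** -/
theorem sum_Vz (hζ : ζ ^ f = 1) (ψ : DirichletCharacter R f) {c : ℕ} (hc : ψ c = 1)
    (u : c.Coprime f) (m n : ℕ) : ∑ a, ψ a * coeff n (Vz f p c m ζ a) =
      24 * m * (c - 1) * ∑ x ∈ n.divisorsAntidiagonal,
        cw p x.2 * ψ x.1 * gaussSum ψ ((zmodChar f hζ).mulShift x.2) := by
  have e : ∀ (k : ℕ) (s : R⟦X⟧), coeff n ((k : R⟦X⟧) * s) = k * coeff n s := fun k s => by
    rw [← coeff_C_mul, map_natCast]
  simp only [Vz, e, map_sub, mul_left_comm (ψ _), mul_sub, sum_sub_distrib, ← mul_sum]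
  rw [sum_sh ψ hc ((ZMod.isUnit_iff_coprime c f).2 u) fun a => coeff n (Wz f p ζ a), sum_Wz hζ]
  push_cast
  ring

/-- primitive characters -/
theorem sum_Vz' [IsDomain R] (hζ : ζ ^ f = 1) {ψ : DirichletCharacter R f} (pr : ψ.IsPrimitive)
    {c : ℕ} (hc : ψ c = 1) (u : c.Coprime f) (m n : ℕ) : ∑ a, ψ a * coeff n (Vz f p c m ζ a) =
      24 * m * (c - 1) * gaussSum ψ (zmodChar f hζ) *
        ∑ x ∈ n.divisorsAntidiagonal, cw p x.2 * ψ x.1 * ψ⁻¹ x.2 := by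
  simp only [sum_Vz hζ ψ hc u, gaussSum_mulShift_of_isPrimitive _ pr, mul_sum]
  exact sum_congr rfl fun _ _ => by ring

end Vale.Agent.P014Z.Su
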