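import Vale.Agent.P014Z.Su.Dpm

/-! # P014Z, units: the Gauss sum is the power of `ξ - 1` up to a unit -/

set_option autoImplicit false
set_option linter.all false

open Finset Polynomial

noncomputable section

namespace Vale.Agent.P014Z.Su.Dr

variable {A B : Type} [CommRing A] [CommRing B] {p : ℕ}

theorem pi_as [IsDomain A] (hp : p.Prime) {ξ : A} (h : IsPrimitiveRoot ξ p) :
    Associated ((ξ - 1) ^ (p - 1)) (p : A) := by
  obtain ⟨n, rfl⟩ := Nat.exists_eq_succ_of_ne_zero hp.ne_zero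
  have e := h.prod_one_sub_pow_eq_order
  rw [Nat.cast_succ, ← e, Nat.succ_sub_one, ← card_range n, ← prod_const, card_range]
  refine Associated.prod _ _ _ fun k m => ?_
  rw [← neg_sub (ξ ^ _)]
  exact (h.associated_sub_one_pow_sub_one_of_coprime (Nat.coprime_of_lt_prime k.succ_ne_zero
    (Nat.succ_lt_succ (mem_range.1 m)) hp).symm).neg_right

theorem pi_dvd [IsDomain A] (hp : p.Prime) {ξ : A} (h : IsPrimitiveRoot ξ p) {j : ℕ}
    (hj : j < p - 1) : (p : A) ∣ (ξ - 1) ^ (p - 1) ∧ (ξ - 1) ^ (j + 1) ∣ p :=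
  ⟨(pi_as hp h).symm.dvd, (pow_dvd_pow _ hj).trans (pi_as hp h).dvd⟩

variable [hp : Fact p.Prime] {j : ℕ}

theorem pol (hj : j < p - 1) (Q : (ZMod p)[X]) (hQ : Q.natDegree ≤ j) :
    ∑ x : ZMod p, x ^ (p - 1 - j) * Q.eval x = -Q.coeff j := by
  simp only [eval_eq_sum_range' (Nat.lt_succ_of_le hQ), mul_sum]
  rw [sum_comm, sum_range_succ, sum_eq_zero fun i m => ?_, zero_add]
  · simp only [mul_left_comm _ (Q.coeff j), ← pow_add, ← mul_sum, show p - 1 - j + j = p - 1 by omega]
    rw [← sum_erase_add _ _ (mem_univ 0), zero_pow (by omega), add_zero, sum_congr rfl fun x m =>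
      ZMod.pow_card_sub_one_eq_one (ne_of_mem_erase m), sum_const, card_erase_of_mem (mem_univ _),
      card_univ, ZMod.card, nsmul_one, Nat.cast_pred hp.1.pos, ZMod.natCast_self]
    ring
  · have := mem_range.1 m
    simp only [mul_left_comm _ (Q.coeff i), ← pow_add, ← mul_sum]
    rw [FiniteField.sum_pow_lt_card_sub_one _ _ (by rw [ZMod.card]; omega), mul_zero]

theorem cho (hj : j < p - 1) {k : ℕ} (hk : k ≤ j) : (k.factorial : ZMod p) *
    ∑ x : ZMod p, x ^ (p - 1 - j) * x.val.choose k = if k = j then -1 else 0 := by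
  have := pol hj (descPochhammer (ZMod p) k) (by rwa [descPochhammer_natDegree])
  rw [mul_sum, sum_congr rfl fun x _ => (?_ : _ = x ^ (p - 1 - j) *
    (descPochhammer (ZMod p) k).eval x), this]
  · split_ifs with c
    · have := (monic_descPochhammer (ZMod p) k).coeff_natDegree
      rw [descPochhammer_natDegree] at this
      rw [← c, this]
    · rw [coeff_eq_zero_of_natDegree_lt (by rw [descPochhammer_natDegree]; omega), neg_zero]
  · conv_rhs => rw [← ZMod.natCast_zmod_val x, descPochhammer_eval_eq_descFactorial,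
      Nat.descFactorial_eq_factorial_mul_choose, ZMod.natCast_zmod_val]
    push_cast
    ring

/-- the sum of prime level -/
theorem one (hj : j < p - 1) (χ : ZMod p →+* B) (η : B) : ∃ (t : B) (r : B), IsUnit t ∧
    ∑ x : ZMod p, χ (x ^ (p - 1 - j)) * η ^ x.val = (η - 1) ^ j * (t + (η - 1) * r) := by
  have f0 : ∀ k ≤ j, (k.factorial : ZMod p) ≠ 0 := fun k m z =>
    hp.1.one_lt.ne' (Nat.Coprime.eq_one_of_dvd (hp.1.coprime_factorial_of_lt (by omega))
      ((ZMod.natCast_eq_zero_iff _ _).1 z))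
  let c : ℕ → ZMod p := fun k => ∑ x : ZMod p, x ^ (p - 1 - j) * x.val.choose k
  have e : ∑ x : ZMod p, χ (x ^ (p - 1 - j)) * η ^ x.val = ∑ k ∈ range p, (η - 1) ^ k * χ (c k) := by
    simp only [c, map_sum, mul_sum]
    rw [sum_comm]
    refine sum_congr rfl fun x _ => ?_
    conv_lhs => rw [← sub_add_cancel η 1, add_pow]
    rw [sum_subset (range_subset_range.2 (Nat.succ_le_of_lt x.val_lt)) fun k _ m => by
      simp [Nat.choose_eq_zero_of_lt (by simpa using m : x.val < k)], mul_sum]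
    exact sum_congr rfl fun k _ => by rw [map_mul, map_natCast]; ring
  have d : (η - 1) ^ (j + 1) ∣ ∑ k ∈ (range p).erase j, (η - 1) ^ k * χ (c k) :=
    dvd_sum fun k m => by
      rcases lt_or_gt_of_ne (ne_of_mem_erase m) with l | l
      · have := cho hj l.le
        rw [if_neg l.ne, mul_eq_zero] at this
        rw [show c k = 0 from this.resolve_left (f0 k l.le), map_zero, mul_zero]
        exact dvd_zero _
      · exact (pow_dvd_pow _ l).mul_right _
  obtain ⟨r, hr⟩ := d
  refine ⟨χ (c j), r, (Ne.isUnit fun z => ?_).map χ, ?_⟩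
  · have := cho hj le_rfl
    rw [if_pos rfl, show ∑ x : ZMod p, x ^ (p - 1 - j) * x.val.choose j = 0 from z] at this
    simp at this
  · rw [e, ← sum_erase_add _ _ (mem_range.2 (by omega : j < p)), hr]
    ring

/-- the product of the two Gauss sums -/
theorem two {k : Type} [Field k] (χ : k →+* B) {f : ℕ} [NeZero f] {ψ : DirichletCharacter k f}
    (pr : ψ.IsPrimitive) (e : AddChar (ZMod f) B) (he : ∀ b ≠ 0, ∑ a, e (a * b) = 0) :
    gaussSum (ψ.ringHomComp χ) e * ∑ a, χ (ψ⁻¹ a) * e (-a) = f := by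
  classical
  have : gaussSum (ψ.ringHomComp χ) e * ∑ a, χ (ψ⁻¹ a) * e (-a) =
      ∑ b, χ (ψ b) * ∑ a, e (a * (b - 1)) := by
    simp only [mul_sum]
    rw [sum_comm]
    refine sum_congr rfl fun a _ => ?_
    rw [← mul_assoc, mul_comm _ (χ (ψ⁻¹ a)), ← Dp.gs_shift χ pr, gaussSum, sum_mul]
    refine sum_congr rfl fun b _ => ?_
    rw [AddChar.mulShift_apply, mul_assoc, ← e.map_add_eq_mul, mul_sub, mul_one, sub_eq_add_neg,
      MulChar.ringHomComp_apply]
  rw [this, sum_eq_single 1 (fun b _ n => by rw [he _ (sub_ne_zero.2 n), mul_zero]) (by simp)]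
  simp

/-- the component prime to `p` -/
def cp {f : ℕ} (hf : p.Coprime f) {k : Type} [Field k] (ψ : DirichletCharacter k (p * f)) :
    DirichletCharacter k f where
  toFun y := ψ ((ZMod.chineseRemainder hf).symm (1, y))
  map_one' := by rw [← Prod.one_eq_mk, map_one, map_one]
  map_mul' x y := by rw [← map_mul, ← map_mul, Prod.mk_mul_mk, mul_one]
  map_nonunit' y n := ψ.map_nonunit fun u => n (by
    simpa using (u.map (ZMod.chineseRemainder hf)).map (RingHom.snd _ _))

theorem cp_prim {f : ℕ} [NeZero f] (hf : p.Coprime f) {k : Type} [Field k]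
    {ψ : DirichletCharacter k (p * f)} (pr : ψ.IsPrimitive) : (cp hf ψ).IsPrimitive := by
  have ft := (cp hf ψ).factorsThrough_conductor
  have d := ft.dvd
  have d' := mul_dvd_mul_left p d
  have : ψ.FactorsThrough (p * (cp hf ψ).conductor) := by
    rw [DirichletCharacter.factorsThrough_iff_ker_unitsMap d']
    intro u hu
    have c : ∀ {n : ℕ} (h : n ∣ p * (cp hf ψ).conductor), ZMod.unitsMap (h.trans d') u = 1 :=
      fun h => by rw [← ZMod.unitsMap_comp h d', MonoidHom.comp_apply, hu, map_one]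
    have a := (DirichletCharacter.factorsThrough_iff_ker_unitsMap d).1 ft
      (x := ZMod.unitsMap (dvd_mul_left f p) u) (by
        rw [MonoidHom.mem_ker, ← MonoidHom.comp_apply, ZMod.unitsMap_comp]
        exact c (dvd_mul_left _ _))
    have b := congrArg Units.val (c (dvd_mul_right _ _))
    refine Units.ext (Eq.trans (congrArg ψ ?_) (congrArg Units.val a))
    rw [RingEquiv.eq_symm_apply, ← Units.val_one, ← b]
    exact Prod.ext (by simp [ZMod.chineseRemainder, ZMod.unitsMap_val])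
      (by simp [ZMod.chineseRemainder, ZMod.unitsMap_val])
  have l : p * f ≤ p * (cp hf ψ).conductor := pr.ge.trans (Nat.sInf_le this)
  exact (Nat.le_of_dvd (NeZero.pos f) d).antisymm (Nat.le_of_mul_le_mul_left l hp.1.pos)

/-- **the Gauss sum**: `∑ n a ζ ^ a = (ξ - 1) ^ j s` modulo `p`, `s` a unit modulo `ξ - 1` -/
theorem gs_s [IsDomain A] [CharZero A] {f f' : ℕ} [NeZero f] (hf : f = p * f') (co : p.Coprime f')
    {ζ ξ : A} (hζ : IsPrimitiveRoot ζ f) (hξ : IsPrimitiveRoot ξ p)
    {ψ : DirichletCharacter (ZMod p) f} (pr : ψ.IsPrimitive) (hj : j < p - 1)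
    (hv : ∀ a : ℕ, ¬ p ∣ a → a ≡ 1 [MOD f'] → ψ a * a ^ j = 1) {n : ZMod f → ℤ}
    (hn : ∀ a, (n a : ZMod p) = ψ a) : ∃ s s' : A,
    (p : A) ∣ ∑ a, n a * ζ ^ a.val - (ξ - 1) ^ j * s ∧ ξ - 1 ∣ s * s' - 1 := by
  classical
  subst hf
  have : NeZero f' := ⟨fun z => NeZero.ne (p * f') (by simp [z])⟩
  let φ := Ideal.Quotient.mk (Ideal.span {(p : A)})
  have p0 : (p : A ⧸ Ideal.span {(p : A)}) = 0 :=
    (map_natCast φ p).symm.trans (Ideal.Quotient.eq_zero_iff_mem.2 (Ideal.mem_span_singleton_self _))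
  let χ := ZMod.castHom (ringChar.dvd p0) (A ⧸ Ideal.span {(p : A)})
  let e := AddChar.zmodChar _ hζ.pow_eq_one
  have he : e.IsPrimitive := AddChar.zmodChar_primitive_of_primitive_root _ hζ
  let E := (ZMod.chineseRemainder co).symm
  have pw : ∀ x : ZMod p, e (E (x, 0)) = e (E (1, 0)) ^ x.val := fun x => by
    rw [← e.map_nsmul_eq_pow, ← map_nsmul]
    simp
  have pp : IsPrimitiveRoot (e (E (1, 0))) p := by
    have a : e (E (1, 0)) ^ p = 1 := by
      rw [← e.map_nsmul_eq_pow, ← map_nsmul]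
      simp [Prod.mk_zero_zero]
    have b : e (E (1, 0)) ≠ 1 := fun b => he (a := E (1, 0)) (by simp) (by
      ext x
      obtain ⟨y, rfl⟩ := E.surjective x
      rw [AddChar.mulShift_apply, ← map_mul, show ((1, 0) : ZMod p × ZMod f') * y = (y.1, 0) by
        ext <;> simp, pw, b, one_pow, AddChar.one_apply])
    have := IsPrimitiveRoot.orderOf (e (E (1, 0)))
    rwa [orderOf_eq_prime a b] at this
  let e' : AddChar (ZMod f') (A ⧸ Ideal.span {(p : A)}) :=
    { toFun := fun y => φ (e (E (0, y)))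
      map_zero_eq_one' := by simp [Prod.mk_zero_zero]
      map_add_eq_mul' := fun x y => by
        rw [← map_mul, ← e.map_add_eq_mul, ← map_add, Prod.mk_add_mk, add_zero] }
  have g2 := two χ (cp_prim co pr) e' fun b n => by
    have a := AddChar.sum_mulShift (E (0, b)) he
    rw [if_neg (by simpa using n), ← E.toEquiv.sum_comp, Fintype.sum_prod_type] at a
    have k : ∀ x y, e (E.toEquiv (x, y) * E (0, b)) = e (E (0, y * b)) := fun x y => by
      change e (E (x, y) * _) = _
      rw [← map_mul, Prod.mk_mul_mk, mul_zero]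
    simp only [k, sum_const, card_univ, ZMod.card, nsmul_eq_mul, Nat.cast_zero, mul_eq_zero,
      Nat.cast_eq_zero, hp.1.ne_zero, false_or] at a
    have := congrArg φ a
    rwa [map_sum, map_zero] at this
  have v1 : ∀ x : ZMod p, ψ (E (x, 1)) = x ^ (p - 1 - j) := fun x => by
    by_cases z : x = 0
    · rw [z, zero_pow (by omega)]
      exact ψ.map_nonunit fun u => by simpa using (u.map E.symm).map (RingHom.fst _ _)
    have c : ((E (x, 1)).val : ZMod p × ZMod f') = (x, 1) := by
      rw [← map_natCast E.symm, ZMod.natCast_zmod_val, E.symm_apply_apply]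
    have c1 : ((E (x, 1)).val : ZMod p) = x := congrArg Prod.fst c
    have c2 : ((E (x, 1)).val : ZMod f') = 1 := congrArg Prod.snd c
    have := hv (E (x, 1)).val (fun d => z (c1 ▸ (ZMod.natCast_eq_zero_iff _ _).2 d))
      ((ZMod.natCast_eq_natCast_iff _ _ _).1 (by rw [c2, Nat.cast_one]))
    rw [ZMod.natCast_zmod_val, c1] at this
    refine mul_right_cancel₀ (pow_ne_zero j z) ?_
    rw [this, ← pow_add, show p - 1 - j + j = p - 1 by omega, ZMod.pow_card_sub_one_eq_one z]
  obtain ⟨t, r, ht, g1⟩ := one hj χ (φ (e (E (1, 0))))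
  have s : φ (∑ a, n a * ζ ^ a.val) = (∑ x : ZMod p, χ (x ^ (p - 1 - j)) * φ (e (E (1, 0))) ^ x.val) *
      gaussSum ((cp co ψ).ringHomComp χ) e' := by
    rw [map_sum, gaussSum, ← E.toEquiv.sum_comp, Fintype.sum_prod_type, sum_mul_sum]
    refine sum_congr rfl fun x _ => sum_congr rfl fun y _ => ?_
    rw [← v1, ← map_pow, ← pw, map_mul, map_intCast, ← map_intCast χ, hn, mul_mul_mul_comm]
    change _ = χ (ψ (E (x, 1))) * χ (ψ (E (1, y))) * (φ (e (E (x, 0))) * φ (e (E (0, y))))
    rw [← map_mul, ← map_mul, ← map_mul, ← map_mul, ← e.map_add_eq_mul, ← map_add]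
    simp [e, AddChar.zmodChar_apply]
  obtain ⟨i, l, ei⟩ := hξ.eq_pow_of_pow_eq_one pp.pow_eq_one
  obtain ⟨v, hv⟩ := hξ.associated_sub_one_pow_sub_one_of_coprime
    ((hξ.pow_iff_coprime hp.1.pos i).1 (ei ▸ pp))
  have u : IsUnit (gaussSum ((cp co ψ).ringHomComp χ) e') := isUnit_of_mul_isUnit_left (by
    rw [g2, ← map_natCast χ]
    exact ((ZMod.isUnit_iff_coprime _ _).2 co.symm).map χ)
  generalize gaussSum ((cp co ψ).ringHomComp χ) e' = G at s u
  rw [g1, ← ei, ← map_one φ, ← map_sub, ← hv] at s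
  obtain ⟨σ, hσ⟩ := (((v.isUnit.map φ).pow j).mul (ht.mul u)).exists_right_inv
  obtain ⟨t, rfl⟩ := Ideal.Quotient.mk_surjective t
  obtain ⟨r, rfl⟩ := Ideal.Quotient.mk_surjective r
  obtain ⟨G, rfl⟩ := Ideal.Quotient.mk_surjective G
  obtain ⟨σ, rfl⟩ := Ideal.Quotient.mk_surjective σ
  refine ⟨v ^ j * ((t + (ξ - 1) * v * r) * G), σ, ?_, ?_⟩
  · rw [← Ideal.mem_span_singleton, ← Ideal.Quotient.eq]
    refine s.trans ?_
    simp only [φ, map_mul, map_pow, map_add]
    ring
  · have : (p : A) ∣ v ^ j * (t * G) * σ - 1 := by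
      rw [← Ideal.mem_span_singleton, ← Ideal.Quotient.eq]
      simpa only [φ, map_mul, map_pow, map_one] using hσ
    have := (((dvd_pow_self _ j.succ_ne_zero).trans (pi_dvd hp.1 hξ hj).2).trans this).add
      (dvd_mul_right (ξ - 1) (v ^ j * v * r * G * σ))
    convert this using 1
    ring

end Vale.Agent.P014Z.Su.Dr
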