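import Vale.Agent.P014Z.Su.Mod
import Vale.Agent.P014Z.Su.Dpr
import Vale.Agent.P014Z.Su.Dpf0

/-! # P014Z, units: the eigen-component as a modular function when `p` divides the conductor -/

set_option autoImplicit false
set_option linter.all false

open PowerSeries Finset UpperHalfPlane CongruenceSubgroup
open scoped MatrixGroups

noncomputable section

namespace Vale.Agent.P014Z.Su

open Vale.Agent.P014T.Sg Vale.Agent.P022 H236 H236.L3 H218.L3 H231.L3 P027M.M Dp Dr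

variable {A : Type} [CommRing A] {f : ℕ} [NeZero f] {p : ℕ}

theorem Dr.exq_pr {ι : Type} (s : Finset ι) {w : ℤ} {P : ι → ℂ⟦X⟧} {g : ι → ℍ → ℂ}
    (h : ∀ i, Exq 1 w (P i) (g i)) (ν : ι → ℕ) :
    Exq 1 ((∑ i ∈ s, ν i : ℕ) * w) (∏ i ∈ s, P i ^ ν i) fun τ => ∏ i ∈ s, g i τ ^ ν i := by
  classical
  induction s using Finset.induction_on with
  | empty => simpa using Exq.one
  | insert i s k e =>
    simpa only [prod_insert k, sum_insert k, Nat.cast_add, add_mul] using ((h i).pow (ν i)).mul e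

/-- **DEP when `p` divides `f`** -/
theorem dpr [hp : Fact p.Prime] (hf : 1 < f) {m : ℕ} (hm : f ∣ m * sq f) (h2 : p ≠ 2) (pf : p ∣ f)
    (reg : ∀ x : A, p * x = 0 → x = 0) (ι : A →+* ℂ) {ζ : A} (hζ : ζ ^ f = 1) (e : ι ζ = ee (1 / f))
    {ψ : DirichletCharacter (ZMod p) f} (pr : ψ.IsPrimitive) {c : ℕ} (hc : ψ c = 1)
    (u : c.Coprime f) {n n' : ZMod f → ℤ} (hn : ∀ a, (n a : ZMod p) = ψ a)
    (hn' : ∀ a, (n' a : ZMod p) = ψ⁻¹ a) {π s : A} {j : ℕ} (hj : 2 ≤ j) (p0 : ι π ≠ 0)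
    (ha : (p : A) ∣ π ^ (p - 1)) (hb : π ^ (j + 1) ∣ p)
    (hs : (p : A) ∣ ∑ a, n a * ζ ^ a.val - π ^ j * s) {ν : (ZMod f)ˣ → ℕ} {z : ℤ}
    (hν : ∀ a, (ν a : ZMod p) = z * ψ a) : ∃ (κ : (ZMod f)ˣ → ℕ) (F : ℍ → ℂ) (h : F ∈ Hol)
      (W : A⟦X⟧), inc F h ∈ MF (Gamma0 (f ^ 2)) ∧ ExM 1 (ls 0 (map ι W)) (inc F h) ∧
    (∀ k, π ∣ coeff k W - 24 * m * (c - 1) * z * s *
      (∑ x ∈ k.divisorsAntidiagonal, cw p x.2 * n x.1 * n' x.2 : ℤ)) ∧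
    ∀ τ, ∏ a : (ZMod f)ˣ, us f c m a τ ^ ν a =
      (∏ a : (ZMod f)ˣ, us f c m a τ ^ κ a) ^ p * (1 + ι π ^ j * F τ) := by
  obtain ⟨κ, fb⟩ := ex_k pf pr hν
  obtain ⟨W, w1, w2⟩ := dpr_ser hf hζ h2 reg pr hc u hn hn' m hj ha hb hs hν fb
  obtain ⟨a1, a2⟩ := Mm.prod univ fun a : (ZMod f)ˣ => (us_mm hf hm c a).pow (ν a)
  obtain ⟨b1, b2⟩ := Mm.prod univ fun a : (ZMod f)ˣ => (us_mm hf hm c a).pow (κ a * p)
  have n0 : ∀ τ, ∏ a : (ZMod f)ˣ, us f c m a τ ^ (κ a * p) ≠ 0 := fun τ =>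
    prod_ne_zero_iff.2 fun a _ => pow_ne_zero _ (us_ne hf c m _ _)
  have x := exq_pr univ (fun a : (ZMod f)ˣ => us_exq hf hm c a) fun a => κ a * p
  rw [← fb.sum] at x
  obtain ⟨k1, k2, -, k3⟩ := quo n0 a2 b2 (exq_pr univ (fun a : (ZMod f)ˣ => us_exq hf hm c a) ν) x
    (by simp [Fz_zero hf]) (pow_ne_zero j p0) (W := map ι W) (by
      have := congrArg (map ι) w1
      simpa only [map_prod, map_pow, map_mul, map_add, map_one, map_C, Fz_map hf, e, ← prod_pow,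
        ← pow_mul] using this)
  refine ⟨κ, _, k1, W, k2, k3, w2, fun τ => ?_⟩
  have := n0 τ
  simp only [← prod_pow, ← pow_mul]
  field_simp
  ring

end Vale.Agent.P014Z.Su
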