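import Vale.Agent.P004R.Lfb

/-! # P014Z, block SU: weighted sums over lattices and over ideals -/

set_option autoImplicit false
set_option linter.all false

open UpperHalfPlane NumberField Set

noncomputable section

namespace Vale.Agent.P014Z.Su

open Vale.Agent.P022 (Qb GQ GK below)
open P027H P027M.M P004K P004K.Rc P004K.Gm P004R.Lb
open Vale.Agent.P027M.S (Inert LI)
open Vale.Agent.P022K.G2 (Tv)

namespace Lz

section sums

variable {K : Type} [Field K] [NumberField K] {J : 𝓞 K →+* ℂ} {ω : 𝓞 K} {σ : 𝓞 K →+* 𝓞 K} {c : ℕ}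
  {B : Ideal (𝓞 K)} {U : ℕ →*₀ ℂ}

variable (K) in
/-- absolute convergence -/
def Sm (U : ℕ →*₀ ℂ) : Prop := Summable fun I : Ideal (𝓞 K) => U (Ideal.absNorm I)

/-- sums over sets of ideals -/
def TW (U : ℕ →*₀ ℂ) (S : Set (Ideal (𝓞 K))) : ℂ := ∑' I : S, U (Ideal.absNorm I.1)

theorem hs_TW (h : Sm K U) (S : Set (Ideal (𝓞 K))) :
    HasSum (fun I : S => U (Ideal.absNorm I.1)) (TW U S) := (h.subtype S).hasSum

/-- the terms -/
def FW (U : ℕ →*₀ ℂ) (B : Ideal (𝓞 K)) (a : 𝓞 K) : ℂ :=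
  U (Ideal.absNorm (Ideal.span {a}) / Ideal.absNorm B)

theorem hs_inj {ι α : Type} {φ : ι → α} (i : Function.Injective φ) {u : ι → ℂ} {F : α → ℂ}
    (e : ∀ i, F (φ i) = u i) {T : ℂ} (h : HasSum u T) : HasSum ((range φ).indicator F) T := by
  rw [← i.hasSum_iff fun x hx => indicator_of_notMem hx _]
  simpa only [Function.comp_def, indicator_of_mem (mem_range_self _), e] using h

theorem N_pos (h : B ≠ ⊥) : 0 < Ideal.absNorm B :=
  Nat.pos_of_ne_zero (Ideal.absNorm_eq_zero_iff.not.2 h)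

theorem two_one (up : Upm K) (hs : Sm K U) (B0 : B ≠ ⊥) {S : Set (Ideal (𝓞 K))} {G : Set (𝓞 K)}
    (h1 : ∀ a ∈ G, ∃ I ∈ S, Ideal.span {a} = B * I) (h2 : ∀ I ∈ S, ∃ a ∈ G, Ideal.span {a} = B * I)
    (h3 : ∀ a ∈ G, a ≠ 0 ∧ -a ∈ G) : HasSum (G.indicator (FW U B)) (2 * TW U S) := by
  choose f f1 f2 using fun I : S => h2 I.1 I.2
  have i : Function.Injective f := fun I I' e =>
    Subtype.ext (mul_left_cancel₀ B0 (by rw [← f2, ← f2, e]))
  have v (I : S) : FW U B (f I) = U (Ideal.absNorm I.1) := by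
    rw [FW, f2, map_mul, Nat.mul_div_cancel_left _ (N_pos B0)]
  have e : G = range f ∪ range fun I => -f I := by
    refine Subset.antisymm (fun a ha => ?_) (union_subset (range_subset_iff.2 f1)
      (range_subset_iff.2 fun I => (h3 _ (f1 I)).2))
    obtain ⟨I, hI, e⟩ := h1 a ha
    obtain ⟨u, k⟩ := Ideal.span_singleton_eq_span_singleton.1 ((f2 ⟨I, hI⟩).trans e.symm)
    rcases up u with rfl | rfl
    exacts [.inl ⟨_, by simpa using k⟩, .inr ⟨_, by simpa using k⟩]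
  have d : Disjoint (range f) (range fun I => -f I) := disjoint_left.2 (by
    rintro _ ⟨I, rfl⟩ ⟨I', k⟩
    obtain rfl : I' = I := Subtype.ext (mul_left_cancel₀ B0 (by
      rw [← f2, ← f2, ← k, Ideal.span_singleton_neg]))
    exact (h3 _ (f1 I')).1 (CharZero.neg_eq_self_iff.1 k))
  rw [e, indicator_union_of_disjoint d, two_mul]
  exact (hs_inj i v (hs_TW hs S)).add (hs_inj (neg_injective.comp i)
    (fun I => by rw [← v, FW, FW, Function.comp, Ideal.span_singleton_neg]) (hs_TW hs S))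

variable (q : Qd J ω σ)
include q

theorem nm_nat (m : ℕ) (m0 : m ≠ 0) : Ideal.absNorm (Ideal.span {(m : 𝓞 K)}) = m ^ 2 := by
  have := nm_span q (Nat.cast_ne_zero (R := 𝓞 K).2 m0)
  rw [map_natCast, Complex.normSq_natCast, ← sq] at this
  exact_mod_cast this

theorem FW_mul {m : ℕ} (m0 : m ≠ 0) {a : 𝓞 K} (ha : a ∈ B) :
    FW U B (m * a) = U (m ^ 2) * FW U B a := by
  rw [FW, FW, ← map_mul, ← Ideal.span_singleton_mul_span_singleton, map_mul, nm_nat q m m0,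
    Nat.mul_div_assoc _ (map_dvd _ (Ideal.dvd_span_singleton.2 ha))]

theorem by_gcd (hc : 0 < c) (h : Cop c B) {T : ℕ → ℂ}
    (hT : ∀ p ∈ c.divisorsAntidiagonal, HasSum ((Gp p.1 B).indicator (FW U B)) (T p.1)) :
    HasSum ({a | a ∈ B ∧ Rc c a}.indicator (FW U B))
      (∑ p ∈ c.divisorsAntidiagonal, U (p.2 ^ 2) * T p.1) := by
  have k := hasSum_sum (s := c.divisorsAntidiagonal)
    (f := fun p => ((fun x => (p.2 : 𝓞 K) * x) '' Gp p.1 B).indicator (FW U B))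
    (a := fun p => U (p.2 ^ 2) * T p.1) fun p hp => by
      have p0 := Nat.right_ne_zero_of_mem_divisorsAntidiagonal hp
      have i := mul_right_injective₀ (Nat.cast_ne_zero (R := 𝓞 K).2 p0)
      rw [← i.hasSum_iff fun x hx => indicator_of_notMem (s := _ '' _)
        (fun ⟨a, _, e⟩ => hx ⟨a, e⟩) _]
      refine (congrArg (HasSum · _) (funext fun a => ?_)).mpr ((hT p hp).mul_left (U (p.2 ^ 2)))
      by_cases ha : a ∈ Gp p.1 B
      · rw [Function.comp, indicator_of_mem (mem_image_of_mem _ ha), indicator_of_mem ha,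
          FW_mul q p0 ha.1]
      · rw [Function.comp, indicator_of_notMem (i.mem_set_image.not.2 ha), indicator_of_notMem ha,
          mul_zero]
  convert k using 2 with a
  by_cases a0 : a = 0
  · have z : FW U B a = 0 := by simp [FW, a0]
    simp [indicator, z]
  by_cases ha : a ∈ B ∧ Rc c a
  · obtain ⟨p, hp, x, hx, e⟩ := ex_gd hc h ha.1 ha.2 a0
    rw [indicator_of_mem (s := {a | a ∈ B ∧ Rc c a}) ha, Finset.sum_eq_single_of_mem p hp,
      indicator_of_mem (s := _ '' _) ⟨x, hx, e⟩]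
    refine fun p' hp' ne => indicator_of_notMem (s := _ '' _) (fun ⟨x', hx', e'⟩ => ne ?_) _
    have e1 := (Nat.mem_divisorsAntidiagonal.1 hp).1
    have e2 := (Nat.mem_divisorsAntidiagonal.1 hp').1
    have e3 : p'.2 = p.2 := Nat.dvd_antisymm
      (dvd_of q hx.2.2 (e1 ▸ e2 ▸ dvd_mul_left _ _) (e.trans e'.symm))
      (dvd_of q hx'.2.2 (e2 ▸ e1 ▸ dvd_mul_left _ _) (e'.trans e.symm))
    exact Prod.ext (mul_right_cancel₀ (Nat.right_ne_zero_of_mem_divisorsAntidiagonal hp)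
      (by rw [e1, ← e3, e2])) e3
  · rw [indicator_of_notMem (s := {a | a ∈ B ∧ Rc c a}) ha]
    refine (Finset.sum_eq_zero fun p hp => indicator_of_notMem ?_ _).symm
    rintro ⟨x, ⟨h1, ⟨k, b, rfl⟩, -⟩, rfl⟩
    refine ha ⟨B.mul_mem_left _ h1, p.2 * k, b, ?_⟩
    rw [← (Nat.mem_divisorsAntidiagonal.1 hp).1]
    push_cast
    ring

theorem ze_eq' (hc : 0 < c) (h : Cop c B) {τ : ℍ} {μ : ℂ} (H : Hom μ (lat τ) (LL J c B))
    {Q : ℤ × ℤ → ℕ} (hQ : ∀ v, (Q v : ℝ) * τ.im = c * (J ω).im * Complex.normSq (v.1 * τ + v.2)) :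
    ∑' v, U (Q v) = ∑' a, {a | a ∈ B ∧ Rc c a}.indicator (FW U B) a := by
  choose f f1 f2 using fun x : ℤ × ℤ => mem_LL.1 ((H.2 _).1 (lin_lat τ x.1 x.2))
  have i : Function.Injective f := fun x y e =>
    have := lin_inj (mul_left_cancel₀ H.1 (by rw [← f2, ← f2, e]))
    Prod.ext this.1 this.2
  have e : Complex.normSq μ * τ.im = Ideal.absNorm B * (c * (J ω).im) := scale q hc h H
  rw [← i.tsum_eq fun a ha => ?_]
  · refine tsum_congr fun x => ?_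
    have n : (Ideal.absNorm (Ideal.span {f x}) : ℝ) = Complex.normSq (J (f x)) := by
      by_cases z : f x = 0
      · simp [z]
      · exact nm_span q z
    have m : Ideal.absNorm (Ideal.span {f x}) = Ideal.absNorm B * Q x := by
      have : (Ideal.absNorm (Ideal.span {f x}) : ℝ) = Ideal.absNorm B * Q x :=
        mul_right_cancel₀ τ.im_pos.ne' (by
          rw [n, f2, map_mul, mul_assoc (Ideal.absNorm B : ℝ), hQ]
          linear_combination Complex.normSq (x.1 * τ + x.2 : ℂ) * e)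
      exact_mod_cast this
    rw [indicator_of_mem (s := {a | a ∈ B ∧ Rc c a}) (f1 x), FW, m,
      Nat.mul_div_cancel_left _ (N_pos h.1)]
  · have ha := support_indicator_subset ha
    obtain ⟨u, v, k⟩ := mem_lat.1 ((H.symm.2 _).1 (mem_LL.2 ⟨a, ha, rfl⟩))
    exact ⟨(u, v), q.inj (by rw [f2, k, mul_inv_cancel_left₀ H.1])⟩

end sums

section gal

variable {K : Type} [Field K] [NumberField K] {j : K →+* Qb} {c : ℕ} {U : ℕ →*₀ ℂ} {g : GQ}
  {ω : 𝓞 K} {σ : 𝓞 K →+* 𝓞 K} {χ : GQ → ℂ} {R : Finset GQ}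

theorem lvl (r2 : RC2) (iq : Iq K) (up : Upm K) (hc : 0 < c) (hs : Sm K U) {B : Ideal (𝓞 K)}
    (hB : Cop c B) (a : Ar j c B g⁻¹) :
    HasSum ((Gp c B).indicator (FW U B)) (2 * TW U (Sg j c g)) := by
  obtain ⟨h1, -, h3, h4, h5, -⟩ := r2 K j iq c hc
  refine two_one up hs hB.1 (fun x hx => ?_) (fun I hI => ?_) fun x hx =>
    ⟨Ideal.span_singleton_eq_bot.not.1 hx.2.2.1, neg_mem hx.1, hx.2.1.neg,
      by rw [Ideal.span_singleton_neg]; exact hx.2.2⟩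
  · obtain ⟨I, k⟩ := Ideal.dvd_span_singleton.2 hx.1
    have hI : Cop c I := cop_mono hx.2.2 (k ▸ Ideal.mul_le_right)
    obtain ⟨h, b⟩ := h1 I hI
    obtain ⟨l, y, rfl⟩ := hx.2.1
    exact ⟨I, ⟨hI, (h4 I h g b).2 (by simpa using inv_mem ((h5 _ _ (cop_mul hB hI)
      (h3 _ _ _ _ hB hI a b)).2 ⟨l, y, k.symm⟩))⟩, k⟩
  · obtain ⟨l, y, k⟩ := (h5 _ _ (cop_mul hB hI.1) (h3 _ _ _ _ hB hI.1 a hI.2)).1 (by simp)
    exact ⟨_, ⟨Ideal.mul_le_left (k ▸ Ideal.mem_span_singleton_self _), ⟨l, y, rfl⟩,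
      k ▸ cop_mul hB hI.1⟩, k.symm⟩

theorem ze_sum (r2 : RC2) (iq : Iq K) (up : Upm K) (q : Qd (JJ j) ω σ) (hc : 0 < c) (hs : Sm K U)
    (hg : g ∈ GK j) {τ : ℍ} (h : jL (lat τ) = io (g (jc j c))) {Q : ℤ × ℤ → ℕ}
    (hQ : ∀ v, (Q v : ℝ) * τ.im = c * (JJ j ω).im * Complex.normSq (v.1 * τ + v.2)) :
    ∑' v, U (Q v) = ∑ p ∈ c.divisorsAntidiagonal, U (p.2 ^ 2) * (2 * TW U (Sg j p.1 g)) := by
  obtain ⟨-, h2, h3, -, h5, -⟩ := r2 K j iq c hc
  obtain ⟨I, hI, a⟩ := h2 g hg 1 one_pos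
  obtain ⟨B, hB, b⟩ := h2 g⁻¹ (inv_mem hg) 1 one_pos
  rw [mul_one] at hI hB
  obtain ⟨l, y, k⟩ := (h5 _ _ (cop_mul hI hB) (h3 _ _ _ _ hI hB a b)).1 (by simp)
  obtain ⟨μ, H⟩ := (jh _ _ (isLat τ) (q.kl_st (q.kl_Oc hc) hI.1).lat).1 (h.trans a.2)
  rw [ze_eq' q hc hB (H.trans (hom_LL q hI hB ⟨l, y, rfl⟩ k)) hQ,
    (by_gcd q hc hB (T := fun c' => 2 * TW U (Sg j c' g)) fun p hp => ?_).tsum_eq]
  obtain ⟨rfl, p0⟩ := Nat.mem_divisorsAntidiagonal.1 hp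
  have p1 := Nat.pos_of_mul_pos_right hc
  exact lvl r2 iq up p1 hs (cop_dvd hB)
    ((r2 K j iq _ p1).2.2.2.2.2.1 _ _ _ (Nat.pos_of_mul_pos_left hc) hB b)

end gal

end Lz

/-- a primitive ring class character of conductor `c` -/
structure Pch {K : Type} [Field K] (j : K →+* Qb) (c : ℕ) (χ : GQ → ℂ) : Prop where
  mul : ∀ g ∈ GK j, ∀ h ∈ GK j, χ (g * h) = χ g * χ h
  ker : ∀ g ∈ Hc j c, χ g = 1
  prim : ∀ c' m, c' * m = c → m ≠ 1 → ∃ u ∈ Hc j c', χ u ≠ 1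

namespace Lz

variable {K : Type} [Field K] [NumberField K] {j : K →+* Qb} {c : ℕ} {U : ℕ →*₀ ℂ} {g : GQ}
  {ω : 𝓞 K} {σ : 𝓞 K →+* 𝓞 K} {χ : GQ → ℂ} {R : Finset GQ}

theorem _root_.Vale.Agent.P014Z.Su.Pch.rt (P : Pch j c χ) (hg : g ∈ GK j) {u : GQ}
    (hu : u ∈ Hc j c) : χ (g * u) = χ g := by rw [P.mul g hg u hu.1, P.ker u hu, mul_one]

theorem li_eq (r2 : RC2) (iq : Iq K) (hc : 0 < c) (P : Pch j c χ) (t : Tv (GK j) (Hc j c) R)
    (hs : Sm K U) {V : Ideal (𝓞 K) → ℂ}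
    (v1 : ∀ I g, Cop c I → Ar j c I g → V I = χ g * U (Ideal.absNorm I))
    (v0 : ∀ I, ¬ Cop c I → V I = 0) :
    ∑' I : {I : Ideal (𝓞 K) // I ≠ ⊥}, V I = ∑ g ∈ R, χ g * TW U (Sg j c g) := by
  obtain ⟨h1, -, -, h4, -⟩ := r2 K j iq c hc
  have a (g : GQ) : HasSum ((Sg j c g).indicator fun I => U (Ideal.absNorm I))
      (TW U (Sg j c g)) := hasSum_subtype_iff_indicator.1 (hs_TW hs (Sg j c g))
  have := hasSum_sum (s := R) fun g _ => (a g).mul_left (χ g)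
  rw [(Subtype.val_injective (p := fun I : Ideal (𝓞 K) => I ≠ ⊥)).tsum_eq (f := V) fun I hI =>
      ⟨⟨I, (not_not.1 fun a : ¬Cop c I => hI (v0 I a)).1⟩, rfl⟩, ← this.tsum_eq]
  refine tsum_congr fun I => ?_
  by_cases h : Cop c I
  · obtain ⟨g, a⟩ := h1 I h
    obtain ⟨r, hr, b⟩ := t.ex g a.1
    have m : I ∈ Sg j c r := ⟨h, (h4 I g r a).2 (by simpa using inv_mem b)⟩
    rw [Finset.sum_eq_single_of_mem r hr fun r' hr' ne => by
      rw [indicator_of_notMem fun m' => ne (t.un _ hr' _ hr ((h4 I _ _ m'.2).1 m.2))]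
      simp, indicator_of_mem m, v1 I r h m.2]
  · rw [v0 I h]
    refine (Finset.sum_eq_zero fun g _ => ?_).symm
    rw [indicator_of_notMem fun m => h m.1]
    simp

theorem shift (r1 : P004K.RC1) (r2 : RC2) (iq : Iq K) (P : Pch j c χ) (t : Tv (GK j) (Hc j c) R)
    (hc : 0 < c) {c' m : ℕ} (h : c' * m = c) {u : GQ} (ug : u ∈ GK j) :
    χ u * ∑ g ∈ R, χ g * TW U (Sg j c' (g * u)) = ∑ g ∈ R, χ g * TW U (Sg j c' g) := by
  have p1 := Nat.pos_of_mul_pos_right (h ▸ hc : 0 < c' * m)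
  have p2 := Nat.pos_of_mul_pos_left (h ▸ hc : 0 < c' * m)
  have nm := (r1 K j iq c hc).2.2.1
  rw [← t.sum_mul' (fun g _ v hv => nm.conj_mem v hv g) ug
    (fun g => χ g * TW U (Sg j c' g)) fun y hy v _ hv => by
      rw [P.rt hy hv, Sg_mul r2 iq p1 ((r1 K j iq c' p1).2.2.2.2.2 m p2 (h ▸ hv))], Finset.mul_sum]
  exact Finset.sum_congr rfl fun g hg => by rw [P.mul g (t.mem g hg) u ug]; ring

/-- **the sum over the classes** -/
theorem main (r1 : P004K.RC1) (r2 : RC2) (iq : Iq K) (up : Upm K) (q : Qd (JJ j) ω σ) (hc : 0 < c)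
    (P : Pch j c χ) (t : Tv (GK j) (Hc j c) R) (hs : Sm K U) {φ : GQ} (hφ : φ ∈ GK j) {τ : GQ → ℍ}
    (h : ∀ g ∈ R, jL (lat (τ g)) = io ((g * φ) (jc j c))) {Q : GQ → ℤ × ℤ → ℕ}
    (hQ : ∀ g ∈ R, ∀ v,
      (Q g v : ℝ) * (τ g).im = c * (JJ j ω).im * Complex.normSq (v.1 * τ g + v.2))
    {V : Ideal (𝓞 K) → ℂ} (v1 : ∀ I g, Cop c I → Ar j c I g → V I = χ g * U (Ideal.absNorm I))
    (v0 : ∀ I, ¬ Cop c I → V I = 0) :
    χ φ * ∑ g ∈ R, χ g * ∑' v, U (Q g v) = 2 * ∑' I : {I : Ideal (𝓞 K) // I ≠ ⊥}, V I := by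
  have e1 : χ φ * ∑ g ∈ R, χ g * ∑' v, U (Q g v) = ∑ p ∈ c.divisorsAntidiagonal,
      U (p.2 ^ 2) * 2 * ∑ g ∈ R, χ g * TW U (Sg j p.1 g) := by
    refine .trans ?_ (Finset.sum_congr rfl fun p hp => congrArg _
      (shift r1 r2 iq P t hc (Nat.mem_divisorsAntidiagonal.1 hp).1 hφ))
    simp only [Finset.mul_sum]
    rw [Finset.sum_comm]
    refine Finset.sum_congr rfl fun g hg => ?_
    rw [ze_sum r2 iq up q hc hs (mul_mem (t.mem g hg) hφ) (h g hg) (hQ g hg)]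
    simp only [Finset.mul_sum]
    exact Finset.sum_congr rfl fun p _ => by ring
  rw [e1, li_eq r2 iq hc P t hs v1 v0, Finset.sum_eq_single_of_mem (c, 1) (by simp [hc.ne'])
    fun p hp ne => ?_]
  · simp
  · have e := (Nat.mem_divisorsAntidiagonal.1 hp).1
    obtain ⟨u, hu, n⟩ := P.prim _ _ e fun z => ne (Prod.ext (by rw [← e, z, mul_one]) z)
    have w := shift (U := U) r1 r2 iq P t hc e hu.1
    simp only [Sg_mul r2 iq (Nat.pos_of_mul_pos_right (e ▸ hc : 0 < p.1 * p.2)) hu] at w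
    rw [eq_zero_of_mul_eq_self_left n w, mul_zero]

/-- ramification gives primitivity -/
theorem prim_of (r2 : RC2) (iq : Iq K) (sq : Squarefree c)
    (h : ∀ l : ℕ, l.Prime → l ∣ c → ∃ (P : Ideal (𝓞 Qb)) (u : GQ), P.IsPrime ∧ (l : 𝓞 Qb) ∈ P ∧
      u ∈ GK j ∧ Inert P u ∧ χ u ≠ 1) (c' m : ℕ) (e : c' * m = c) (m1 : m ≠ 1) :
    ∃ u ∈ Hc j c', χ u ≠ 1 := by
  obtain ⟨l, hl, d⟩ := Nat.exists_prime_and_dvd m1
  have p1 := Nat.pos_of_mul_pos_right (e ▸ Nat.pos_of_ne_zero sq.ne_zero : 0 < c' * m)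
  obtain ⟨P, u, h1, h3, ug, hu, n⟩ := h l hl (e ▸ d.mul_left _)
  have co : c'.Coprime l := (Nat.coprime_of_squarefree_mul (e ▸ sq)).coprime_dvd_right d
  have a := (r2 K j iq c' p1).2.2.2.2.2.2 P h1 (fun z => by
    rw [z, Ideal.mem_bot] at h3
    exact hl.ne_zero (Nat.cast_eq_zero.1 h3)) (fun z => h1.ne_top (by
      obtain ⟨x, y, w⟩ := (Nat.isCoprime_iff_coprime.2 co).map (Int.castRingHom (𝓞 Qb))
      rw [Ideal.eq_top_iff_one, ← w]
      exact P.add_mem (P.mul_mem_left _ (by simpa using z)) (P.mul_mem_left _ (by simpa using h3))))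
    u ug 0 fun x => by simpa using hu x
  exact ⟨u, ((r2 K j iq c' p1).2.2.2.2.1 _ u (by simpa using cop_top) a).2 ⟨1, 0, by simp⟩, n⟩

end Lz

end Vale.Agent.P014Z.Su
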