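import Vale.Agent.P014Z.Su.Lfz0
import Vale.Agent.P014Z.Su.Lfz1
import Vale.Agent.P014X.An.Kl0
import Vale.Agent.P004K.Hg.At
import Vale.Agent.P004F.Qx.Dep

/-! # P014Z, block SU: `L(s, χ · ψ ∘ N)` at Heegner points, the leading term at `s = 0` -/

set_option autoImplicit false
set_option linter.all false

open UpperHalfPlane hiding I
open NumberField Set

noncomputable section

namespace Vale.Agent.P014Z.Su

open Vale.Agent.P022 (Qb GQ GK below)
open P027H P027M.M P004K P004K.Rc P004K.Gm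
open Vale.Agent.P027M.S (Inert LI)
open Vale.Agent.P022K.G2 (Tv)
open Vale.Agent.P004F.Qx.De (vv coe_vv cj_V)
open P014X.An (Ze kl0 lg)

namespace Lz

variable {f : ℕ} [NeZero f] (ψ : DirichletCharacter ℂ f) {s : ℝ}

/-- the weight -/
def UU (hs : 1 < s) : ℕ →*₀ ℂ where
  toFun n := ψ n * (n : ℂ) ^ (-(s : ℂ))
  map_zero' := by
    rw [Nat.cast_zero (R := ℂ), Complex.zero_cpow (by simpa using (one_pos.trans hs).ne'), mul_zero]
  map_one' := by simp
  map_mul' m n := by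
    rw [Nat.cast_mul, map_mul, Nat.cast_mul, Complex.natCast_mul_natCast_cpow]
    ring

theorem UU_eq (hs : 1 < s) (n : ℕ) : UU ψ hs n = ψ n * ((n : ℝ) ^ (-s) : ℝ) := by
  rw [Complex.ofReal_cpow (Nat.cast_nonneg _), Complex.ofReal_neg, Complex.ofReal_natCast]
  rfl

theorem UU_le (hs : 1 < s) (n : ℕ) : ‖UU ψ hs n‖ ≤ (n : ℝ) ^ (-s) := by
  have := Real.rpow_nonneg (Nat.cast_nonneg n) (-s)
  rw [UU_eq, norm_mul, Complex.norm_real, Real.norm_of_nonneg this]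
  exact mul_le_of_le_one_left this (ψ.norm_le_one _)

theorem sm (K : Type) [Field K] [NumberField K] (hs : 1 < s) : Sm K (UU ψ hs) :=
  (P004R.Lb.sm_N hs).of_norm_bounded fun I => UU_le ψ hs _

variable (f) in
/-- division with remainder -/
def dm : ZMod f × ℤ ≃ ℤ where
  toFun p := p.1.val + f * p.2
  invFun n := (n, n / f)
  left_inv p := Prod.ext (by simp) (by
    have := ZMod.val_lt p.1
    show ((p.1.val : ℤ) + f * p.2) / f = p.2
    rw [Int.add_mul_ediv_left _ _ (Nat.cast_ne_zero.2 (NeZero.ne f)),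
      Int.ediv_eq_zero_of_lt (by omega) (by omega), zero_add])
  right_inv n := by
    show (((n : ZMod f).val : ℤ) + f * (n / f)) = n
    rw [ZMod.val_intCast, Int.emod_add_mul_ediv]

/-- **the splitting by residues** -/
theorem split (hs : 1 < s) (τ : ℍ) {a : ℝ} (a0 : 0 < a) {Q : ℤ × ℤ → ℕ} {β : ZMod f}
    (h1 : ∀ v, (Q v : ℝ) = a * Complex.normSq (v.1 * τ + v.2))
    (h2 : ∀ v, (Q v : ZMod f) = β * (v.1 * v.2)) :
    ∑' v, UU ψ hs (Q v) = ψ β * ((a * f ^ 2 : ℝ) : ℂ) ^ (-(s : ℂ)) *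
      ∑ x : ZMod f, ∑ y : ZMod f, ψ (x * y) * Ze τ (x.val / f * τ + y.val / f) s := by
  have f0 : (0 : ℝ) < f := Nat.cast_pos.2 (NeZero.pos f)
  have m : Summable fun v => UU ψ hs (Q v) :=
    ((P004R.Kl.sum_gg τ (k := 2 * s) (by linarith)).mul_left (a ^ (-s))).of_norm_bounded fun v => by
      refine (UU_le ψ hs _).trans_eq ?_
      rw [h1, Real.mul_rpow a0.le (Complex.normSq_nonneg _), P004R.Kl.gg,
        Complex.normSq_eq_norm_sq, ← Real.rpow_two, ← Real.rpow_mul (norm_nonneg _), mul_neg]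
  let e := (Equiv.prodProdProdComm (ZMod f) (ZMod f) ℤ ℤ).trans ((dm f).prodCongr (dm f))
  refine (e.tsum_eq _).symm.trans ((e.summable_iff.2 m).tsum_prod.trans ?_)
  rw [tsum_fintype, Fintype.sum_prod_type]
  simp only [Finset.mul_sum]
  refine Finset.sum_congr rfl fun x _ => Finset.sum_congr rfl fun y _ => ?_
  rw [Ze, ← tsum_mul_left, ← tsum_mul_left]
  refine tsum_congr fun v => ?_
  show UU ψ hs (Q (x.val + f * v.1, y.val + f * v.2)) = _
  have n : ((x.val + f * v.1 : ℤ) * τ + (y.val + f * v.2 : ℤ) : ℂ) =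
      (f : ℝ) * (x.val / f * τ + y.val / f + v.1 * τ + v.2) := by
    have : (f : ℂ) ≠ 0 := Nat.cast_ne_zero.2 (NeZero.ne f)
    push_cast
    field_simp
    ring
  rw [UU_eq, h1, h2, n, map_mul Complex.normSq, Complex.normSq_ofReal, ← sq, ← mul_assoc a,
    Real.mul_rpow (by positivity) (Complex.normSq_nonneg _), Complex.normSq_eq_norm_sq,
    ← Real.rpow_two ‖_‖, ← Real.rpow_mul (norm_nonneg _), Complex.ofReal_mul,
    Complex.ofReal_cpow (by positivity), Complex.ofReal_cpow (norm_nonneg _)]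
  simp only [Int.cast_add, Int.cast_natCast, Int.cast_mul, ZMod.natCast_self, zero_mul, add_zero,
    ZMod.natCast_zmod_val, map_mul, Complex.ofReal_neg, Complex.ofReal_mul,
    Complex.ofReal_ofNat, mul_neg, neg_mul]
  ring

section form

variable {O : Type} [CommRing O] {J : O →+* ℂ} {η : O} {σ : O →+* O} {c : ℕ} {I : Ideal O}
  {Λ : Submodule ℤ ℂ} {t n : ℤ}

/-- the norm form at a point of level `f ^ 2` -/
theorem form (q : Qd J η σ) (hc : 0 < c) (hη : η ∈ I) (e : η ^ 2 = t * η - n)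
    (k : ∀ z ∈ Λ, J (c * η) * z ∈ Λ) {τ : ℍ} (h : At (f * f) Λ (st J I Λ) τ) :
    ∃ Q : ℤ × ℤ → ℕ, (∀ v, (Q v : ℝ) * (vv f τ).im =
      c * (J η).im * Complex.normSq (v.1 * vv f τ + v.2)) ∧
      ∀ v, (Q v : ZMod f) = (c * t : ℤ) * (v.1 * v.2) := by
  have f0 : (f : ℂ) ≠ 0 := Nat.cast_ne_zero.2 (NeZero.ne f)
  obtain ⟨ω, H, h⟩ := h
  obtain ⟨a, b, e1⟩ := mem_lat.1 ((H.2 (J (c * η) / (f * f : ℕ))).2 (by
    convert (h (ω / (f * f : ℕ))).2 ⟨1, by simp⟩ _ (I.mul_mem_left c hη) k using 1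
    ring))
  obtain ⟨u, d, e2⟩ := mem_lat.1 ((H.2 (J (c * η) * τ)).2 (by
    convert k _ ((H.2 _).1 (tau_lat τ)) using 1
    ring))
  have e0 := congrArg J e
  have v := coe_vv (NeZero.pos f) τ
  have y := (vv f τ).im_pos
  have i := q.im
  generalize vv f τ = w at v y ⊢
  simp only [map_mul, map_sub, map_pow, map_natCast, map_intCast] at e0 e1 e2
  rw [eq_div_iff (by exact_mod_cast mul_ne_zero (NeZero.ne f) (NeZero.ne f))] at e1
  push_cast at e1
  have e3 : (c : ℂ) * J η = f * a * w + f * f * b := by rw [v]; linear_combination -e1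
  have e4 : (c : ℂ) * J η * w = u * w + f * d := by rw [v]; linear_combination -f * e2
  have e5 : ((u + f * f * b - c * t : ℤ) : ℂ) * (c * J η) =
      (f * f * b * u - f * a * (f * d) - c * c * n : ℤ) := by
    push_cast
    linear_combination c * c * e0 - (c * J η - u) * e3 - f * a * e4
  have e6 := congrArg Complex.im e5
  have i3 := congrArg Complex.im e3
  rw [e3] at e4
  have i4 := congrArg Complex.im e4
  have r4 := congrArg Complex.re e4
  have c0 : (0 : ℝ) < c := Nat.cast_pos.2 hc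
  simp only [Complex.mul_im, Complex.mul_re, Complex.add_im, Complex.add_re, Complex.intCast_im,
    Complex.intCast_re, Complex.natCast_im, Complex.natCast_re, zero_mul, mul_zero, add_zero,
    sub_zero, zero_add, coe_im, coe_re] at e6 i3 i4 r4
  have e7 : u + f * f * b - c * t = 0 := by
    exact_mod_cast (mul_eq_zero.1 e6).resolve_right (mul_pos c0 i).ne'
  have i5 : 2 * (f * a) * w.re = u - f * f * b :=
    mul_right_cancel₀ y.ne' (by linear_combination i4)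
  have z (v : ℤ × ℤ) : ((-(f * d) * v.1 ^ 2 + (u - f * f * b) * (v.1 * v.2) + f * a * v.2 ^ 2 : ℤ) :
      ℝ) * w.im = c * (J η).im * Complex.normSq (v.1 * w + v.2) := by
    rw [i3, Complex.normSq_apply]
    simp only [Complex.mul_im, Complex.mul_re, Complex.add_im, Complex.add_re, Complex.intCast_im,
      Complex.intCast_re, zero_mul, add_zero, sub_zero, coe_im, coe_re]
    push_cast
    linear_combination w.im * v.1 ^ 2 * r4 - w.im * (v.1 * v.2 + v.1 ^ 2 * w.re) * i5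
  have p (v : ℤ × ℤ) : (((-(f * d) * v.1 ^ 2 + (u - f * f * b) * (v.1 * v.2) +
      f * a * v.2 ^ 2 : ℤ).toNat : ℕ) : ℤ) = _ := Int.toNat_of_nonneg (by
    have := (z v).symm ▸ mul_nonneg (mul_pos c0 i).le (Complex.normSq_nonneg _)
    exact_mod_cast nonneg_of_mul_nonneg_left this y)
  refine ⟨fun v => (-(f * d) * v.1 ^ 2 + (u - f * f * b) * (v.1 * v.2) + f * a * v.2 ^ 2 : ℤ).toNat,
    fun v => by rw [← z, ← Int.cast_natCast, p], fun v => ?_⟩
  rw [← Int.cast_natCast, p, show (c * t : ℤ) = u + f * f * b by omega]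
  simp

omit [NeZero f] in
theorem tr_cop [IsDomain O] [IsIntegrallyClosed O] (q : Qd J η σ) (h : Cn (f * f) I) (hη : η ∈ I)
    (e : η ^ 2 = t * η - n) : IsCoprime t f := by
  rw [Int.isCoprime_iff_gcd_eq_one]
  by_contra g
  obtain ⟨p, hp, d⟩ := Nat.exists_prime_and_dvd g
  obtain ⟨a, rfl⟩ := (Int.natCast_dvd_natCast.2 d).trans (Int.gcd_dvd_left t f)
  obtain ⟨b, hb⟩ := (Int.natCast_dvd_natCast.2 d).trans (Int.gcd_dvd_right (p * a) f)
  obtain ⟨m, rfl⟩ := (h.1 n).1 (by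
    rw [show (n : O) = ((p * a : ℤ) - η) * η by linear_combination e]
    exact I.mul_mem_left _ hη)
  have hb' : (f : O) = p * b := by exact_mod_cast congrArg (Int.cast : ℤ → O) hb
  obtain ⟨y, k⟩ := Qd.quad_dvd (x := η) (n := (p : O)) (t := a) (d := b * b * m)
    (fun z => hp.ne_zero (by exact_mod_cast q.cast_inj (k := p) (l := 0) (by simpa using z)))
    (by rw [e]; push_cast; rw [hb']; ring)
  obtain ⟨u, v, rfl⟩ := q.sp y
  have := (q.ext (u := 0) (v := 1) (u' := p * u) (v' := p * v) (by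
    push_cast; linear_combination k)).2
  exact (Nat.prime_iff_prime_int.1 hp).not_dvd_one ⟨v, this⟩

omit [NeZero f] in
theorem cn_sup (h : Cn (f * f) I) : Cn f (I ⊔ Ideal.span {(f : O)}) := by
  refine ⟨fun k => ⟨fun hk => ?_, ?_⟩, fun a => (h.2 a).imp fun _ => Ideal.mem_sup_left⟩
  · obtain ⟨i, hi, y, hy, e⟩ := Submodule.mem_sup.1 hk
    obtain ⟨a, rfl⟩ := Ideal.mem_span_singleton.1 hy
    obtain ⟨l, hl⟩ := h.2 a
    obtain ⟨m, d⟩ := (h.1 (k - f * l)).1 (by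
      convert I.add_mem hi (I.mul_mem_left f hl) using 1
      push_cast
      linear_combination -e)
    exact ⟨l + f * m, by push_cast at d; linear_combination d⟩
  · rintro ⟨m, rfl⟩
    push_cast
    exact Ideal.mem_sup_right (Ideal.mul_mem_right _ _ (Ideal.mem_span_singleton_self _))

end form

end Lz

open Lz Hg

variable {K : Type} [Field K] [NumberField K] {j : K →+* Qb} {f c : ℕ} [NeZero f]
  {I : Ideal (𝓞 K)} {τ₀ : ℍ} {R : Finset GQ} {τ : GQ → ℍ}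

/-- **the series as a sum of partial zeta functions** -/
theorem lz1 (r1 : P004K.RC1) (r2 : RC2) (hI : IQ) (iq : Iq K) (up : Upm K) (hc : 0 < c)
    (co : c.Coprime f) (hn : Cn (f * f) I) (hp : Hp (JJ j) (f * f) I c τ₀)
    (t : Tv (GK j) (Hc j c) R) (hτ : ∀ g ∈ R, ∃ σ, Ex σ g ∧ Cj0 σ (f * f) τ₀ (τ g)) :
    ∃ φ ∈ GK j, ∃ (β : (ZMod f)ˣ) (A : GQ → ℝ), Ar j c (I ⊔ Ideal.span {(f : 𝓞 K)}) φ ∧
      (∀ g, 0 < A g) ∧ ∀ (χ : GQ → ℂ) (ψ : DirichletCharacter ℂ f) (θ : Ideal (𝓞 K) → ℂ),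
      Pch j c χ → (∀ B g, Cop c B → Ar j c B g → θ B = χ g * ψ (Ideal.absNorm B)) →
      (∀ B, ¬ Cop c B → θ B = 0) → ∀ s : ℝ, 1 < s → 2 * LI θ s = χ φ * ψ β *
        ∑ g ∈ R, χ g * ((A g : ℂ) ^ (-(s : ℂ)) * ∑ x : ZMod f, ∑ y : ZMod f,
          ψ (x * y) * Ze (vv f (τ g)) (x.val / f * vv f (τ g) + y.val / f) s) := by
  have f0 := NeZero.pos f
  have N0 := mul_pos f0 f0
  obtain ⟨ω, B⟩ := bs hI iq j
  obtain ⟨η, hη, B⟩ := B.ex hn
  obtain ⟨T, n, e⟩ := B.sq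
  obtain ⟨σ', q⟩ := ex_qd B.inj B.bas B.im
  have cn := cn_sup hn
  obtain ⟨u, v, w⟩ := (Nat.isCoprime_iff_coprime.2 co).map (Int.castRingHom (𝓞 K))
  have fm : (f : 𝓞 K) ∈ I ⊔ Ideal.span {(f : 𝓞 K)} :=
    Ideal.mem_sup_right (Ideal.mem_span_singleton_self _)
  obtain ⟨φ, hφ⟩ := (r2 K j iq c hc).1 _ (cop_of (I := I ⊔ Ideal.span {(f : 𝓞 K)})
    (fun z => f0.ne' (Nat.cast_eq_zero.1 (Ideal.mem_bot.1 (z ▸ fm))))
    (Ideal.mul_mem_left _ v fm) (b := u) (by simpa [add_comm, mul_comm] using w))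
  obtain ⟨ω', hω, k⟩ := at_iff.1 hp
  rw [B.st_Oc hc N0 e hn hη] at k
  have hh := hom_ov f0 hω (coe_vv f0 τ₀)
  rw [← ov_mul f0 k, ← B.st_Oc hc f0 e cn (Ideal.mem_sup_left hη)] at hh
  have j0 : jL (lat (vv f τ₀)) = io (φ (jc j c)) := (jL_hom hh (isLat _)).symm.trans hφ.2.symm
  have key : ∀ g, ∃ Q : ℤ × ℤ → ℕ, g ∈ R → jL (lat (vv f (τ g))) = io ((g * φ) (jc j c)) ∧
      (∀ v, (Q v : ℝ) * (vv f (τ g)).im =
        c * (JJ j η).im * Complex.normSq (v.1 * vv f (τ g) + v.2)) ∧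
      ∀ v, (Q v : ZMod f) = (c * T : ℤ) * (v.1 * v.2) := fun g => by
    by_cases hg : g ∈ R
    · obtain ⟨σ, ex, cj⟩ := hτ g hg
      have fx := ex.JJ (t.mem g hg)
      obtain ⟨ψ', t', -⟩ := id cj
      have t2 := t'.homL hω.symm
      obtain ⟨Q, h⟩ := form q hc hη e ((tp_end t2 fx _).2 (kl_Oc η)) ((st_cj N0 hp t2 fx).2 cj)
      obtain ⟨_, t3, -⟩ := cj_V f0 f0 cj
      exact ⟨Q, fun _ => ⟨by rw [t3.jL, j0, ex]; rfl, h⟩⟩
    · exact ⟨0, fun h => absurd h hg⟩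
  choose Q hQ using key
  have cT : IsUnit ((c * T : ℤ) : ZMod f) := (ZMod.coe_int_isUnit_iff_isCoprime _ _).2
    ((Nat.isCoprime_iff_coprime.2 co).mul_left (tr_cop q hn hη e)).symm
  have a0 (g : GQ) : 0 < c * (JJ j η).im / (vv f (τ g)).im :=
    div_pos (mul_pos (Nat.cast_pos.2 hc) q.im) (im_pos _)
  refine ⟨φ, hφ.1, cT.unit, fun g => c * (JJ j η).im / (vv f (τ g)).im * f ^ 2, hφ,
    fun g => mul_pos (a0 g) (by positivity), fun χ ψ θ P t1 t0 s hs => ?_⟩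
  rw [LI, ← main r1 r2 iq up q hc P t (sm ψ K hs) hφ.1 (fun g hg => (hQ g hg).1)
    (fun g hg => (hQ g hg).2.1) (V := fun B => θ B * (Ideal.absNorm B : ℂ) ^ (-(s : ℂ)))
    (fun B g a b => by rw [t1 B g a b, mul_assoc]; rfl) fun B a => by rw [t0 B a, zero_mul],
    mul_assoc, Finset.mul_sum (a := ψ _)]
  refine congrArg _ (Finset.sum_congr rfl fun g hg => ?_)
  rw [split ψ hs (vv f (τ g)) (a0 g) (fun v => by
    rw [div_mul_eq_mul_div, eq_div_iff (im_pos _).ne', (hQ g hg).2.1]) (hQ g hg).2.2, cT.unit_spec]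
  ring

/-- **the leading term at `s = 0`** -/
theorem lz0 (r1 : P004K.RC1) (r2 : RC2) (hI : IQ) (iq : Iq K) (up : Upm K) (hc : 0 < c) (hf : 1 < f)
    (co : c.Coprime f) (hn : Cn (f * f) I) (hp : Hp (JJ j) (f * f) I c τ₀)
    (t : Tv (GK j) (Hc j c) R) (hτ : ∀ g ∈ R, ∃ σ, Ex σ g ∧ Cj0 σ (f * f) τ₀ (τ g)) :
    ∃ φ ∈ GK j, ∃ β : (ZMod f)ˣ, Ar j c (I ⊔ Ideal.span {(f : 𝓞 K)}) φ ∧
      ∀ (χ : GQ → ℂ) (ψ : DirichletCharacter ℂ f) (θ : Ideal (𝓞 K) → ℂ),
      Pch j c χ → (∀ B g, Cop c B → Ar j c B g → θ B = χ g * ψ (Ideal.absNorm B)) →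
      (∀ B, ¬ Cop c B → θ B = 0) → ∃ H : ℂ → ℂ, Differentiable ℂ H ∧
        (∀ s : ℝ, 1 < s → s * H s = (s - 1) * LI θ s) ∧
        H 0 = χ φ * ψ β * ∑ g ∈ R, χ g * LL ψ (vv f (τ g)) := by
  obtain ⟨φ, hφ, β, A, ar, A0, h⟩ := lz1 r1 r2 hI iq up hc co hn hp t hτ
  refine ⟨φ, hφ, β, ar, fun χ ψ θ P t1 t0 => ?_⟩
  have k : ∀ (w : ℍ) (x y : ZMod f), ∃ H : ℂ → ℂ, Differentiable ℂ H ∧
      (∀ s : ℂ, 1 < s.re → s * H s = (s - 1) * (ψ (x * y) * Ze w (x.val / f * w + y.val / f) s)) ∧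
      H 0 = 2 * (ψ (x * y) * (lg w (x.val / f * w + y.val / f) : ℝ)) := fun w x y => by
    by_cases hx : IsUnit x
    · obtain ⟨H, a, b, d⟩ := kl0 w.im_pos (nl_unit hf w hx (y.val / f))
      push_cast at b d
      exact ⟨fun s => ψ (x * y) * H s, a.const_mul _, fun s hs => by
        rw [mul_left_comm, b s hs]; ring, by beta_reduce; rw [d]; ring⟩
    · exact ⟨0, differentiable_const _, by simp [ψ.map_nonunit hx], by simp [ψ.map_nonunit hx]⟩
  choose H d1 d2 d3 using k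
  refine ⟨fun s => 2⁻¹ * (χ φ * ψ β * ∑ g ∈ R, χ g * ((A g : ℂ) ^ (-s) *
    ∑ x, ∑ y, H (vv f (τ g)) x y s)), ?_, fun s hs => ?_, ?_⟩
  · refine (Differentiable.const_mul (Differentiable.fun_sum fun g _ => Differentiable.const_mul
      (Differentiable.mul (differentiable_neg.const_cpow (.inl ?_)) (Differentiable.fun_sum
        fun x _ => Differentiable.fun_sum fun y _ => d1 _ x y)) _) _).const_mul _
    exact Complex.ofReal_ne_zero.2 (A0 g).ne'
  · rw [← mul_right_inj' (two_ne_zero (α := ℂ)), mul_left_comm 2 (s - 1 : ℂ), h χ ψ θ P t1 t0 s hs,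
      mul_left_comm 2, mul_inv_cancel_left₀ two_ne_zero, mul_left_comm (s : ℂ),
      mul_left_comm (s - 1 : ℂ), Finset.mul_sum (a := (s : ℂ)), Finset.mul_sum (a := (s - 1 : ℂ))]
    refine congrArg _ (Finset.sum_congr rfl fun g _ => ?_)
    rw [mul_left_comm (s : ℂ), mul_left_comm (s : ℂ), mul_left_comm (s - 1 : ℂ),
      mul_left_comm (s - 1 : ℂ)]
    simp only [Finset.mul_sum (a := (s : ℂ)), Finset.mul_sum (a := (s - 1 : ℂ)), d2 _ _ _ s hs]
  · simp only [d3, ← Finset.mul_sum, neg_zero, Complex.cpow_zero, one_mul, LL, mul_left_comm _ (2 : ℂ)]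
    ring

end Vale.Agent.P014Z.Su
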