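import Vale.Agent.P014Z.Su.Defs

/-! # P014Z, block SU: formal logarithms of the product expansions -/

set_option autoImplicit false
set_option linter.all false

open PowerSeries Finset

noncomputable section

namespace Vale.Agent.P014Z.Su

open Vale.Agent.P014T.Sg

variable {F : Type} [Field F]

/-- the operator `q d / d q` -/
def tx (A : F⟦X⟧) : F⟦X⟧ := mk fun k => k * coeff k A

theorem coeff_tx (A : F⟦X⟧) (k : ℕ) : coeff k (tx A) = k * coeff k A := coeff_mk _ _

theorem tx_add (A B : F⟦X⟧) : tx (A + B) = tx A + tx B := by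
  ext k
  simp [coeff_tx, mul_add]

theorem tx_sub (A B : F⟦X⟧) : tx (A - B) = tx A - tx B := by
  ext k
  simp [coeff_tx, mul_sub]

theorem tx_C (a : F) (A : F⟦X⟧) : tx (C a * A) = C a * tx A := by
  ext k
  simp [coeff_tx, mul_left_comm]

theorem tx_one : tx (1 : F⟦X⟧) = 0 := by
  ext k
  by_cases h : k = 0 <;> simp [coeff_tx, coeff_one, h]

theorem tx_mul (A B : F⟦X⟧) : tx (A * B) = tx A * B + A * tx B := by
  ext k
  simp only [coeff_tx, map_add, coeff_mul, mul_sum, ← sum_add_distrib]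
  refine sum_congr rfl fun x h => ?_
  rw [← mem_antidiagonal.1 h]
  push_cast
  ring

theorem tx_pow (A : F⟦X⟧) (n : ℕ) : tx (A ^ (n + 1)) = C (n + 1 : F) * (A ^ n * tx A) := by
  induction n with
  | zero => simp
  | succ n i =>
    rw [pow_succ, tx_mul, i]
    simp only [map_add, map_natCast, map_one, Nat.cast_add, Nat.cast_one]
    ring

theorem tx_sum {ι : Type} (s : Finset ι) (A : ι → F⟦X⟧) : tx (∑ i ∈ s, A i) = ∑ i ∈ s, tx (A i) := by
  ext k
  simp [coeff_tx, mul_sum]

theorem tx_dvd {A : F⟦X⟧} {K : ℕ} (h : X ^ K ∣ A) : X ^ K ∣ tx A :=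
  X_pow_dvd_iff.2 fun k hk => by rw [coeff_tx, X_pow_dvd_iff.1 h k hk, mul_zero]

/-- `L` is the logarithm of `Z` -/
structure Lo (Z L : F⟦X⟧) : Prop where
  one : constantCoeff Z = 1
  zero : constantCoeff L = 0
  ode : tx Z = Z * tx L

namespace Lo

variable {Z Z' L L' : F⟦X⟧}

theorem unit : Lo (1 : F⟦X⟧) 0 := ⟨by simp, by simp, by
  rw [tx_one, one_mul]
  ext k
  simp [coeff_tx]⟩

theorem mul (h : Lo Z L) (h' : Lo Z' L') : Lo (Z * Z') (L + L') :=
  ⟨by simp [h.one, h'.one], by simp [h.zero, h'.zero], by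
    rw [tx_mul, tx_add, h.ode, h'.ode]
    ring⟩

theorem pow (h : Lo Z L) (n : ℕ) : Lo (Z ^ n) (C (n : F) * L) := by
  induction n with
  | zero => simpa using unit
  | succ n i =>
    have := i.mul h
    rwa [← pow_succ, show C (n : F) * L + L = C ((n + 1 : ℕ) : F) * L by
      simp only [Nat.cast_add, Nat.cast_one, map_add, map_one]; ring] at this

theorem prod {ι : Type} (s : Finset ι) {A B : ι → F⟦X⟧} (h : ∀ i ∈ s, Lo (A i) (B i)) :
    Lo (∏ i ∈ s, A i) (∑ i ∈ s, B i) := by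
  classical
  induction s using Finset.induction_on with
  | empty => simpa using unit
  | insert a s ha i =>
    rw [prod_insert ha, sum_insert ha]
    exact (h a (mem_insert_self _ _)).mul (i fun j hj => h j (mem_insert_of_mem hj))

theorem cancel (h : Lo Z L) : Z * invOfUnit Z 1 = 1 := mul_invOfUnit _ _ (by simp [h.one])

theorem inv (h : Lo Z L) : Lo (invOfUnit Z 1) (-L) := by
  have e := h.cancel
  refine ⟨by simp, by simp [h.zero], ?_⟩
  have d := congrArg tx e
  rw [tx_mul, tx_one, h.ode] at d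
  have n : tx (-L) = -tx L := by
    ext k
    simp [coeff_tx]
  rw [n]
  linear_combination invOfUnit Z 1 * d - (tx (invOfUnit Z 1) + invOfUnit Z 1 * tx L) * e

theorem lim (h : ∀ K, ∃ A B, Lo A B ∧ X ^ K ∣ Z - A ∧ X ^ K ∣ L - B) : Lo Z L := by
  obtain ⟨A, B, h1, h2, h3⟩ := h 1
  have a := X_pow_dvd_iff.1 h2 0 one_pos
  have b := X_pow_dvd_iff.1 h3 0 one_pos
  simp only [map_sub, coeff_zero_eq_constantCoeff, h1.one, h1.zero, sub_zero, sub_eq_zero] at a b
  refine ⟨a, b, ?_⟩
  ext k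
  obtain ⟨A, B, h1, h2, h3⟩ := h (k + 1)
  have : X ^ (k + 1) ∣ tx Z - Z * tx L := by
    have e : tx Z - Z * tx L = tx (Z - A) - (Z - A) * tx L - A * tx (L - B) := by
      rw [tx_sub, tx_sub, h1.ode]
      ring
    rw [e]
    exact dvd_sub (dvd_sub (tx_dvd h2) (h2.mul_right _)) ((tx_dvd h3).mul_left _)
  have := X_pow_dvd_iff.1 this k k.lt_succ_self
  rwa [map_sub, sub_eq_zero] at this

variable [CharZero F]

theorem uniq (h : Lo Z L) {E : F⟦X⟧} (e0 : constantCoeff E = 1) {K : ℕ}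
    (e : X ^ K ∣ tx E - E * tx L) : ∀ k < K, coeff k Z = coeff k E := fun k => by
  induction k using Nat.strong_induction_on with
  | _ k i =>
    intro hk
    rcases k with _ | k
    · simp [h.one, e0]
    have a := X_pow_dvd_iff.1 e _ hk
    have b := congrArg (coeff (k + 1)) h.ode
    rw [map_sub, sub_eq_zero] at a
    rw [coeff_tx, coeff_mul] at a b
    refine mul_left_cancel₀ (Nat.cast_ne_zero.2 k.succ_ne_zero : ((k + 1 : ℕ) : F) ≠ 0) ?_
    rw [a, b]
    refine sum_congr rfl fun x hx => ?_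
    have := mem_antidiagonal.1 hx
    by_cases z : x.2 = 0
    · simp [coeff_tx, z]
    · rw [i x.1 (by omega) (by omega)]

/-- the exponential series -/
theorem exp (h : Lo Z L) (k : ℕ) :
    coeff k Z = ∑ i ∈ range (k + 2), ((i.factorial : F))⁻¹ * coeff k (L ^ i) := by
  have c : ∀ n, tx (∑ i ∈ range (n + 1), C ((i.factorial : F))⁻¹ * L ^ i) =
      (∑ i ∈ range n, C ((i.factorial : F))⁻¹ * L ^ i) * tx L := fun n => by
    rw [tx_sum, sum_range_succ', sum_mul]
    simp only [tx_C, pow_zero, tx_one, mul_zero, add_zero]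
    refine sum_congr rfl fun i _ => ?_
    have : ((i + 1 : ℕ) : F) ≠ 0 := Nat.cast_ne_zero.2 i.succ_ne_zero
    have : (i.factorial : F) ≠ 0 := Nat.cast_ne_zero.2 i.factorial_ne_zero
    rw [tx_pow, ← mul_assoc, ← map_mul, mul_assoc (C _), Nat.factorial_succ]
    congr 2
    push_cast at *
    field_simp
  have := h.uniq (E := ∑ i ∈ range (k + 2), C ((i.factorial : F))⁻¹ * L ^ i) (K := k + 1) (by
    rw [sum_range_succ']
    simp [h.zero]) (by
    rw [c, sum_range_succ _ (k + 1), add_mul, sub_add_cancel_left, dvd_neg]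
    exact ((pow_dvd_pow_of_dvd (X_dvd_iff.2 h.zero) _).mul_left _).mul_right _) k k.lt_succ_self
  rw [this, map_sum]
  simp only [coeff_C_mul]

end Lo

/-! ### the products -/

/-- the logarithm of `1 - u X ^ e` -/
def l1 (u : F) (e : ℕ) : F⟦X⟧ := mk fun k => if e ∣ k then -(u ^ (k / e) / (k / e : ℕ)) else 0

theorem lo_l1 [CharZero F] (u : F) {e : ℕ} (he : 0 < e) : Lo (1 - C u * X ^ e) (l1 u e) := by
  refine ⟨by simp [he.ne'], by simp [l1], ?_⟩
  have a : ∀ k, coeff k (tx (l1 u e)) = if e ∣ k ∧ k ≠ 0 then -(e * u ^ (k / e)) else 0 :=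
    fun k => by
      rw [coeff_tx, l1, coeff_mk]
      by_cases d : e ∣ k
      · obtain ⟨j, rfl⟩ := d
        by_cases z : j = 0
        · simp [z]
        · have : (j : F) ≠ 0 := Nat.cast_ne_zero.2 z
          rw [if_pos (dvd_mul_right _ _), if_pos ⟨dvd_mul_right _ _, by positivity⟩,
            Nat.mul_div_cancel_left _ he]
          push_cast
          field_simp
      · simp [d]
  ext k
  rw [tx_sub, tx_one, tx_C, sub_mul, one_mul, mul_assoc, map_sub, map_sub, coeff_C_mul, coeff_C_mul,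
    coeff_X_pow_mul', coeff_tx, coeff_X_pow, a]
  by_cases l : e ≤ k
  · obtain ⟨j, rfl⟩ := Nat.exists_eq_add_of_le l
    rw [if_pos l, Nat.add_sub_cancel_left, a]
    by_cases z : j = 0
    · simp [z, he.ne', Nat.div_self he, mul_comm]
    · by_cases d : e ∣ j
      · rw [if_neg (by omega), if_pos ⟨(Nat.dvd_add_right dvd_rfl).2 d, by omega⟩, if_pos ⟨d, z⟩,
          Nat.add_div_left _ he, pow_succ]
        simp
        ring
      · rw [if_neg (by omega), if_neg fun x => d ((Nat.dvd_add_right dvd_rfl).1 x.1),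
          if_neg fun x => d x.1]
        simp
  · rw [if_neg l, if_neg (by omega), if_neg fun x => l (Nat.le_of_dvd (by omega) x.1)]
    simp

/-- the logarithm of `∏ (1 - u X ^ d)`, `d ≡ x` modulo `f` -/
def lf (f : ℕ) (u : F) (x : ZMod f) : F⟦X⟧ :=
  mk fun k => -∑ y ∈ k.divisorsAntidiagonal with (y.1 : ZMod f) = x, u ^ y.2 / y.2

theorem lo_pf [CharZero F] {f : ℕ} (u : F) {a : ℕ} (h0 : 0 < a) (ha : a ≤ f) :
    Lo (pf u a f) (lf f u a) := by
  have hf : 0 < f := h0.trans_le ha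
  refine Lo.lim fun K => ⟨_, _, Lo.prod (range K) fun n _ => lo_l1 u (e := a + n * f) (by omega),
    pf_dvd u a hf K, X_pow_dvd_iff.2 fun k hk => ?_⟩
  rw [map_sub, sub_eq_zero, lf, coeff_mk, map_sum]
  simp only [l1, coeff_mk]
  rcases Nat.eq_zero_or_pos k with rfl | k0
  · simp
  rw [← sum_filter, sum_neg_distrib, neg_inj]
  symm
  refine sum_bij (fun n _ => (a + n * f, k / (a + n * f))) (fun n hn => ?_) (fun n _ m _ e => ?_)
    (fun y hy => ?_) fun n _ => rfl
  · rw [mem_filter] at hn ⊢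
    exact ⟨Nat.mem_divisorsAntidiagonal.2 ⟨Nat.mul_div_cancel' hn.2, k0.ne'⟩, by simp⟩
  · have := (Prod.ext_iff.1 e).1
    exact Nat.eq_of_mul_eq_mul_right hf (by simpa using this)
  · rw [mem_filter, Nat.mem_divisorsAntidiagonal] at hy
    have y0 : 0 < y.1 := Nat.pos_of_ne_zero fun z => by simp [z] at hy; omega
    have yk : y.1 ≤ k := Nat.le_of_dvd k0 ⟨_, hy.1.1.symm⟩
    have m := (ZMod.natCast_eq_natCast_iff _ _ _).1 hy.2
    have l : a ≤ y.1 := by
      by_contra l
      have := Nat.le_of_dvd (by omega) ((Nat.modEq_iff_dvd' (by omega)).1 m)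
      omega
    obtain ⟨n, hn⟩ := (Nat.modEq_iff_dvd' l).1 m.symm
    have e : a + n * f = y.1 := by rw [mul_comm]; omega
    refine ⟨n, mem_filter.2 ⟨mem_range.2 (by nlinarith), e ▸ ⟨_, hy.1.1.symm⟩⟩, ?_⟩
    rw [e, ← hy.1.1, Nat.mul_div_cancel_left _ y0]

end Vale.Agent.P014Z.Su
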